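import Vale.Agent.P214.BINST.Props

/-!
# P214, target B, block BINST: assembly of `BABS.Good`
-/

open Set Filter Topology MeasureTheory Metric
open scoped RealInnerProductSpace ContDiff

set_option linter.all false

namespace Vale.Agent.P214.BINST

open WIN FM INST
open WSEQ (th)
open BSEQ (Exps WSeq LocB)

variable {m n Q : ℕ} {E : Type*} [NormedAddCommGroup E] [InnerProductSpace ℝ E]
  [FiniteDimensional ℝ E] [MeasurableSpace E] [BorelSpace E]

/-- finitely many statements hold for the same constants -/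
lemma Ev.and {p q : ∀ (T : Submodule ℝ E) (F : Frame m n T) (ν : Measure E)
      (P : E → E →L[ℝ] E) (X : Exps) (C ε : ℝ), WSeq m n Q T F ν X C ε → ℝ → ℝ → Prop}
    (hp : Ev E m n Q p) (hq : Ev E m n Q q) :
    Ev E m n Q fun T F ν P X C ε S b A => p T F ν P X C ε S b A ∧ q T F ν P X C ε S b A := by
  intro X C
  obtain ⟨b1, hb1, h1⟩ := hp X C
  obtain ⟨b2, hb2, h2⟩ := hq X C
  refine ⟨min b1 b2, lt_min hb1 hb2, fun b hb hbb => ?_⟩
  obtain ⟨A1, hA1, h1⟩ := h1 b hb (hbb.trans (min_le_left _ _))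
  obtain ⟨A2, hA2, h2⟩ := h2 b hb (hbb.trans (min_le_right _ _))
  refine ⟨max A1 A2, hA1.trans (le_max_left _ _), fun A hA => ?_⟩
  obtain ⟨a, ha, h1⟩ := h1 A ((le_max_left _ _).trans hA)
  obtain ⟨a', ha', h2⟩ := h2 A ((le_max_right _ _).trans hA)
  refine ⟨min a a', lt_min ha ha', fun T F ν P ε τ S hS hε => ?_⟩
  exact ⟨h1 T F ν P ε τ S hS (hε.trans (min_le_left _ _)),
    h2 T F ν P ε τ S hS (hε.trans (min_le_right _ _))⟩

/-- consequences, with the context available -/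
lemma Ev.mono {p q : ∀ (T : Submodule ℝ E) (F : Frame m n T) (ν : Measure E)
      (P : E → E →L[ℝ] E) (X : Exps) (C ε : ℝ), WSeq m n Q T F ν X C ε → ℝ → ℝ → Prop}
    (hp : Ev E m n Q p) (h : ∀ (T : Submodule ℝ E) (F : Frame m n T) (ν : Measure E)
      (P : E → E →L[ℝ] E) (X : Exps) (C ε τ : ℝ) (S : WSeq m n Q T F ν X C ε) (b A : ℝ),
      Ctx P τ S → 0 < b → 1 ≤ A → p T F ν P X C ε S b A → q T F ν P X C ε S b A) :
    Ev E m n Q q := by
  intro X C
  obtain ⟨b1, hb1, h1⟩ := hp X C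
  refine ⟨b1, hb1, fun b hb hbb => ?_⟩
  obtain ⟨A1, hA1, h1⟩ := h1 b hb hbb
  refine ⟨A1, hA1, fun A hA => ?_⟩
  obtain ⟨a, ha, h1⟩ := h1 A hA
  exact ⟨a, ha, fun T F ν P ε τ S hS hε =>
    h T F ν P X C ε τ S b A hS hb (hA1.trans hA) (h1 T F ν P ε τ S hS hε)⟩

/-- **the chain of a point with power decay is good** -/
theorem good_of_stmts {k K : ℝ → ℝ} (hfat : FatStmt E m n Q)
    (hode : OdeStmt E m n Q k K) (hpow : PowerStmt E m n Q k K) (hlim : LimStmt E m n Q k K)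
    (hsoft : SoftStmt E m n Q k K) (hsw : SwitchStmt E m n Q k K) : GoodStmt E m n Q k K := by
  have hall := ((((hfat.and hode).and hpow).and hlim).and hsoft).and hsw
  refine Ev.mono hall fun T F ν P X C ε τ S b A hS hb hA h hb1 => ?_
  obtain ⟨⟨⟨⟨⟨⟨k₀, hk₀⟩, h1⟩, h2⟩, h3⟩, h4⟩, h5⟩ := h
  obtain ⟨e, e1, e2, e3, e4, e5⟩ := h5 k₀ hk₀
  obtain ⟨s1, s2, s3, s4, s5⟩ := h4 k₀ e hk₀
  refine ⟨k₀, e, ?_⟩
  exact
    { β_pos := hb
      β_le := hb1
      K_one := hA
      κ_nn := zero_le_one.trans hA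
      c_pos := hb
      T_pos := s1
      T_anti := s2
      T_lim := s3
      T_one := s4
      hasH := fun i t ht => (s5 i t ht).1
      hasa := fun i t ht => (s5 i t ht).2.1
      H_pos := fun i t ht => (s5 i t ht).2.2.1
      h_le := fun i t ht => (s5 i t ht).2.2.2
      ode := h1 k₀ e hk₀
      power := h2 k₀ e hk₀
      alim := h3 k₀ e hk₀
      switch := e1
      e_pos := e2
      e_pow := e3
      growth := e4
      e_le := e5 }

end Vale.Agent.P214.BINST
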