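import Vale.Agent.P214.BINST.Inp0
import Vale.Agent.P214.INST.Cyl

/-!
# P214, block BINST: one window in Fermi coordinates, without sequences

* `sup_one` : from `hN w (r (1 - 8θ)) ≤ C h^{1-e}`, `θ = th h`, to `|co y - w y| ≤ r h^{2/5}` over
  `ball 0 (r (1 - 17/2 θ))`;
* `cyl_one` : `CylF` over `ball 0 (r (1 - 9θ))` with tube `r h^{1/5}`.
-/

open Set Filter Topology MeasureTheory Metric
open scoped RealInnerProductSpace ContDiff

set_option linter.all false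

namespace Vale.Agent.P214.BINST

open Vale.Agent.P214.WIN Vale.Agent.P214.WSEQ Vale.Agent.P214.FM Vale.Agent.P214.HS
  Vale.Agent.P214.FV Vale.Agent.P214.KMS Vale.Agent.P214.STR

variable {E : Type*} [NormedAddCommGroup E] [InnerProductSpace ℝ E] [FiniteDimensional ℝ E]
  [MeasurableSpace E] [BorelSpace E]

/-- **sup of the heights over the reference of one window** -/
theorem sup_one (E : Type*) [NormedAddCommGroup E] [InnerProductSpace ℝ E] [FiniteDimensional ℝ E]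
    [MeasurableSpace E] [BorelSpace E] (m : ℕ) (C : ℝ) :
    ∃ ε₀ : ℝ, 0 < ε₀ ∧ ε₀ < 1 ∧ ∀ (T : Submodule ℝ E) (w : E → E) (ν : Measure E)
      (P : E → E →L[ℝ] E) (Q : ℕ) (r h κ h₀ δ e : ℝ), 0 < h → h ≤ ε₀ → th h ≤ 1 / 120 → 0 < r →
      e ≤ 1 / 10 →
      Skel.IntCyl m Q T 0 (r * (1 - 8 * th h)) h₀ δ ν P → Vale.Agent.P214.KMS.Ref T w →
      (∀ y, T.starProjection y ∈ ball (0:E) (r * (1 - 8 * th h)) →
        lap w (gpl T (fderiv ℝ w y)).starProjection y = 0) →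
      (∀ y, T.starProjection y ∈ ball (0:E) (r * (1 - 8 * th h)) → ‖fderiv ℝ w y‖ ≤ 1) →
      (∀ y, T.starProjection y ∈ ball (0:E) (r * (1 - 8 * th h)) →
        ‖fderiv ℝ (fderiv ℝ w) y‖ ≤ κ) → 0 ≤ κ → κ * r ≤ 1 →
      hN m T w ν (r * (1 - 8 * th h)) ≤ C * h ^ (1 - e) →
      ∀ᵐ y ∂ν, T.starProjection y ∈ ball (0:E) (r * (1 - 17 / 2 * th h)) →
        ‖co T y - w y‖ ≤ r * h ^ (2 / 5 : ℝ) := by
  have hcg := cg_pos m
  set C₁ : ℝ := Real.exp (3 * m / 2) / cg m with hC₁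
  have hC₁0 : 0 < C₁ := by positivity
  set D : ℝ := C₁ * 4 ^ m * max C 0 + 1 with hD
  have hD0 : 0 < D := by positivity
  obtain ⟨ε₂, hε₂, hε₂1, hth⟩ := INST.exists_th_small (a := 1 / 10) (by norm_num) m (η := 1 / D)
    (by positivity)
  refine ⟨ε₂, hε₂, hε₂1, ?_⟩
  intro T w ν P Q r h κ h₀ δ e hh hhε hθ1 hr he hI hw hex hs1 hs2 hκ hκr htop
  obtain ⟨hθ, hsm⟩ := hth h hh hhε
  have hh1 : h ≤ 1 := hhε.trans hε₂1.le
  set θ := th h with hθd
  set R := r * (1 - 8 * θ) with hR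
  have hR0 : 0 < R := by
    have : 0 < 1 - 8 * θ := by linarith
    positivity
  have hRr : R ≤ r := mul_le_of_le_one_right hr.le (by linarith)
  have hrθ : 0 < r * θ := by positivity
  have hs : 0 < r * θ / 4 := by positivity
  have hC0 : C ≤ max C 0 := le_max_left _ _
  have hfin := hI.cyl.fin
  have hEe : hE T w ν R ≤ r ^ (m + 2) * (max C 0 * h ^ (1 - e)) := by
    have h1 : (R ^ (m + 2))⁻¹ * hE T w ν R ≤ max C 0 * h ^ (1 - e) := by
      refine htop.trans ?_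
      have := Real.rpow_nonneg hh.le (1 - e)
      gcongr
    rw [inv_mul_le_iff₀ (by positivity)] at h1
    refine h1.trans ?_
    have := Real.rpow_nonneg hh.le (1 - e)
    gcongr
  have hE0 : 0 ≤ hE T w ν R := integral_nonneg fun _ => sq_nonneg _
  filter_upwards [Measure.support_mem_ae (μ := ν)] with y hy hyb
  rw [mem_ball, dist_zero_right] at hyb
  have hyR : ‖T.starProjection y - 0‖ + r * θ / 4 < R := by
    rw [sub_zero, hR]; nlinarith
  have key := HSW.sup_rel (κ := κ) (s := r * θ / 4) hI hw hex hs1 hs2 hy hs hyR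
  -- the exponential
  have h2 : Real.exp (3 * m * κ ^ 2 * (r * θ / 4) ^ 2 / 2) ≤ Real.exp (3 * m / 2) := by
    refine Real.exp_le_exp.2 ?_
    have h3 : κ * (r * θ / 4) ≤ 1 := by
      calc κ * (r * θ / 4) = (κ * r) * (θ / 4) := by ring
        _ ≤ 1 * 1 := by gcongr; linarith
        _ = 1 := one_mul 1
    have h4 : κ ^ 2 * (r * θ / 4) ^ 2 ≤ 1 := by
      calc κ ^ 2 * (r * θ / 4) ^ 2 = (κ * (r * θ / 4)) ^ 2 := by ring
        _ ≤ 1 := by
          have : 0 ≤ κ * (r * θ / 4) := by positivity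
          nlinarith
    have hm : (0:ℝ) ≤ m := Nat.cast_nonneg m
    nlinarith
  have hint := HSW.integrableOn_rel_sq hI.cyl hw (T.starProjection y) hyR
  have hint' : IntegrableOn (fun y => ‖KMS.rel T w y‖ ^ 2) (Skel.cylSet T 0 R) ν := by
    -- closed balls are compact: continuity of `w`
    have hcw : Continuous w := hw.smooth.continuous
    obtain ⟨C', hC'⟩ := (isCompact_closedBall (0:E) R).exists_bound_of_continuousOn hcw.continuousOn
    refine Integrable.mono' (integrable_const ((h₀ + C') ^ 2)) ?_ ?_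
    · exact ((hw.contDiff_rel.continuous.norm.pow 2).aestronglyMeasurable)
    · rw [ae_restrict_iff' (KMS.measurableSet_cylSet T 0 R)]
      filter_upwards [hI.cyl.slab] with y' hy' hyc
      have h1 := hy' hyc
      rw [Real.norm_of_nonneg (by positivity)]
      have h5 : ‖w y'‖ ≤ C' := by
        rw [hw.base y']
        exact hC' _ (ball_subset_closedBall hyc)
      have h3 : ‖KMS.rel T w y'‖ ≤ h₀ + C' := by
        unfold KMS.rel
        refine (norm_sub_le _ _).trans ?_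
        rw [co_apply]
        linarith
      gcongr
  have h1 : ∫ y' in Skel.cylSet T (T.starProjection y) (r * θ / 4), ‖KMS.rel T w y'‖ ^ 2 ∂ν
      ≤ hE T w ν R := by
    refine setIntegral_mono_set hint' (Eventually.of_forall fun _ => sq_nonneg _)
      (Eventually.of_forall fun y' hy' => ?_)
    change T.starProjection y' ∈ ball (T.starProjection y) (r * θ / 4) at hy'
    change T.starProjection y' ∈ ball (0 : E) R
    rw [mem_ball] at hy' ⊢
    have := dist_triangle (T.starProjection y') (T.starProjection y) 0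
    rw [dist_zero_right (T.starProjection y)] at this
    rw [sub_zero] at hyR
    linarith
  have h3 : cg m * ‖KMS.rel T w y‖ ^ 2 ≤ Real.exp (3 * m / 2) *
      (hE T w ν R / (r * θ / 4) ^ m) := by
    refine key.trans ?_
    gcongr
  have h4 : ‖KMS.rel T w y‖ ^ 2 ≤ C₁ * (hE T w ν R / (r * θ / 4) ^ m) := by
    calc ‖KMS.rel T w y‖ ^ 2 = (cg m * ‖KMS.rel T w y‖ ^ 2) / cg m := by field_simp
      _ ≤ (Real.exp (3 * m / 2) * (hE T w ν R / (r * θ / 4) ^ m)) / cg m := by gcongr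
      _ = _ := by rw [hC₁]; ring
  have h5 : ‖co T y - w y‖ ^ 2 ≤ (r * h ^ (2 / 5 : ℝ)) ^ 2 := by
    have h6 : ‖co T y - w y‖ = ‖KMS.rel T w y‖ := rfl
    rw [h6]
    refine h4.trans ?_
    have e2 : (h ^ (2 / 5 : ℝ)) ^ 2 = h ^ (4 / 5 : ℝ) := by
      rw [← Real.rpow_natCast, ← Real.rpow_mul hh.le]
      norm_num
    have e3 : h ^ (1 - e) ≤ h ^ (1 / 10 : ℝ) * h ^ (4 / 5 : ℝ) := by
      rw [← Real.rpow_add hh]
      exact Real.rpow_le_rpow_of_exponent_ge hh hh1 (by linarith)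
    have hp := Real.rpow_nonneg hh.le (4 / 5 : ℝ)
    have e1 : ∀ A : ℝ, A / (r * θ / 4) ^ m = A * (4 ^ m * (θ⁻¹) ^ m * r⁻¹ ^ m) := by
      intro A
      rw [← mul_pow, ← mul_pow, div_eq_mul_inv, ← inv_pow]
      congr 2
      field_simp
    calc C₁ * (hE T w ν R / (r * θ / 4) ^ m)
        ≤ C₁ * ((r ^ (m + 2) * (max C 0 * (h ^ (1 / 10 : ℝ) * h ^ (4 / 5 : ℝ)))) *
          (4 ^ m * (θ⁻¹) ^ m * r⁻¹ ^ m)) := by
          rw [e1]
          have h7 : r ^ (m + 2) * (max C 0 * h ^ (1 - e)) ≤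
              r ^ (m + 2) * (max C 0 * (h ^ (1 / 10 : ℝ) * h ^ (4 / 5 : ℝ))) := by gcongr
          have h8 := hEe.trans h7
          gcongr
      _ = (C₁ * 4 ^ m * max C 0) * ((θ⁻¹) ^ m * h ^ (1 / 10 : ℝ)) *
          (r ^ 2 * h ^ (4 / 5 : ℝ)) := by
          have : r⁻¹ ^ m * r ^ (m + 2) = r ^ 2 := by
            rw [pow_add, ← mul_assoc, ← mul_pow, inv_mul_cancel₀ hr.ne', one_pow, one_mul]
          calc _ = (C₁ * 4 ^ m * max C 0) * ((θ⁻¹) ^ m * h ^ (1 / 10 : ℝ)) *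
              ((r⁻¹ ^ m * r ^ (m + 2)) * h ^ (4 / 5 : ℝ)) := by ring
            _ = _ := by rw [this]
      _ ≤ D * (1 / D) * (r ^ 2 * h ^ (4 / 5 : ℝ)) := by
          have h9 : (θ⁻¹) ^ m * h ^ (1 / 10 : ℝ) ≤ 1 / D := by
            calc (θ⁻¹) ^ m * h ^ (1 / 10 : ℝ) ≤ (θ⁻¹) ^ m * (1 / D * θ ^ m) := by gcongr
              _ = 1 / D * ((θ⁻¹) ^ m * θ ^ m) := by ring
              _ = 1 / D := by rw [← mul_pow, inv_mul_cancel₀ hθ.ne', one_pow, mul_one]
          have h10 : C₁ * 4 ^ m * max C 0 ≤ D := by rw [hD]; linarith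
          have h11 : 0 ≤ (θ⁻¹) ^ m * h ^ (1 / 10 : ℝ) := by positivity
          gcongr
      _ = (r * h ^ (2 / 5 : ℝ)) ^ 2 := by
          rw [mul_one_div_cancel hD0.ne', one_mul, mul_pow, e2]
  exact abs_le_of_sq_le_sq' h5 (by positivity) |>.2

/-- **`CylF` over one window**, tube `r h^{1/5}` -/
theorem cyl_one : ∃ ε₀ : ℝ, 0 < ε₀ ∧ ε₀ < 1 ∧ ∀ {E : Type*} [NormedAddCommGroup E]
    [InnerProductSpace ℝ E] [FiniteDimensional ℝ E] [MeasurableSpace E] [BorelSpace E] {m : ℕ}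
    {T : Submodule ℝ E} {w : E → E} {ν : Measure E} {P : E → E →L[ℝ] E} {G : Set E}
    {r h η κ h₀ : ℝ}, 0 < h → h ≤ ε₀ → 0 < r → CylStat m T G h₀ ν P →
      ball (0:E) (r * (1 - 17 / 2 * th h)) ⊆ G → Adm T w η κ (r * h ^ (1 / 5 : ℝ)) →
      (∀ᵐ y ∂ν, T.starProjection y ∈ ball (0:E) (r * (1 - 17 / 2 * th h)) →
        ‖co T y - w y‖ ≤ r * h ^ (2 / 5 : ℝ)) →
      CylF m T w (r * h ^ (1 / 5 : ℝ)) (ball (0:E) (r * (1 - 9 * th h)))
        (2 * (r * h ^ (2 / 5 : ℝ))) (fmeas T w (r * h ^ (1 / 5 : ℝ)) ν)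
        (fP T w (r * h ^ (1 / 5 : ℝ)) P) := by
  obtain ⟨ε₁, hε₁, hε₁1, hth⟩ := INST.exists_th_small (a := 1 / 5) (by norm_num) 1 (η := 1 / 4)
    (by positivity)
  refine ⟨min ε₁ (1 / 100000), by positivity, (min_le_left _ _).trans_lt hε₁1, ?_⟩
  intro E _ _ _ _ _ m T w ν P G r h η κ h₀ hh hhε hr hC hG H hs
  obtain ⟨hθ, hsm⟩ := hth h hh (hhε.trans (min_le_left _ _))
  rw [pow_one] at hsm
  have hp : 0 < h ^ (1 / 5 : ℝ) := Real.rpow_pos_of_pos hh _
  have hε := H.eps_le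
  have hε0 := H.ref.eps_nonneg
  refine cylF_of_sup hC H hG ?_ hs ?_ (by positivity)
  · have h1 : 2 * η * (r * h ^ (1 / 5 : ℝ)) ≤ 2 * (1 / 16) * (r * (1 / 4 * th h)) := by gcongr
    nlinarith [mul_pos hr hθ]
  · have h2 : h ^ (2 / 5 : ℝ) = h ^ (1 / 5 : ℝ) * h ^ (1 / 5 : ℝ) := by
      rw [← Real.rpow_add hh]; norm_num
    have h3 : h ^ (1 / 5 : ℝ) ≤ 1 / 8 := by
      have h4 : h ^ (1 / 5 : ℝ) ≤ (1 / 100000) ^ (1 / 5 : ℝ) :=
        Real.rpow_le_rpow hh.le (hhε.trans (min_le_right _ _)) (by norm_num)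
      have h5 : ((1:ℝ) / 100000) ^ (1 / 5 : ℝ) = 1 / 10 := by
        rw [show (1:ℝ) / 100000 = (1 / 10) ^ (5 : ℕ) by norm_num, ← Real.rpow_natCast,
          ← Real.rpow_mul (by norm_num)]
        norm_num
      rw [h5] at h4
      linarith
    rw [h2]
    have h6 : 0 < r * h ^ (1 / 5 : ℝ) := by positivity
    nlinarith

end Vale.Agent.P214.BINST
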