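import Vale.Agent.P214.BINST.Props
import Vale.Agent.P214.BINST.CylOne
import Vale.Agent.P214.INST.Tube
import Vale.Agent.P214.INST.TubeW

/-!
# P214, target B, block BINST: the windows in Fermi coordinates (`CylStmt`)

* `sup_window` : sup of the heights over the reference of a window;
* `cylStmt` : `RefsStmt → CylStmt`.
-/

open Set Filter Topology MeasureTheory Metric
open scoped RealInnerProductSpace ContDiff

set_option linter.all false

namespace Vale.Agent.P214.BINST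

open WIN FM INST
open WSEQ (th)
open BSEQ (Exps WSeq LocB)

variable {m n Q : ℕ} {E : Type*} [NormedAddCommGroup E] [InnerProductSpace ℝ E]
  [FiniteDimensional ℝ E] [MeasurableSpace E] [BorelSpace E]

lemma r_anti_B {T : Submodule ℝ E} {F : Frame m n T} {ν : Measure E} {X : Exps} {C ε : ℝ}
    (S : WSeq m n Q T F ν X C ε) (hθ : ∀ j, 0 ≤ th (S.h j)) (j : ℕ) :
    S.r (j + 1) ≤ S.r j * (1 - 12 * th (S.h j)) ∧ S.r j ≤ 3 / 16 := by
  have h1 : ∀ j, S.r (j + 1) ≤ S.r j * (1 - 12 * th (S.h j)) := fun j => (S.nxt j).r_le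
  refine ⟨h1 j, ?_⟩
  induction j with
  | zero => rw [S.r_zero]
  | succ j ih =>
    exact (h1 j).trans ((mul_le_of_le_one_right (S.r_pos j).le (by linarith [hθ j])).trans ih)

/-- **[B0]** sup of the heights over the reference of a window -/
theorem sup_window_B (E : Type*) [NormedAddCommGroup E] [InnerProductSpace ℝ E]
    [FiniteDimensional ℝ E] [MeasurableSpace E] [BorelSpace E] (m n Q : ℕ) :
    ∃ ε₀ : ℝ, 0 < ε₀ ∧ ε₀ < 1 ∧ ∀ (T : Submodule ℝ E) (F : Frame m n T) (ν : Measure E)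
      (P : E → E →L[ℝ] E) (X : Exps) (C ε τ : ℝ) (S : WSeq m n Q T F ν X C ε),
      Ctx P τ S → ε ≤ ε₀ → ∀ j,
    ∀ᵐ y ∂ν, T.starProjection y ∈ ball (0:E) (S.r j * (1 - 17 / 2 * th (S.h j))) →
      ‖FV.co T y - wr S j y‖ ≤ S.r j * S.h j ^ (2 / 5 : ℝ) := by
  obtain ⟨ε₁, hε₁, hε₁1, hsup⟩ := sup_one E m 1
  obtain ⟨ε₂, hε₂, hε₂1, hth⟩ := exists_th_small (a := 1) (by norm_num) 0 (η := 1)
    (by positivity)
  refine ⟨min (min ε₁ ε₂) (1 / ((n : ℝ) + 1)), by positivity,
    ((min_le_left _ _).trans (min_le_left _ _)).trans_lt hε₁1, ?_⟩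
  intro T F ν P X C ε τ S hctx hε j
  have hε1 : ε ≤ ε₁ := hε.trans ((min_le_left _ _).trans (min_le_left _ _))
  have hε2 : ε ≤ ε₂ := hε.trans ((min_le_left _ _).trans (min_le_right _ _))
  have hε3 : ε ≤ 1 / ((n : ℝ) + 1) := hε.trans (min_le_right _ _)
  have hε0 := hctx.ε_pos
  have hn : (0:ℝ) ≤ n := Nat.cast_nonneg n
  have hnε : n * ε ≤ 1 := by
    have : (n:ℝ) * ε ≤ n * (1 / ((n : ℝ) + 1)) := by gcongr
    refine this.trans ?_
    rw [mul_one_div, div_le_one (by positivity)]; linarith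
  have hθ : ∀ i, 0 < th (S.h i) := fun i =>
    (hth _ (S.h_pos i) ((S.h_le i).trans hε2)).1
  have hj := S.h_pos j
  have hr := S.r_pos j
  obtain ⟨-, hr1⟩ := r_anti_B S (fun i => (hθ i).le) j
  have hθ1 := S.th_le j
  have hθj := hθ j
  have hR0 : 0 < S.r j * (1 - 8 * th (S.h j)) := by
    have : 0 < 1 - 8 * th (S.h j) := by linarith
    positivity
  have hRr : S.r j * (1 - 8 * th (S.h j)) ≤ S.r j := mul_le_of_le_one_right hr.le (by linarith)
  have hI := hctx.loc.int (S.r j * (1 - 8 * th (S.h j))) hR0 (by linarith)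
  have hsm := (S.nxt j).smooth
  have hsm2 : ∀ a, ContDiff ℝ 2 (S.u (j + 1) a) := fun a => (hsm a).of_le
    (WithTop.coe_le_coe.2 le_top)
  have hb : ∀ k, 1 ≤ k → k ≤ 2 → ∀ y, ‖iteratedFDeriv ℝ k (wr S j) y‖ ≤
      n * ε * (S.r j * (S.r j)⁻¹ ^ k) := by
    intro k hk1 hk2 y
    have hsmk : ∀ a, ContDiff ℝ (k : ℕ) (S.u (j + 1) a) := fun a => (hsm a).of_le
      (WithTop.coe_le_coe.2 le_top)
    refine (COORD.norm_iteratedFDeriv_lift F hsmk y).trans ?_
    calc _ ≤ ∑ _a : Fin n, ε * (S.r j * (S.r j)⁻¹ ^ k) :=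
          Finset.sum_le_sum fun a _ => (S.nxt j).small a k hk1 (by unfold sW; omega) _
      _ = _ := by simp; ring
  refine hsup T (wr S j) ν P Q (S.r j) (S.h j) (n * ε * (S.r j * (S.r j)⁻¹ ^ 2)) _ _ X.e' hj
    ((S.h_le j).trans hε1) hθ1 hr ?_ hI (COORD.kms_ref_lift F hsm) ?_ ?_ ?_ (by positivity) ?_ ?_
  · have := hctx.ok.e'_le
    have := hctx.ok.c_le
    linarith
  · intro y hy
    refine (COORD.lap_lift_eq_zero_iff F hsm2 y).2 fun a => (S.nxt j).exact a _ ?_
    rw [F.norm_xc]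
    rw [mem_ball_zero_iff] at hy
    refine hy.trans_le ?_
    gcongr
    linarith
  · intro y _
    have := hb 1 le_rfl (by norm_num) y
    rw [norm_iteratedFDeriv_one, pow_one, mul_inv_cancel₀ hr.ne', mul_one] at this
    exact this.trans hnε
  · intro y _
    have := hb 2 (by norm_num) le_rfl y
    rw [← norm_iteratedFDeriv_fderiv, norm_iteratedFDeriv_one] at this
    exact this
  · have e1 : n * ε * (S.r j * (S.r j)⁻¹ ^ 2) * S.r j = n * ε := by
      field_simp
    rw [e1]; exact hnε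
  · have h1 : S.h j ^ X.c₅ ≤ 1 - 12 * th (S.h j) := by
      have h2 := (S.nxt j).r_ge.trans (S.nxt j).r_le
      exact le_of_mul_le_mul_left h2 hr
    have := (S.nxt j).top (S.r j * (1 - 8 * th (S.h j))) (by
      gcongr; linarith) le_rfl
    rw [one_mul]
    exact this

/-- **[B-CYL]** -/
theorem cylStmt (hR : RefsStmt E m n Q) : CylStmt E m n Q := by
  intro η hη hη0 X C
  obtain ⟨ε₁, hε₁, hε₁1, hs⟩ := sup_window_B E m n Q
  obtain ⟨ε₂, hε₂, hε₂1, hcyl⟩ := cyl_one
  obtain ⟨b₀, hb₀, href⟩ := hR (η / 4) (by positivity) (by linarith) X C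
  refine ⟨b₀, hb₀, fun b hb hbb => ?_⟩
  obtain ⟨A₀, hA₀, href⟩ := href b hb hbb
  refine ⟨A₀, hA₀, fun A hA => ?_⟩
  obtain ⟨ε₃, hε₃, href⟩ := href A hA
  obtain ⟨ε₄, hε₄, hε₄1, hth⟩ := exists_th_small (a := 1 / 10) (by norm_num) 1 (η := 1 / 4)
    (by positivity)
  refine ⟨min (min ε₁ ε₂) (min (min ε₃ ε₄) (η / 12)), by positivity, ?_⟩
  intro T F ν P ε τ S hctx hε j
  have hε1 : ε ≤ ε₁ := hε.trans ((min_le_left _ _).trans (min_le_left _ _))
  have hε2 : ε ≤ ε₂ := hε.trans ((min_le_left _ _).trans (min_le_right _ _))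
  have hε3 : ε ≤ ε₃ := hε.trans ((min_le_right _ _).trans ((min_le_left _ _).trans
    (min_le_left _ _)))
  have hε4 : ε ≤ ε₄ := hε.trans ((min_le_right _ _).trans ((min_le_left _ _).trans
    (min_le_right _ _)))
  have hε5 : ε ≤ η / 12 := hε.trans ((min_le_right _ _).trans (min_le_right _ _))
  have hsj := hs T F ν P X C ε τ S hctx hε1 j
  obtain ⟨-, -, -, -, -, hwin⟩ := href T F ν P ε τ S hctx hε3 j
  have hθ : ∀ i, 0 < th (S.h i) := fun i =>
    (hth _ (S.h_pos i) ((S.h_le i).trans hε4)).1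
  have hj := S.h_pos j
  have hr := S.r_pos j
  obtain ⟨hrr, hr1⟩ := r_anti_B S (fun i => (hθ i).le) j
  have hθ1 := S.th_le j
  have hθj := hθ j
  have hsm := (hth _ hj ((S.h_le j).trans hε4)).2
  rw [pow_one] at hsm
  have hh1 : S.h j ≤ 1 := (S.h_le j).trans (hε4.trans hε₄1.le)
  have hrj : Tr S (j + 1) ≤ S.r j := by
    have h1 : Tr S (j + 1) ≤ S.r (j + 1) :=
      mul_le_of_le_one_right (S.r_pos _).le (by linarith [hθ (j + 1)])
    exact h1.trans (hrr.trans (mul_le_of_le_one_right hr.le (by linarith)))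
  have hI := (hctx.loc.int (3 / 8) (by norm_num) le_rfl).cyl
  have hη1 : η ≤ 1 / 16 := hη0.trans eps0_le
  have hp : 0 < S.h j ^ (1 / 5 : ℝ) := Real.rpow_pos_of_pos hj _
  -- the tube is thin
  have hc5 : X.c₅ ≤ 1 / 10 := by
    have h1 := hctx.ok.c₅_small
    have h2 := hctx.ok.e_pos
    have h3 := hctx.ok.c₅_pos
    have h4 : (0:ℝ) ≤ m := Nat.cast_nonneg m
    nlinarith
  refine ⟨hsj, ?_, ?_⟩
  · obtain ⟨-, H, -, -⟩ := hwin (S.r j) hrj le_rfl
    refine hcyl hj ((S.h_le j).trans hε2) hr hI (ball_subset_ball ?_) H hsj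
    nlinarith
  · intro t ht1 ht2
    have hTr : Tr S j ≤ S.r j := mul_le_of_le_one_right hr.le (by linarith)
    obtain ⟨-, H, -, hw⟩ := hwin t ht1 (ht2.trans hTr)
    have htge : 11 / 12 * S.r (j + 1) ≤ t := by
      have h1 : 11 / 12 * S.r (j + 1) ≤ Tr S (j + 1) := by
        unfold Tr
        have := S.th_le (j + 1)
        have := S.r_pos (j + 1)
        nlinarith
      exact h1.trans ht1
    have ht : 0 < t := lt_of_lt_of_le (by have := S.r_pos (j + 1); positivity) htge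
    have hh10 : S.h j ^ (1 / 10 : ℝ) ≤ 1 / 4 := by
      refine hsm.trans ?_
      linarith
    have htube0 : 0 < tube S j := by unfold tube; positivity
    have htube1 : tube S j ≤ S.r j * th (S.h j) := by
      unfold tube
      have h1 : S.h j ^ (1 / 5 : ℝ) ≤ S.h j ^ (1 / 10 : ℝ) :=
        Real.rpow_le_rpow_of_exponent_ge hj hh1 (by norm_num)
      gcongr
      linarith
    have htube2 : tube S j ≤ t := by
      unfold tube
      have e1 : S.h j ^ (1 / 5 : ℝ) ≤ S.h j ^ (X.c₅ + 1 / 10) :=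
        Real.rpow_le_rpow_of_exponent_ge hj hh1 (by linarith)
      rw [Real.rpow_add hj] at e1
      have hp' := Real.rpow_pos_of_pos hj X.c₅
      calc S.r j * S.h j ^ (1 / 5 : ℝ) ≤ S.r j * (S.h j ^ X.c₅ * S.h j ^ (1 / 10 : ℝ)) := by
            gcongr
        _ = (S.r j * S.h j ^ X.c₅) * S.h j ^ (1 / 10 : ℝ) := by ring
        _ ≤ S.r (j + 1) * (1 / 4) := by
            have := (S.nxt j).r_ge
            have := S.r_pos (j + 1)
            gcongr
        _ ≤ t := by
            have := S.r_pos (j + 1)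
            linarith
    set R := 2 * t + 2 * (η / 4) * tube S j with hRd
    have hR0 : 0 < R := by positivity
    have hR1 : R ≤ 3 / 8 := by
      have h1 : 2 * (η / 4) * tube S j ≤ 1 * (S.r j * th (S.h j)) := by
        gcongr; linarith
      have h2 : t ≤ S.r j * (1 - 10 * th (S.h j)) := ht2
      rw [hRd]
      nlinarith [mul_pos hr hθj]
    have hR3 : R ≤ 3 * t := by
      have h1 : 2 * (η / 4) * tube S j ≤ 1 * t := by gcongr; linarith
      rw [hRd]; linarith
    have hsl := (hctx.loc.int R hR0 hR1).cyl.slab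
    have hRβ : R ^ X.β ≤ 1 := Real.rpow_le_one hR0.le (by linarith) hctx.ok.β_pos.le
    have hτ := hctx.τ_pos
    have hτε := hctx.τ_le
    filter_upwards [H.ae_fmeas hsl] with Y hY hYt
    have h1 := H.ref.norm_star_Psi_sub_le H.hpos Y
    have h2 : ‖T.starProjection (Psi T (wr S j) (tube S j) Y)‖ < R := by
      calc _ = ‖T.starProjection Y + (T.starProjection (Psi T (wr S j) (tube S j) Y) -
            T.starProjection Y)‖ := by congr 1; abel
        _ ≤ _ := norm_add_le _ _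
        _ < R := by rw [hRd]; linarith
    have h3 := hY (by rw [mem_ball_zero_iff]; exact h2)
    have h4 : ‖FV.co T (Psi T (wr S j) (tube S j) Y)‖ ≤ 3 * ε * t := by
      rw [FV.co_apply]
      refine h3.trans ?_
      have h5 : 0 ≤ R ^ X.β := Real.rpow_nonneg hR0.le _
      have hε0 := hctx.ε_pos
      calc τ * R * R ^ X.β ≤ ε * (3 * t) * 1 := by gcongr
        _ = _ := by ring
    have h5 : ‖wr S j (Psi T (wr S j) (tube S j) Y)‖ ≤ η / 4 * t :=
      (hw _ (by linarith)).2.2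
    have h6 := H.norm_co_PsiInv_le (Psi T (wr S j) (tube S j) Y)
    rw [H.PsiInv_Psi] at h6
    refine h6.trans ?_
    have h7 := norm_sub_le (FV.co T (Psi T (wr S j) (tube S j) Y))
      (wr S j (Psi T (wr S j) (tube S j) Y))
    have h8 : 3 * ε * t ≤ η / 4 * t := by gcongr; linarith
    linarith

end Vale.Agent.P214.BINST
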