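import Vale.Agent.P214.BINST.Asm

/-!
# P214, target B, block BINST: elementary facts on the radii of a windows sequence
-/

open Set Filter Topology MeasureTheory Metric
open scoped RealInnerProductSpace ContDiff

set_option linter.all false

namespace Vale.Agent.P214.BINST

open WIN FM INST
open WSEQ (th)
open BSEQ (Exps WSeq LocB)

variable {m n Q : ℕ} {E : Type*} [NormedAddCommGroup E] [InnerProductSpace ℝ E]
  [FiniteDimensional ℝ E] [MeasurableSpace E] [BorelSpace E]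
variable {T : Submodule ℝ E} {F : Frame m n T} {ν : Measure E} {P : E → E →L[ℝ] E}
  {X : Exps} {C ε : ℝ}

lemma th_pos' {h : ℝ} (h0 : 0 < h) (h1 : h < 1) : 0 < th h := by
  have : 0 < Real.log h⁻¹ := Real.log_pos (one_lt_inv_iff₀.2 ⟨h0, h1⟩)
  unfold WSEQ.th
  positivity

/-- powers are small -/
lemma exists_rpow_small {a η : ℝ} (ha : 0 < a) (hη : 0 < η) :
    ∃ ε₀ > 0, ∀ h : ℝ, 0 < h → h ≤ ε₀ → h ^ a ≤ η := by
  refine ⟨η ^ a⁻¹, Real.rpow_pos_of_pos hη _, fun h h0 hle => ?_⟩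
  calc h ^ a ≤ (η ^ a⁻¹) ^ a := Real.rpow_le_rpow h0.le hle ha.le
    _ = η := by rw [← Real.rpow_mul hη.le, inv_mul_cancel₀ ha.ne', Real.rpow_one]

section seq

variable (S : WSeq m n Q T F ν X C ε)

lemma h_lt_one (hε : ε < 1) (j : ℕ) : S.h j < 1 := (S.h_le j).trans_lt hε

lemma th_h_pos (hε : ε < 1) (j : ℕ) : 0 < th (S.h j) := th_pos' (S.h_pos j) (h_lt_one S hε j)

lemma r_succ_lt (hε : ε < 1) (j : ℕ) : S.r (j + 1) < S.r j := by
  have h1 := (S.nxt j).r_le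
  have h2 := th_h_pos S hε j
  have h3 := S.r_pos j
  nlinarith

lemma r_anti (hε : ε < 1) : StrictAnti S.r := strictAnti_nat_of_succ_lt (r_succ_lt S hε)

lemma r_le (hε : ε < 1) (j : ℕ) : S.r j ≤ 3 / 16 := by
  rw [← S.r_zero]
  exact (r_anti S hε).antitone (Nat.zero_le j)

lemma Tr_le (hε : ε < 1) (j : ℕ) : Tr S j ≤ S.r j := by
  have h2 := th_h_pos S hε j
  have h3 := S.r_pos j
  unfold Tr
  nlinarith

lemma Tr_ge (j : ℕ) : 11 / 12 * S.r j ≤ Tr S j := by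
  have h2 := S.th_le j
  have h3 := S.r_pos j
  unfold Tr
  nlinarith

lemma Tr_pos (j : ℕ) : 0 < Tr S j :=
  (mul_pos (by norm_num) (S.r_pos j)).trans_le (Tr_ge S j)

lemma Tr_succ_lt (hε : ε < 1) (j : ℕ) : Tr S (j + 1) < Tr S j := by
  have h1 := (S.nxt j).r_le
  have h2 := th_h_pos S hε j
  have h3 := S.r_pos j
  have h4 := Tr_le S hε (j + 1)
  unfold Tr at *
  nlinarith

lemma Tr_anti (hε : ε < 1) : StrictAnti (Tr S) := strictAnti_nat_of_succ_lt (Tr_succ_lt S hε)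

lemma r_succ_ge (j : ℕ) : S.r j * S.h j ^ X.c₅ ≤ S.r (j + 1) := (S.nxt j).r_ge

lemma Tr_lim (hε : ε < 1) : Tendsto (Tr S) atTop (𝓝 0) :=
  squeeze_zero (fun j => (Tr_pos S j).le) (Tr_le S hε) S.r_lim

lemma tube_pos (j : ℕ) : 0 < tube S j := mul_pos (S.r_pos j) (Real.rpow_pos_of_pos (S.h_pos j) _)

/-- scales of window `j` -/
lemma win_iff (k K : ℝ → ℝ) (b A : ℝ) (e : ℕ → ℝ) (P : E → E →L[ℝ] E) (k₀ i : ℕ) (t : ℝ) :
    (chain k K b A e P S k₀).Win i t ↔ Tr S (k₀ + i + 1) ≤ t ∧ t ≤ Tr S (k₀ + i) := Iff.rfl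

end seq

/-- the exponent `c₅` is small -/
lemma _root_.Vale.Agent.P214.BSEQ.Exps.OK.c₅_le (hX : X.OK m) : X.c₅ ≤ 1 / 2400 := by
  have h1 := hX.e'_eq
  have h2 := hX.e'_le
  have h3 := hX.c_le
  have h4 := hX.e_pos
  have h5 := hX.c₅_pos
  have h6 : (0:ℝ) ≤ m := by positivity
  nlinarith

/-- the tube is thin against all scales of the window -/
lemma exists_tube_le {η : ℝ} (hη : 0 < η) : ∃ ε₀ > 0, ∀ {m n Q : ℕ} {E : Type*}
    [NormedAddCommGroup E] [InnerProductSpace ℝ E] [FiniteDimensional ℝ E] [MeasurableSpace E]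
    [BorelSpace E] {T : Submodule ℝ E} {F : Frame m n T} {ν : Measure E} {X : Exps} {C ε : ℝ}
    (S : WSeq m n Q T F ν X C ε), X.OK m → ε ≤ ε₀ → ∀ j, tube S j ≤ η * Tr S (j + 1) := by
  obtain ⟨ε₁, hε₁, H⟩ := exists_rpow_small (a := 1 / 6) (η := 11 / 12 * η) (by norm_num)
    (by positivity)
  refine ⟨min ε₁ (1 / 2), by positivity, ?_⟩
  intro m n Q E _ _ _ _ _ T F ν X C ε S hX hε j
  have hh : S.h j ≤ ε₁ := (S.h_le j).trans (hε.trans (min_le_left _ _))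
  have hh1 : S.h j ≤ 1 := (S.h_le j).trans (hε.trans ((min_le_right _ _).trans (by norm_num)))
  have h0 := S.h_pos j
  have h1 := H _ h0 hh
  have h2 := hX.c₅_le
  have h3 := r_succ_ge S j
  have h4 := Tr_ge S (j + 1)
  have h5 : S.h j ^ (1 / 5 : ℝ) ≤ S.h j ^ X.c₅ * S.h j ^ (1 / 6 : ℝ) := by
    rw [← Real.rpow_add h0]
    exact Real.rpow_le_rpow_of_exponent_ge h0 hh1 (by linarith)
  have h6 : 0 < S.h j ^ X.c₅ := Real.rpow_pos_of_pos h0 _
  have h7 := S.r_pos j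
  calc tube S j = S.r j * S.h j ^ (1 / 5 : ℝ) := rfl
    _ ≤ S.r j * (S.h j ^ X.c₅ * (11 / 12 * η)) := by
        gcongr
        exact h5.trans (by gcongr)
    _ = η * (11 / 12 * (S.r j * S.h j ^ X.c₅)) := by ring
    _ ≤ η * (11 / 12 * S.r (j + 1)) := by gcongr
    _ ≤ η * Tr S (j + 1) := by gcongr

/-- curvature times tube -/
lemma kappa_tube {η A b t : ℝ} (S : WSeq m n Q T F ν X C ε) (hA : 0 ≤ A) (hb : 0 ≤ b) {j : ℕ}
    (hη : tube S j ≤ η * Tr S (j + 1)) (ht : Tr S (j + 1) ≤ t) (ht1 : t ≤ 1) :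
    A * t ^ (b - 1) * tube S j ≤ A * η := by
  have h0 : 0 < t := (Tr_pos S (j + 1)).trans_le ht
  have h1 : t ^ (b - 1) ≤ t⁻¹ := by
    rw [← Real.rpow_neg_one]
    exact Real.rpow_le_rpow_of_exponent_ge h0 ht1 (by linarith)
  have h2 := tube_pos S j
  have hη0 : 0 ≤ η := by
    by_contra h
    rw [not_le] at h
    have := Tr_pos S (j + 1)
    nlinarith
  calc A * t ^ (b - 1) * tube S j ≤ A * t⁻¹ * (η * t) := by
        gcongr
        exact hη.trans (by gcongr)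
    _ = A * η := by field_simp

/-- the curvature bounds increase when the scale decreases -/
lemma kappa_le {A b r t : ℝ} (hA : 0 ≤ A) (hb : b ≤ 1) (ht : 0 < t) (htr : t ≤ r) :
    A * r ^ (b - 1) ≤ A * t ^ (b - 1) := by
  have : r ^ (b - 1) ≤ t ^ (b - 1) := Real.rpow_le_rpow_of_nonpos ht htr (by linarith)
  gcongr

end Vale.Agent.P214.BINST
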