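import Vale.Agent.P214.BINST.Ker
import Vale.Agent.P214.BINST.Rad
import Vale.Agent.P214.INST.Dich

/-!
# P214, block BINST: kernel heights of two consecutive windows (inputs `top`, `cmp` of `DInB`)

`ev_top_cmp`: in every window the kernel height is at most `h^{9/10}`; the kernel heights of the
references of windows `j` and `j + 1` are comparable near the switch, up to `h_j^{1 + 9c/5}`.
-/

open Set Filter Topology MeasureTheory Metric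
open scoped RealInnerProductSpace ContDiff

set_option linter.all false

namespace Vale.Agent.P214.BINST

open WIN FM INST
open WSEQ (th)
open BSEQ (Exps WSeq LocB)

noncomputable section

variable {m n Q : ℕ} {E : Type*} [NormedAddCommGroup E] [InnerProductSpace ℝ E]
  [FiniteDimensional ℝ E] [MeasurableSpace E] [BorelSpace E]

/-- smallness of one height -/
structure TcH (X : Exps) (A h : ℝ) : Prop where
  lt_one : h < 1
  th_pos : 0 < th h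
  th_le : th h ≤ 1 / 4000
  p4 : h ^ (1 / 4 : ℝ) ≤ th h / 4
  p8 : 16 * h ^ ((1 - X.e') / 4) ≤ h ^ (1 / 8 : ℝ)
  pc : 4 * h ^ (2 * X.c₅) ≤ h ^ X.c₅
  pc' : h ^ X.c₅ ≤ 1 / 2
  pA : A * h ^ (1 - X.e') ≤ h ^ (9 / 10 : ℝ)

lemma exists_TcH {X : Exps} (hX : X.OK m) (A : ℝ) :
    ∃ ε : ℝ, 0 < ε ∧ ∀ h, 0 < h → h ≤ ε → TcH X A h := by
  apply ev_to_ex
  have hc5 := hX.c₅_pos
  have he : X.e' ≤ 1 / 800 := by
    have := hX.e'_le
    have := hX.c_le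
    linarith
  have a0 := tendsto_log_inv.eventually (eventually_ge_atTop 4000)
  have a1 : ∀ᶠ h in 𝓝[>] (0:ℝ), h ∈ Ioo (0:ℝ) 1 := Ioo_mem_nhdsGT (show (0:ℝ) < 1 by norm_num)
  have a2 := ev_small (δ := 1 / 4) (by norm_num) 1 (η := 1 / 4) (by norm_num)
  have a3 := pow_small_ev 16 (show (1 / 8 : ℝ) < (1 - X.e') / 4 by linarith)
  have a4 := pow_small_ev 4 (show X.c₅ < 2 * X.c₅ by linarith)
  have a5 := pow_small_ev 2 (show (0:ℝ) < X.c₅ from hc5)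
  have a6 := pow_small_ev A (show (9 / 10 : ℝ) < 1 - X.e' by linarith)
  filter_upwards [a0, a1, a2, a3, a4, a5, a6] with h b0 b1 b2 b3 b4 b5 b6
  have hth : 0 < th h := by
    unfold WSEQ.th
    positivity
  refine ⟨b1.2, hth, ?_, ?_, b3, b4, ?_, b6⟩
  · unfold WSEQ.th
    have h1 : (Real.log h⁻¹)⁻¹ ≤ 1 / 4000 := by
      rw [inv_eq_one_div]; exact one_div_le_one_div_of_le (by norm_num) b0
    have h0 : 0 ≤ (Real.log h⁻¹)⁻¹ := by positivity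
    calc (Real.log h⁻¹)⁻¹ ^ 7 ≤ (1 / 4000 : ℝ) ^ 7 := pow_le_pow_left₀ h0 h1 7
      _ ≤ 1 / 4000 := by norm_num
  · rw [pow_one] at b2
    calc h ^ (1 / 4 : ℝ) ≤ 1 / 4 * thI h := b2
      _ = th h / 4 := by rw [show thI h = th h from rfl]; ring
  · rw [Real.rpow_zero] at b5
    linarith

section

variable {T : Submodule ℝ E} {F : Frame m n T} {ν : Measure E} {P : E → E →L[ℝ] E}
  {X : Exps} {C ε A : ℝ}
variable (S : WSeq m n Q T F ν X C ε) (hsm : ∀ j, TcH X A (S.h j))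

include hsm

/-- lower end of the windows -/
lemma tlow_range (j : ℕ) {y : ℝ} (hy : Tr S (j + 1) ≤ y) :
    0 < y ∧ S.r j * S.h j ^ X.c₅ ≤ 2 * y ∧ S.r j * S.h j ^ (2 * X.c₅) ≤ y ∧
      S.r (j + 1) ≤ 2 * y ∧ S.r (j + 1) * S.h (j + 1) ^ (2 * X.c₅) ≤ y := by
  have h1 := (hsm (j + 1)).th_le
  have h2 := S.r_pos (j + 1)
  have h3 := (S.nxt j).r_ge
  have h4 := (hsm j).pc
  have h4' := (hsm (j + 1)).pc
  have h4'' := (hsm (j + 1)).pc'
  have h5 := S.r_pos j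
  have h6 : 0 < S.h j ^ (2 * X.c₅) := Real.rpow_pos_of_pos (S.h_pos j) _
  have h6' : 0 < S.h (j + 1) ^ (2 * X.c₅) := Real.rpow_pos_of_pos (S.h_pos (j + 1)) _
  have h7 : 11 / 12 * S.r (j + 1) ≤ Tr S (j + 1) := Tr_ge S (j + 1)
  have h8 : 0 < y := by nlinarith
  refine ⟨h8, ?_, ?_, by linarith, ?_⟩
  · linarith
  · have : S.r j * (4 * S.h j ^ (2 * X.c₅)) ≤ S.r j * S.h j ^ X.c₅ := by gcongr
    linarith
  · have : S.r (j + 1) * S.h (j + 1) ^ (2 * X.c₅) ≤ S.r (j + 1) * (1 / 8) := by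
      gcongr
      linarith
    linarith

omit hsm in
lemma trel_cont (j : ℕ) : Continuous (KMS.rel T (wr S j)) :=
  (KMS.ref_lift (F := F) (S.refe (j + 1)).smooth).contDiff_rel.continuous

lemma tr_le_one (j : ℕ) : S.r j ≤ 3 / 16 := by
  induction j with
  | zero => rw [S.r_zero]
  | succ j ih =>
    have h1 := (S.nxt j).r_le
    have h2 := (hsm j).th_pos
    have h3 := S.r_pos j
    nlinarith

/-- the heights of the sequence -/
lemma h_up (j : ℕ) : S.h (j + 1) ≤ S.h j ^ (1 - X.e') := by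
  rw [S.h_eq (j + 1)]
  have hθ := (hsm j).th_pos
  have hr := S.r_pos j
  exact (S.nxt j).top _ (S.nxt j).r_ge ((S.nxt j).r_le.trans (by
    refine mul_le_mul_of_nonneg_left ?_ hr.le
    linarith))

/-- the height of window `j` is at most `h_j^{9/10}` -/
lemma ttop {Ck : ℝ} {k : ℝ → ℝ} (hA : Ck * 4 ^ (m + 2) ≤ A) (hCk : 1 ≤ Ck)
    {H δ' : ℝ} (hI : Skel.IntCyl m Q T 0 (3 / 8) H δ' ν P)
    (hK : ∀ j t, S.r j * S.h j ^ (2 * X.c₅) ≤ t →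
    (t ≤ S.r j * (1 - 9 * th (S.h j)) →
      Hw m T ν k (tube S j) (wr S j) t
        ≤ Ck * t ^ 2 * STR.hN m T (wr S j) ν (t * (1 + S.h j ^ (1 / 4 : ℝ)))))
    (j : ℕ) {x : ℝ} (hx : Tr S (j + 1) ≤ x) (hx2 : x ≤ S.r j * (1 - 9 * th (S.h j))) :
    Hw m T ν k (tube S j) (wr S j) x / x ^ 2 ≤ S.h j ^ (9 / 10 : ℝ) := by
  obtain ⟨x0, x1, x2, x3, x4⟩ := tlow_range S hsm j hx
  have hh := S.h_pos j
  have hq : 0 < S.h j ^ (1 / 4 : ℝ) := Real.rpow_pos_of_pos hh _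
  have hθ := (hsm j).th_pos
  have hθ1 := (hsm j).th_le
  have hq1 := (hsm j).p4
  have hr := S.r_pos j
  have hr1 := tr_le_one S hsm j
  obtain ⟨y, hy⟩ : ∃ y, y = x * (1 + S.h j ^ (1 / 4 : ℝ)) := ⟨_, rfl⟩
  have hxy : x ≤ y := by rw [hy]; nlinarith
  have hy8 : y ≤ S.r j * (1 - 8 * th (S.h j)) := by
    calc y ≤ (S.r j * (1 - 9 * th (S.h j))) * (1 + S.h j ^ (1 / 4 : ℝ)) := by rw [hy]; gcongr
      _ = S.r j * ((1 - 9 * th (S.h j)) * (1 + S.h j ^ (1 / 4 : ℝ))) := by ring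
      _ ≤ _ := by
        gcongr
        nlinarith
  have hp : 0 < S.h j ^ (1 - X.e') := Real.rpow_pos_of_pos hh _
  have htop : STR.hN m T (wr S j) ν y ≤ 4 ^ (m + 2) * S.h j ^ (1 - X.e') := by
    have h4 : (1:ℝ) ≤ 4 ^ (m + 2) := one_le_pow₀ (by norm_num)
    rcases le_total (S.r j * S.h j ^ X.c₅) y with h1 | h1
    · have h2 : STR.hN m T (wr S j) ν y ≤ S.h j ^ (1 - X.e') := (S.nxt j).top y h1 hy8
      nlinarith
    · have h2 : STR.hN m T (wr S j) ν (S.r j * S.h j ^ X.c₅) ≤ S.h j ^ (1 - X.e') :=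
        (S.nxt j).top _ le_rfl (by
          have := (hsm j).pc'
          gcongr
          linarith)
      have h3 : STR.hN m T (wr S j) ν y ≤
          4 ^ (m + 2) * STR.hN m T (wr S j) ν (S.r j * S.h j ^ X.c₅) :=
        W5.hV_le_of_le hI.cyl (ball_subset_ball (by
          have := (hsm j).pc'
          nlinarith)) (trel_cont S j) (x0.trans_le hxy) h1 (by linarith)
      exact h3.trans (by gcongr)
  have h1 := hK j x x2 hx2
  rw [← hy] at h1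
  rw [div_le_iff₀ (by positivity)]
  calc Hw m T ν k (tube S j) (wr S j) x ≤ Ck * x ^ 2 * STR.hN m T (wr S j) ν y := h1
    _ ≤ Ck * x ^ 2 * (4 ^ (m + 2) * S.h j ^ (1 - X.e')) := by gcongr
    _ = ((Ck * 4 ^ (m + 2)) * S.h j ^ (1 - X.e')) * x ^ 2 := by ring
    _ ≤ (A * S.h j ^ (1 - X.e')) * x ^ 2 := by gcongr
    _ ≤ S.h j ^ (9 / 10 : ℝ) * x ^ 2 := by gcongr; exact (hsm j).pA

end

lemma cmp_algB {x q d d' y W N1 N0 Ck B R P4 P2 Hx : ℝ} (hx : 0 < x) (hq : 0 < q)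
    (hd0 : 0 < d) (hd1 : d ≤ 1 / 2) (hxy : x ≤ y) (hy2 : y ≤ x * (1 + d))
    (hd'2 : d / 2 ≤ d') (hN0 : 0 ≤ N0) (hCk : 1 ≤ Ck) (hB : 0 ≤ B)
    (hR0 : 0 < R) (hR : R ≤ 2 * x) (h1 : Hx ≤ Ck * x ^ 2 * N1)
    (h2 : N1 ≤ 2 * N0 + 8 * B * (R / y) ^ 2 * P4) (h3 : N0 ≤ Ck * d'⁻¹ ^ 3 * (y ^ 2)⁻¹ * W)
    (hP4 : 0 < P4) (h46 : P4 ≤ P2) :
    Hx / x ^ 2 ≤ Ck * (64 * Ck + 32 * B) * ((d⁻¹) ^ 3 * (W / (x * (1 + d)) ^ 2) + P2) := by
  have hy0 : 0 < y := hx.trans_le hxy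
  have hd'0 : 0 < d' := by linarith
  have hW : 0 ≤ W := by
    have h4 : 0 ≤ Ck * d'⁻¹ ^ 3 * (y ^ 2)⁻¹ * W := hN0.trans h3
    have h5 : 0 < Ck * d'⁻¹ ^ 3 * (y ^ 2)⁻¹ := by positivity
    exact nonneg_of_mul_nonneg_right h4 h5
  rcases hW.eq_or_lt with hW | hW
  · rw [← hW, mul_zero] at h3
    rw [← hW, zero_div, mul_zero, zero_add]
    have h5 : (R / y) ^ 2 ≤ 4 := by
      calc (R / y) ^ 2 ≤ 2 ^ 2 := by
            refine pow_le_pow_left₀ (by positivity) ?_ 2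
            rw [div_le_iff₀ hy0]
            linarith
        _ = 4 := by norm_num
    have h6 : N1 ≤ 32 * B * P2 := by
      have e2 : 8 * B * (R / y) ^ 2 * P4 ≤ 32 * B * P2 := by
        calc 8 * B * (R / y) ^ 2 * P4 ≤ 8 * B * 4 * P2 :=
              mul_le_mul (mul_le_mul_of_nonneg_left h5 (by positivity)) h46 hP4.le (by positivity)
          _ = _ := by ring
      linarith
    rw [div_le_iff₀ (by positivity)]
    have h7 : 0 ≤ 64 * Ck * P2 := by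
      have : 0 < P2 := hP4.trans_le h46
      positivity
    calc Hx ≤ Ck * x ^ 2 * N1 := h1
      _ ≤ Ck * x ^ 2 * (32 * B * P2 + 64 * Ck * P2) :=
          mul_le_mul_of_nonneg_left (by linarith) (by positivity)
      _ = _ := by ring
  · exact cmp_alg hx hq hd0 hd1 hxy hy2 hd'2 hW hCk hB hR0 hR h1 h2 h3 hP4 h46

section

variable {T : Submodule ℝ E} {F : Frame m n T} {ν : Measure E} {P : E → E →L[ℝ] E}
  {X : Exps} {C ε A : ℝ}
variable (S : WSeq m n Q T F ν X C ε) (hsm : ∀ j, TcH X A (S.h j))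

lemma hN_nonneg' (T : Submodule ℝ E) (w : E → E)
    (ν : Measure E) {s : ℝ} (hs : 0 < s) : 0 ≤ STR.hN m T w ν s := by
  unfold STR.hN WIN.hE
  have : 0 ≤ ∫ y in Skel.cylSet T 0 s, ‖KMS.rel T w y‖ ^ 2 ∂ν :=
    integral_nonneg fun _ => sq_nonneg _
  positivity

/-- comparison of the heights of two consecutive references -/
lemma hN_step {G : Set E} {H M : ℝ} (hC : FV.CylStat m T G H ν P) (j : ℕ) {t : ℝ} (ht : 0 < t)
    (htr : t ≤ S.r (j + 1) * (1 - 8 * th (S.h (j + 1)))) (hG : ball 0 t ⊆ G)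
    (hM : ν.real (Skel.cylSet T 0 t) ≤ M * t ^ m) :
    STR.hN m T (wr S (j + 1)) ν t ≤ 2 * STR.hN m T (wr S j) ν t
      + 2 * n ^ 2 * M * (S.r (j + 1) / t) ^ 2 * S.h j ^ (1 + 4 * X.c) := by
  have hr := S.r_pos (j + 1)
  have hh := S.h_pos j
  have h1 := W5.hV_change hC hG (trel_cont S j) (trel_cont S (j + 1)) ht
    (d := n * (S.r (j + 1) * S.h j ^ (1 / 2 + 2 * X.c))) (fun y hy => by
      have h2 : ‖wr S (j + 1) y - wr S j y‖
          ≤ n * (S.r (j + 1) * S.h j ^ (1 / 2 + 2 * X.c)) := by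
        refine WIN.norm_lift_sub_le F fun a => ?_
        have h3 := S.acc j a 0 (by norm_num) (F.xc y)
          (by rw [KMS.norm_xc]; exact hy.trans_le htr)
        rw [norm_iteratedFDeriv_zero, Real.norm_eq_abs, pow_zero, mul_one] at h3
        exact h3
      have h3 : KMS.rel T (wr S (j + 1)) y - KMS.rel T (wr S j) y
          = -(wr S (j + 1) y - wr S j y) := by unfold KMS.rel; abel
      rw [h3, norm_neg]; exact h2) hM
  have e1 : 2 * M * (n * (S.r (j + 1) * S.h j ^ (1 / 2 + 2 * X.c)) / t) ^ 2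
      = 2 * n ^ 2 * M * (S.r (j + 1) / t) ^ 2 * S.h j ^ (1 + 4 * X.c) := by
    have e2 : (S.h j ^ (1 / 2 + 2 * X.c)) ^ 2 = S.h j ^ (1 + 4 * X.c) := by
      rw [← Real.rpow_natCast, ← Real.rpow_mul hh.le]
      congr 1
      push_cast
      ring
    rw [← e2]
    ring
  rw [e1] at h1
  exact h1

include hsm

/-- comparison with the previous window -/
lemma tcmp {Ck M : ℝ} {k : ℝ → ℝ} (hCk : 1 ≤ Ck) (hM0 : 0 ≤ M) (hc : 0 < X.c)
    (hK : ∀ j t, S.r j * S.h j ^ (2 * X.c₅) ≤ t →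
    (t ≤ S.r j * (1 - 9 * th (S.h j)) →
      Hw m T ν k (tube S j) (wr S j) t
        ≤ Ck * t ^ 2 * STR.hN m T (wr S j) ν (t * (1 + S.h j ^ (1 / 4 : ℝ)))) ∧
    (∀ d, 4 * S.h j ^ (1 / 4 : ℝ) ≤ d → d ≤ 1 / 2 →
      t * (1 + d) ≤ S.r j * (1 - 17 / 2 * th (S.h j)) →
      STR.hN m T (wr S j) ν t
        ≤ Ck * d⁻¹ ^ 3 * (t ^ 2)⁻¹ * Hw m T ν k (tube S j) (wr S j) (t * (1 + d))))
    (hacc : ∀ j y, 0 < y → y ≤ S.r (j + 1) * (1 - 8 * th (S.h (j + 1))) →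
      STR.hN m T (wr S (j + 1)) ν y ≤ 2 * STR.hN m T (wr S j) ν y
        + 8 * n ^ 2 * M * (S.r (j + 1) / y) ^ 2 * S.h j ^ (1 + 4 * X.c))
    (j : ℕ) {x d : ℝ} (hx : Tr S (j + 1) ≤ x) (hd : S.h j ^ (1 / 8 : ℝ) ≤ d) (hd1 : d ≤ 1 / 2)
    (hxd : x * (1 + d) ≤ S.r (j + 1) * (1 - 9 * th (S.h (j + 1)))) :
    Hw m T ν k (tube S (j + 1)) (wr S (j + 1)) x / x ^ 2 ≤
      Ck * (64 * Ck + 32 * n ^ 2 * M) * ((d⁻¹) ^ 3 *
        (Hw m T ν k (tube S j) (wr S j) (x * (1 + d)) / (x * (1 + d)) ^ 2)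
        + S.h j ^ (1 + 9 / 5 * X.c)) := by
  obtain ⟨x0, x1, x2, x3, x4⟩ := tlow_range S hsm j hx
  have hh := S.h_pos j
  have hh' := S.h_pos (j + 1)
  have hr := S.r_pos j
  have hr' := S.r_pos (j + 1)
  have hθ := (hsm j).th_pos
  have hθ1 := (hsm j).th_le
  have hθ' := (hsm (j + 1)).th_pos
  have hθ1' := (hsm (j + 1)).th_le
  obtain ⟨q, hq⟩ : ∃ q, q = S.h (j + 1) ^ (1 / 4 : ℝ) := ⟨_, rfl⟩
  have hq0 : 0 < q := by rw [hq]; exact Real.rpow_pos_of_pos hh' _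
  have hqj : q ≤ S.h j ^ ((1 - X.e') / 4) := by
    rw [hq]
    calc S.h (j + 1) ^ (1 / 4 : ℝ) ≤ (S.h j ^ (1 - X.e')) ^ (1 / 4 : ℝ) :=
          Real.rpow_le_rpow hh'.le (h_up S hsm j) (by norm_num)
      _ = S.h j ^ ((1 - X.e') / 4) := by rw [← Real.rpow_mul hh.le]; congr 1; ring
  have hq16 : 16 * S.h j ^ ((1 - X.e') / 4) ≤ d := (hsm j).p8.trans hd
  have hqd : q ≤ d / 16 := by linarith
  have hd0 : 0 < d := by linarith
  have hqjj : 16 * S.h j ^ (1 / 4 : ℝ) ≤ d / 2 := by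
    have h1 := (hsm j).p4
    have h2 : S.h j ^ (1 / 4 : ℝ) = S.h j ^ (1 / 8 : ℝ) * S.h j ^ (1 / 8 : ℝ) := by
      rw [← Real.rpow_add hh]; norm_num
    have h3 : 0 < S.h j ^ (1 / 8 : ℝ) := Real.rpow_pos_of_pos hh _
    have h4 : S.h j ^ (1 / 8 : ℝ) ≤ 1 / 32 := by
      by_contra hcon
      have h5 := not_le.1 hcon
      have h6 : (1 / 32 : ℝ) * (1 / 32) ≤ S.h j ^ (1 / 8 : ℝ) * S.h j ^ (1 / 8 : ℝ) := by gcongr
      rw [← h2] at h6
      linarith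
    rw [h2]
    nlinarith
  have hx9 : x ≤ S.r (j + 1) * (1 - 9 * th (S.h (j + 1))) := le_trans (by nlinarith) hxd
  -- the height over the cylinder
  obtain ⟨y, hy⟩ : ∃ y, y = x * (1 + q) := ⟨_, rfl⟩
  have hxy : x ≤ y := by rw [hy]; nlinarith
  have hy0 : 0 < y := x0.trans_le hxy
  have hy2 : y ≤ x * (1 + d) := by
    rw [hy]; exact mul_le_mul_of_nonneg_left (by linarith) x0.le
  have h1 : Hw m T ν k (tube S (j + 1)) (wr S (j + 1)) x ≤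
      Ck * x ^ 2 * STR.hN m T (wr S (j + 1)) ν y := by
    rw [hy, hq]; exact (hK (j + 1) x x4).1 hx9
  have hy8 : y ≤ S.r (j + 1) * (1 - 8 * th (S.h (j + 1))) :=
    (hy2.trans hxd).trans (mul_le_mul_of_nonneg_left (by linarith) hr'.le)
  have h2 := hacc j y hy0 hy8
  -- the second comparison
  obtain ⟨hd'2, hd'1⟩ := dprime hq0 hqd hd1
  obtain ⟨d', hd'⟩ : ∃ d', d' = (1 + d) / (1 + q) - 1 := ⟨_, rfl⟩
  rw [← hd'] at hd'2 hd'1
  have e1 : y * (1 + d') = x * (1 + d) := by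
    rw [hy, hd']; field_simp; ring
  have hxr : x * (1 + d) ≤ S.r (j + 1) := hxd.trans (by nlinarith)
  have hxr' : x * (1 + d) ≤ S.r j * (1 - 12 * th (S.h j)) := hxr.trans (S.nxt j).r_le
  have h3 := (hK j y (x2.trans hxy)).2 d' (by linarith) hd'1 (by
    rw [e1]
    exact hxr'.trans (mul_le_mul_of_nonneg_left (by linarith) hr.le))
  rw [e1] at h3
  have hp4 : 0 < S.h j ^ (1 + 4 * X.c) := Real.rpow_pos_of_pos hh _
  have h6 : S.h j ^ (1 + 4 * X.c) ≤ S.h j ^ (1 + 9 / 5 * X.c) :=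
    Real.rpow_le_rpow_of_exponent_ge hh (hsm j).lt_one.le (by linarith)
  have h7 := cmp_algB (B := n ^ 2 * M) x0 hq0 hd0 hd1 hxy hy2 hd'2 (hN_nonneg' T _ ν hy0) hCk
    (by positivity) hr' x3 h1 (by rw [← mul_assoc]; exact h2) h3 hp4 h6
  rw [← mul_assoc 32] at h7
  exact h7

end

/-- **inputs `top`, `cmp` of the dichotomy** -/
theorem ev_top_cmp {k : ℝ → ℝ} (hker : KerStmt E m n Q k) : ∃ C₁ : ℝ, 1 ≤ C₁ ∧
    Ev E m n Q fun T _ ν _ X _ _ S _ _ => ∀ j,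
      (∀ x, Tr S (j + 1) ≤ x → x ≤ S.r j * (1 - 9 * th (S.h j)) →
        Hw m T ν k (tube S j) (wr S j) x / x ^ 2 ≤ S.h j ^ (9 / 10 : ℝ)) ∧
      ∀ x d, Tr S (j + 1) ≤ x → S.h j ^ (1 / 8 : ℝ) ≤ d → d ≤ 1 / 2 →
        x * (1 + d) ≤ S.r (j + 1) * (1 - 9 * th (S.h (j + 1))) →
        Hw m T ν k (tube S (j + 1)) (wr S (j + 1)) x / x ^ 2 ≤ C₁ * ((d⁻¹) ^ 3 *
          (Hw m T ν k (tube S j) (wr S j) (x * (1 + d)) / (x * (1 + d)) ^ 2)
          + S.h j ^ (1 + 9 / 5 * X.c)) := by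
  obtain ⟨Ck, hCk, hker⟩ := hker
  obtain ⟨M, hM⟩ : ∃ M, M = |(Q:ℝ) * Skel.om m| + 1 := ⟨_, rfl⟩
  have hM0 : 0 ≤ M := by rw [hM]; positivity
  have hC₁ : 1 ≤ Ck * (64 * Ck + 32 * n ^ 2 * M) := by
    have h7 : 0 ≤ 32 * (n:ℝ) ^ 2 * M := by positivity
    nlinarith
  refine ⟨Ck * (64 * Ck + 32 * n ^ 2 * M), hC₁, ?_⟩
  intro X C
  obtain ⟨b₁, hb₁, hker⟩ := hker X C
  refine ⟨b₁, hb₁, fun b hb hbb => ?_⟩
  obtain ⟨A₁, hA₁, hker⟩ := hker b hb hbb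
  refine ⟨A₁, hA₁, fun A hA => ?_⟩
  obtain ⟨ε₁, hε₁, hker⟩ := hker A hA
  by_cases hX : X.OK m
  swap
  · exact ⟨1, one_pos, fun T F ν P ε τ S hS _ => absurd hS.ok hX⟩
  obtain ⟨ε₂, hε₂, h2⟩ := exists_TcH hX (Ck * 4 ^ (m + 2))
  refine ⟨min (min ε₁ ε₂) 1, by positivity, ?_⟩
  intro T F ν P ε τ S hS hε j
  have k1 : ε ≤ ε₁ := hε.trans ((min_le_left _ _).trans (min_le_left _ _))
  have k2 : ε ≤ ε₂ := hε.trans ((min_le_left _ _).trans (min_le_right _ _))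
  have hε1 : ε ≤ 1 := hε.trans (min_le_right _ _)
  have hsm : ∀ j, TcH X (Ck * 4 ^ (m + 2)) (S.h j) :=
    fun j => h2 _ (S.h_pos j) ((S.h_le j).trans k2)
  have hK := hker T F ν P ε τ S hS k1
  have hloc := hS.loc
  have hI := hloc.int (3 / 8) (by norm_num) le_rfl
  have hβ := hS.ok.β_pos
  have hacc : ∀ j y, 0 < y → y ≤ S.r (j + 1) * (1 - 8 * th (S.h (j + 1))) →
      STR.hN m T (wr S (j + 1)) ν y ≤ 2 * STR.hN m T (wr S j) ν y
        + 8 * n ^ 2 * M * (S.r (j + 1) / y) ^ 2 * S.h j ^ (1 + 4 * X.c) := by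
    intro j y hy hyr
    have h5 : y ≤ 3 / 8 := by
      have h9 := tr_le_one S hsm (j + 1)
      have h10 := (hsm (j + 1)).th_pos
      have h11 := S.r_pos (j + 1)
      nlinarith
    have h6 := hN_step S hI.cyl j hy hyr (ball_subset_ball h5) (M := M) (by
      have h7 := (hloc.int y hy h5).mass
      have h8 := (abs_le.1 h7).2
      have h9 : τ * y ^ X.β * y ^ m ≤ 1 * y ^ m := by
        have h12 : y ^ X.β ≤ 1 := Real.rpow_le_one hy.le (by linarith) hβ.le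
        have h13 : 0 ≤ y ^ X.β := Real.rpow_nonneg hy.le _
        have h14 : τ ≤ 1 := hS.τ_le.trans hε1
        have h15 := hS.τ_pos
        have h16 : τ * y ^ X.β ≤ 1 := by nlinarith
        gcongr
      have h10 : (Q:ℝ) * Skel.om m * y ^ m ≤ |(Q:ℝ) * Skel.om m| * y ^ m := by
        gcongr; exact le_abs_self _
      rw [hM]; linarith)
    refine h6.trans ?_
    have hp : 0 < S.h j ^ (1 + 4 * X.c) := Real.rpow_pos_of_pos (S.h_pos j) _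
    have h17 : 2 * (n:ℝ) ^ 2 * M * (S.r (j + 1) / y) ^ 2 * S.h j ^ (1 + 4 * X.c) ≤
        8 * (n:ℝ) ^ 2 * M * (S.r (j + 1) / y) ^ 2 * S.h j ^ (1 + 4 * X.c) := by
      gcongr
      norm_num
    linarith
  refine ⟨fun x hx hx2 => ?_, fun x d hx hd hd1 hxd => ?_⟩
  · exact ttop S hsm le_rfl hCk hI (fun j t ht => (hK j t ht).1) j hx hx2
  · exact tcmp S hsm hCk hM0 hX.c_pos hK hacc j hx hd hd1 hxd

end

end Vale.Agent.P214.BINST
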