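import Vale.Agent.P214.BINST.Win
import Vale.Agent.P214.BINST.Cyl

/-!
# P214, block BINST: kernel heights against cylindrical heights, input of the one-scale lemmas

* `KerStmt`, `kerStmt` : comparison of the heights in every window;
* `InpStmt`, `inpStmt` : `RC2X.Inp` at all scales of all windows, curvature `A t^{b-1}`.
-/

open Set Filter Topology MeasureTheory Metric
open scoped RealInnerProductSpace ContDiff

set_option linter.all false

namespace Vale.Agent.P214.BINST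

open WIN FM INST
open WSEQ (th)
open BSEQ (Exps WSeq LocB)

variable {m n Q : ℕ} {E : Type*} [NormedAddCommGroup E] [InnerProductSpace ℝ E]
  [FiniteDimensional ℝ E] [MeasurableSpace E] [BorelSpace E]
variable {T : Submodule ℝ E} {F : Frame m n T} {ν : Measure E} {P : E → E →L[ℝ] E}
  {X : Exps} {C ε : ℝ}

/-- **[B-KER]** kernel height of window `j` against the height over cylinders, both directions -/
def KerStmt (E : Type*) [NormedAddCommGroup E] [InnerProductSpace ℝ E] [FiniteDimensional ℝ E]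
    [MeasurableSpace E] [BorelSpace E] (m n Q : ℕ) (k : ℝ → ℝ) : Prop :=
  ∃ Ck : ℝ, 1 ≤ Ck ∧ Ev E m n Q fun T _ ν _ X _ _ S _ _ => ∀ j t,
    S.r j * S.h j ^ (2 * X.c₅) ≤ t →
    (t ≤ S.r j * (1 - 9 * th (S.h j)) →
      INST.Hw m T ν k (tube S j) (wr S j) t
        ≤ Ck * t ^ 2 * STR.hN m T (wr S j) ν (t * (1 + S.h j ^ (1 / 4 : ℝ)))) ∧
    (∀ d, 4 * S.h j ^ (1 / 4 : ℝ) ≤ d → d ≤ 1 / 2 →
      t * (1 + d) ≤ S.r j * (1 - 17 / 2 * th (S.h j)) →
      STR.hN m T (wr S j) ν t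
        ≤ Ck * d⁻¹ ^ 3 * (t ^ 2)⁻¹ * INST.Hw m T ν k (tube S j) (wr S j) (t * (1 + d)))

/-- the facts `Wd1` for all windows -/
theorem ev_wd1 {η : ℝ} (hη : 0 < η) (hη0 : η ≤ eps0) (hR : RefsStmt E m n Q) :
    Ev E m n Q fun T _ ν _ _ _ _ S b A => ∀ j, NumW S j ∧
      Wd1 T (wr S j) η (A * S.r j ^ (b - 1)) (tube S j) ν (S.r j) (S.h j) := by
  have hall := ((hR η hη hη0).and
    (sup_win (E := E) (m := m) (n := n) (Q := Q) (η := η) hη)).and (cylStmt hR η hη hη0)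
  refine Ev.mono hall fun T F ν P X C ε τ S b A hctx hb hA h j => ?_
  obtain ⟨⟨hrefs, hsup⟩, hcyl⟩ := h
  obtain ⟨-, -, -, -, -, hwin⟩ := hrefs j
  obtain ⟨-, N, -⟩ := hsup j
  obtain ⟨hs, hC, -⟩ := hcyl j
  have hr := N.rpos
  have hh := N.hpos
  have hθ := N.th_pos
  have hθ1 := N.th_le
  have hrr : Tr S (j + 1) ≤ S.r j := N.Tr_lt.trans (mul_le_of_le_one_right hr.le (by linarith))
  obtain ⟨-, hadm, -, -⟩ := hwin (S.r j) hrr le_rfl
  refine ⟨N, N.hpos, N.h1, hr, N.rle, hθ, hθ1, ?_, hadm, ?_, hs, hC.slab, fun s hs' => ?_⟩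
  · have h1 : S.h j ^ (1 / 4 : ℝ) ≤ S.h j ^ (1 / 10 : ℝ) :=
      Real.rpow_le_rpow_of_exponent_ge hh (by linarith [N.h1]) (by norm_num)
    have := N.ten
    linarith
  · have := N.tube_th
    nlinarith
  · have hI := hctx.loc.int (3 / 8) (by norm_num) le_rfl
    have := HSW.integrableOn_rel_sq hI.cyl (COORD.kms_ref_lift F (S.nxt j).smooth) 0 (s := s) (by
      rw [sub_zero, norm_zero, zero_add]; exact hs')
    exact this

/-- **[B-KER]** -/
theorem kerStmt {k k' K : ℝ → ℝ} {B : ℝ} (hk : Ker k k' K B) (hR : RefsStmt E m n Q) :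
    KerStmt E m n Q k := by
  have hB := hk.kb.one
  have h2m : (1:ℝ) ≤ 2 ^ m := one_le_pow₀ (by norm_num)
  refine ⟨B * 2 ^ m * 16, by nlinarith, ?_⟩
  have hkc : Continuous k := hk.kb.kern.pk.continuous
  have hk1 := hk.kb.kern.pk.zero
  have hk2 := hk.kb.kB
  have hk0 := hk.kb.kern.nonneg
  refine (ev_wd1 eps0_pos le_rfl hR).mono fun T F ν P X C ε τ S b A hctx hb hA h j t ht => ?_
  obtain ⟨N, W⟩ := h j
  have hc : X.c₅ ≤ 1 / 20 := (c₅_le hctx.ok).trans (by norm_num)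
  have ht0 : 0 < t := lt_of_lt_of_le (mul_pos N.rpos (Real.rpow_pos_of_pos N.hpos _)) ht
  have hN0 : ∀ s, 0 < s → 0 ≤ STR.hN m T (wr S j) ν s := by
    intro s hs
    unfold STR.hN WIN.hE
    have : 0 ≤ ∫ y in Skel.cylSet T 0 s, ‖KMS.rel T (wr S j) y‖ ^ 2 ∂ν :=
      integral_nonneg fun _ => sq_nonneg _
    positivity
  refine ⟨fun htr => ?_, fun d hd hd1 htr => ?_⟩
  · have hq := W.q_pos
    refine (W.upper hc hkc hk1 hk2 hk0 ht htr).trans ?_
    have h0 := hN0 (t * (1 + S.h j ^ (1 / 4 : ℝ))) (by positivity)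
    have h1 : 2 * B * 2 ^ (m + 2) ≤ B * 2 ^ m * 16 := by
      rw [pow_add]
      nlinarith
    exact mul_le_mul_of_nonneg_right (mul_le_mul_of_nonneg_right h1 (by positivity)) h0
  · have hq := W.q_pos
    have hd0 : 0 < d := by linarith
    refine (W.lower hc hkc hk1 hk2 hk0 hk.low ht hd hd1 htr).trans ?_
    have hH0 : 0 ≤ HF m T (wr S j) 0 k (fmeas T (wr S j) (tube S j) ν) (t * (1 + d)) := by
      rw [W.adm.HF_eq]
      refine mul_nonneg (by positivity) (integral_nonneg fun y => ?_)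
      have v0 := W.adm.ref.half_le_vp W.adm.eps_le 0 (PsiInv T (wr S j) (tube S j) y)
      exact mul_nonneg (hk0 _) (mul_nonneg (by linarith) (sq_nonneg _))
    have h1 : 16 * 2 ^ m ≤ B * 2 ^ m * 16 := by nlinarith
    show 16 * 2 ^ m * d⁻¹ ^ 3 * (t ^ 2)⁻¹ *
        HF m T (wr S j) 0 k (fmeas T (wr S j) (tube S j) ν) (t * (1 + d)) ≤
      B * 2 ^ m * 16 * d⁻¹ ^ 3 * (t ^ 2)⁻¹ *
        HF m T (wr S j) 0 k (fmeas T (wr S j) (tube S j) ν) (t * (1 + d))
    gcongr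

/-- **[B-INP]**: the input of the one-scale lemmas at all scales of all windows -/
def InpStmt (E : Type*) [NormedAddCommGroup E] [InnerProductSpace ℝ E] [FiniteDimensional ℝ E]
    [MeasurableSpace E] [BorelSpace E] (m n Q : ℕ) : Prop :=
  ∀ δ₀ : ℝ, 0 < δ₀ → δ₀ ≤ 1 / 8 → δ₀ ≤ 8 * eps0 → Ev E m n Q fun T _ ν P _ _ _ S b A =>
    ∀ (k : ℝ → ℝ) (j : ℕ) (t d s : ℝ), Tr S (j + 1) ≤ t → 4 * t ≤ 3 / 8 → A * t ^ b ≤ δ₀ →
      0 < d → d ≤ 1 / 2 → (1 + 2 * d) * t < S.r j * (1 - 9 * th (S.h j)) → 0 < s →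
      INST.Hw m T ν k (tube S j) (wr S j) ((1 + 2 * d) * t) ≤ s * t ^ 2 →
      s ^ (1 / 4 : ℝ) * t ≤ tube S j →
      ∃ h, RC2X.Inp m Q T (wr S j) (δ₀ / 8) (A * t ^ (b - 1)) (tube S j) 0 t d s k h δ₀
        (Gr S j) (2 * (S.r j * S.h j ^ (2 / 5 : ℝ))) ν P

/-- **[B-INP]** -/
theorem inpStmt (hR : RefsStmt E m n Q) : InpStmt E m n Q := by
  intro δ₀ hδ₀ hδ₀1 hδ₀2
  have hall := (((hR (δ₀ / 8) (by positivity) (by linarith)).and
    (sup_win (E := E) (m := m) (n := n) (Q := Q) (η := δ₀ / 8) (by positivity))).and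
    (cylStmt hR (δ₀ / 8) (by positivity) (by linarith))).and
    (Ev.small (E := E) (m := m) (n := n) (Q := Q) (c := δ₀ / (8 * 4 ^ m)) (by positivity))
  refine Ev.mono hall fun T F ν P X C ε τ S b A hctx hb hA h k j t d s ht1 ht4 htδ hd hd2 hball
    hs hH htube => ?_
  obtain ⟨⟨⟨hrefs, hsup⟩, hcyl⟩, hε⟩ := h
  obtain ⟨-, -, -, -, hmin, hwin⟩ := hrefs j
  obtain ⟨-, N, -⟩ := hsup j
  obtain ⟨hs', hC, -⟩ := hcyl j
  have hr := N.rpos
  have hh := N.hpos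
  have hθ := N.th_pos
  have hθ1 := N.th_le
  have ht0 : 0 < t := N.Tr_pos.trans_le ht1
  have htr : t ≤ S.r j := by nlinarith [mul_pos hd ht0, mul_pos hr hθ]
  obtain ⟨-, hadm, -, hY⟩ := hwin t ht1 htr
  have hτ := hctx.τ_pos
  have h4 : (1:ℝ) ≤ 4 ^ m := one_le_pow₀ (by norm_num)
  have hτδ : 8 * 4 ^ m * τ ≤ δ₀ := by
    have h5 := hctx.τ_le.trans hε
    rw [le_div_iff₀ (by positivity)] at h5
    linarith
  have hcrs := crs_of_locB (w := wr S j) hctx.loc hctx.ok.β_pos.le hτ.le ht0 ht4 hτδ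
    (fun y hy => by
      rw [mem_ball_zero_iff] at hy
      refine ((hY y (by linarith)).2.2).trans ?_
      nlinarith)
  have hκt : A * t ^ (b - 1) * t = A * t ^ b := by
    rw [mul_assoc]
    congr 1
    nth_rewrite 2 [← Real.rpow_one t]
    rw [← Real.rpow_add ht0]
    congr 1
    ring
  refine ⟨_, hcrs.inp hadm hC ?_ ?_ (by linarith) ?_ (by linarith) (by rw [hκt]; exact htδ) hd hd2
    hs hH htube⟩
  · intro x hx hx2
    rw [map_zero, sub_zero] at hx2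
    rw [Gr, mem_ball, dist_zero_right]
    exact hx2.trans_lt hball
  · intro y hy
    refine hmin y ?_
    unfold Gr at hy
    exact ball_subset_ball (by nlinarith) hy
  · have := N.tube_le
    have := N.Tr_pos
    linarith

end Vale.Agent.P214.BINST
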