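import Vale.Agent.P214.BINST.VisOne
import Vale.Agent.P214.BINST.Ker
import Vale.Agent.P214.BINST.Rad

/-!
# P214, block BINST: lower and upper bounds of the kernel heights at the ends of the windows

Port of helper700's `INST/SwD` to the chain of target B.  `visB`: all the geometric facts about the
kernel heights near the switch radii, `(up)`, `(low)`, `(low')`.
-/

open Set Filter Topology MeasureTheory Metric
open scoped RealInnerProductSpace ContDiff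

set_option linter.all false

namespace Vale.Agent.P214.BINST

open WIN FM INST
open WSEQ (th)
open BSEQ (Exps WSeq LocB)

variable {m n Q : ℕ} {E : Type*} [NormedAddCommGroup E] [InnerProductSpace ℝ E]
  [FiniteDimensional ℝ E] [MeasurableSpace E] [BorelSpace E]

/-- smallness of one height, for the lower bounds -/
structure SmVB (m : ℕ) (X : Exps) (c₀ C₀ cB h : ℝ) : Prop where
  q0 : h ^ (1 / 4 : ℝ) ≤ 1 / 16 * th h
  q1 : 2 ^ m * 4 * (h ^ (1 / 4 : ℝ) * h ^ (1 - X.e')) ≤ h ^ (1 + X.c)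
  q2 : c₀ * h ≤ cB * th h ^ (m + 2)
  q3 : ∀ ρ : ℝ, 0 < ρ → ρ ≤ h ^ (1 / 4 : ℝ) →
    120 * ρ * ((m + 8) * Real.log ρ⁻¹) ^ 6 ≤ 1 ∧ ρ ≤ cB
  q4 : C₀ * (h ^ (1 - X.e') + h ^ (1 + X.c)) ≤ 1 / 2

lemma vis_e'_pos {X : Exps} (hX : X.OK m) : 0 < X.e' := by
  have := hX.e'_eq
  have := hX.e_pos
  have := hX.c₅_pos
  have hm : (0:ℝ) ≤ m := Nat.cast_nonneg m
  nlinarith

lemma vis_e'_small {X : Exps} (hX : X.OK m) : X.e' ≤ 1 / 800 := by
  have := hX.e'_le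
  have := hX.c_le
  linarith

lemma exists_smVB (m : ℕ) (X : Exps) {c₀ C₀ cB : ℝ} (hc₀ : 0 < c₀) (hC₀ : 1 ≤ C₀)
    (hcB : 0 < cB) (hX : X.OK m) :
    ∃ b : ℝ, 0 < b ∧ b ≤ 1 ∧ ∀ h : ℝ, 0 < h → h ≤ b → SmVB m X c₀ C₀ cB h := by
  have hc := hX.c_pos
  have hc1 := hX.c_le
  have he := vis_e'_small hX
  have he0 := vis_e'_pos hX
  have a0 := ev_small (δ := 1 / 4) (by norm_num) 1 (η := 1 / 16) (by norm_num)
  have a1 := ev_small (δ := 1 / 8) (by norm_num) 0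
    (η := 1 / (2 ^ m * 4)) (by positivity)
  have a2 := ev_small (δ := 1) (by norm_num) (m + 2) (η := cB / c₀) (by positivity)
  have a4 := ev_small (δ := 1 / 2) (by norm_num) 0 (η := 1 / (4 * C₀)) (by positivity)
  -- the numbers `ρ`
  have a3 : ∀ᶠ ρ in 𝓝[>] (0:ℝ), 120 * ρ * ((m + 8) * Real.log ρ⁻¹) ^ 6 ≤ 1 ∧ ρ ≤ cB := by
    have h1 : Tendsto (fun ρ : ℝ => 120 * ((m:ℝ) + 8) ^ 6 * (ρ ^ (1:ℝ) * (Real.log ρ⁻¹) ^ 6))
        (𝓝[>] 0) (𝓝 (120 * ((m:ℝ) + 8) ^ 6 * 0)) :=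
      (tendsto_rpow_div 1 one_pos 6).const_mul _
    rw [mul_zero] at h1
    filter_upwards [h1.eventually (gt_mem_nhds one_pos), Ioo_mem_nhdsGT hcB] with ρ h2 h3
    refine ⟨?_, h3.2.le⟩
    rw [Real.rpow_one] at h2
    calc 120 * ρ * ((m + 8) * Real.log ρ⁻¹) ^ 6 =
          120 * ((m:ℝ) + 8) ^ 6 * (ρ * (Real.log ρ⁻¹) ^ 6) := by ring
      _ ≤ 1 := h2.le
  rw [eventually_nhdsWithin_iff, Metric.eventually_nhds_iff] at a3
  obtain ⟨ρ₀, hρ₀, a3⟩ := a3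
  have a5 : ∀ᶠ h in 𝓝[>] (0:ℝ), h ^ (1 / 4 : ℝ) < ρ₀ := by
    have h1 : Tendsto (fun h : ℝ => h ^ (1 / 4 : ℝ) * Real.log h⁻¹ ^ 0) (𝓝[>] 0) (𝓝 0) :=
      tendsto_rpow_div (1 / 4) (by norm_num) 0
    simp only [pow_zero, mul_one] at h1
    exact h1.eventually (gt_mem_nhds hρ₀)
  have a6 : ∀ᶠ h in 𝓝[>] (0:ℝ), h ≤ 1 := by
    filter_upwards [Ioo_mem_nhdsGT (show (0:ℝ) < 1 by norm_num)] with h hh using hh.2.le
  have key : ∀ᶠ h in 𝓝[>] (0:ℝ), SmVB m X c₀ C₀ cB h := by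
    filter_upwards [a0, a1, a2, a4, a5, a6, self_mem_nhdsWithin] with h b0 b1 b2 b4 b5 b6 hpos
    have hp : (0:ℝ) < h := hpos
    refine ⟨?_, ?_, ?_, fun ρ h0 h1 => a3 (by
      rw [dist_zero_right, Real.norm_eq_abs, abs_of_pos h0]
      exact h1.trans_lt b5) h0, ?_⟩
    · rw [pow_one] at b0
      exact b0
    · rw [pow_zero, mul_one] at b1
      have e1 : h ^ (1 / 4 : ℝ) * h ^ (1 - X.e') = h ^ (5 / 4 - X.e') := by
        rw [← Real.rpow_add hp]; congr 1; ring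
      have e2 : h ^ (5 / 4 - X.e') ≤ h ^ ((1 / 8 : ℝ) + (1 + X.c)) :=
        Real.rpow_le_rpow_of_exponent_ge hp b6 (by linarith)
      rw [Real.rpow_add hp] at e2
      rw [e1]
      have hp2 : 0 < h ^ (1 + X.c) := Real.rpow_pos_of_pos hp _
      have hp3 : 0 < h ^ (5 / 4 - X.e') := Real.rpow_pos_of_pos hp _
      calc 2 ^ m * 4 * h ^ (5 / 4 - X.e') ≤ 2 ^ m * 4 * (h ^ (1 / 8 : ℝ) * h ^ (1 + X.c)) := by
            gcongr
        _ ≤ 2 ^ m * 4 * (1 / (2 ^ m * 4) * h ^ (1 + X.c)) := by gcongr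
        _ = h ^ (1 + X.c) := by field_simp
    · rw [Real.rpow_one] at b2
      have e1 : thI h = th h := rfl
      rw [e1] at b2
      calc c₀ * h ≤ c₀ * (cB / c₀ * th h ^ (m + 2)) := by gcongr
        _ = _ := by field_simp
    · rw [pow_zero, mul_one] at b4
      have h1 : h ^ (1 - X.e') ≤ h ^ (1 / 2 : ℝ) :=
        Real.rpow_le_rpow_of_exponent_ge hp b6 (by linarith)
      have h2 : h ^ (1 + X.c) ≤ h ^ (1 / 2 : ℝ) :=
        Real.rpow_le_rpow_of_exponent_ge hp b6 (by linarith)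
      calc C₀ * (h ^ (1 - X.e') + h ^ (1 + X.c)) ≤ C₀ * (1 / (4 * C₀) + 1 / (4 * C₀)) := by
            gcongr
            · exact h1.trans b4
            · exact h2.trans b4
        _ = 1 / 2 := by field_simp; ring
  rw [eventually_nhdsWithin_iff, Metric.eventually_nhds_iff] at key
  obtain ⟨ε, hε, h⟩ := key
  refine ⟨min (ε / 2) 1, by positivity, min_le_right _ _, fun x hx hxε => h ?_ hx⟩
  rw [dist_zero_right, Real.norm_eq_abs, abs_of_pos hx]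
  linarith [min_le_left (ε / 2) 1]

variable {T : Submodule ℝ E} {F : Frame m n T} {ν : Measure E} {P : E → E →L[ℝ] E}
  {X : Exps} {C ε : ℝ} {S : WSeq m n Q T F ν X C ε} {j : ℕ} {η κ B : ℝ} {k k' K : ℝ → ℝ}

/-- heights increase at most to the power `1 - e'` -/
lemma vis_h_succ (S : WSeq m n Q T F ν X C ε) (hX : X.OK m) (hθ : 0 ≤ th (S.h j)) :
    S.h (j + 1) ≤ S.h j ^ (1 - X.e') := by
  have h1 := (S.nxt j).top (S.r (j + 1)) (S.nxt j).r_ge ((S.nxt j).r_le.trans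
    (mul_le_mul_of_nonneg_left (by linarith) (S.r_pos j).le))
  rw [S.h_eq (j + 1)]
  exact h1

/-- the collars increase at most by the factor `11/10` -/
lemma vis_th_succ {h h' e' : ℝ} (he0 : 0 ≤ e') (he1 : e' ≤ 1 / 800) (hh' : 0 < h')
    (hh : 0 < h) (hh1 : h < 1) (hup : h' ≤ h ^ (1 - e')) : th h' ≤ 11 / 10 * th h := by
  have hL : 0 < Real.log h⁻¹ := Real.log_pos ((one_lt_inv₀ hh).2 hh1)
  have h1 : (1 - e') * Real.log h⁻¹ ≤ Real.log h'⁻¹ := by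
    have h2 : Real.log h' ≤ (1 - e') * Real.log h := by
      rw [← Real.log_rpow hh]
      exact Real.log_le_log hh' hup
    rw [Real.log_inv, Real.log_inv]
    linarith
  have h2 : 799 / 800 * Real.log h⁻¹ ≤ Real.log h'⁻¹ :=
    le_trans (mul_le_mul_of_nonneg_right (by linarith) hL.le) h1
  have h3 : (Real.log h'⁻¹)⁻¹ ≤ (799 / 800 * Real.log h⁻¹)⁻¹ := inv_anti₀ (by positivity) h2
  have h4 : 0 ≤ (Real.log h'⁻¹)⁻¹ := by
    have : 0 < Real.log h'⁻¹ := lt_of_lt_of_le (by positivity) h2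
    positivity
  unfold WSEQ.th
  calc ((Real.log h'⁻¹)⁻¹) ^ 7 ≤ ((799 / 800 * Real.log h⁻¹)⁻¹) ^ 7 := pow_le_pow_left₀ h4 h3 7
    _ = (800 / 799) ^ 7 * ((Real.log h⁻¹)⁻¹) ^ 7 := by
        rw [mul_inv, mul_pow]; norm_num
    _ ≤ 11 / 10 * ((Real.log h⁻¹)⁻¹) ^ 7 := by
        refine mul_le_mul_of_nonneg_right (by norm_num) (by positivity)

/-- the lower end of window `j` -/
lemma endB_of (S : WSeq m n Q T F ν X C ε) (hX : X.OK m) {c₀ C₀ cB : ℝ}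
    (V : SmVB m X c₀ C₀ cB (S.h j)) : EndB (S.r j) (S.h j) X.c₅ (S.r (j + 1)) :=
  ⟨hX.c₅_pos, (c₅_le hX).trans (by norm_num), V.q0, S.r_pos _, (S.nxt j).r_ge, (S.nxt j).r_le⟩

/-- the facts about one window -/
structure VisB (S : WSeq m n Q T F ν X C ε) (k : ℝ → ℝ) (c₀ C₀ : ℝ) (j : ℕ) : Prop where
  h_next : S.h (j + 1) ≤ S.h j ^ (1 - X.e')
  th_next : th (S.h (j + 1)) ≤ 11 / 10 * th (S.h j)
  up : INST.Hw m T ν k (tube S j) (wr S j) (Tr S (j + 1)) / Tr S (j + 1) ^ 2 ≤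
    C₀ * (S.h (j + 1) + S.h j ^ (1 + X.c))
  low : ∃ y, Tr S (j + 1) ≤ y ∧ y ≤ Tr S j ∧ y ≤ S.r (j + 1) * (1 + 11 / 10 * th (S.h j)) ∧
    30 * (y / S.r (j + 1) - 1) ≤
      ((Real.log (INST.Hw m T ν k (tube S j) (wr S j) y / y ^ 2)⁻¹)⁻¹) ^ 6 ∧
    c₀ * th (S.h (j + 1)) ^ 3 * S.h (j + 1) ≤ INST.Hw m T ν k (tube S j) (wr S j) y / y ^ 2 ∧
    INST.Hw m T ν k (tube S j) (wr S j) y / y ^ 2 ≤ C₀ * (S.h (j + 1) + S.h j ^ (1 + X.c))
  low' : S.r (j + 1) < S.r j * (1 - 12 * th (S.h j)) →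
    c₀ * th (S.h j) ^ 3 * S.h j ^ (1 + X.c) ≤
      INST.Hw m T ν k (tube S j) (wr S j) (S.r (j + 1) * (1 + th (S.h j))) /
        (S.r (j + 1) * (1 + th (S.h j))) ^ 2

/-- the upper bound at the switch radius -/
theorem visB_up {c₀ C₀ cB : ℝ} (N : NumW S j)
    (W : Wd1 T (wr S j) η κ (tube S j) ν (S.r j) (S.h j)) (hkb : ODEW.KB k k' K B)
    (H : EndB (S.r j) (S.h j) X.c₅ (S.r (j + 1)))
    (V : SmVB m X c₀ C₀ cB (S.h j)) (hC₀ : 2 ^ m * 16 * B ≤ C₀) :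
    INST.Hw m T ν k (tube S j) (wr S j) (Tr S (j + 1)) / Tr S (j + 1) ^ 2 ≤
      C₀ * (S.h (j + 1) + S.h j ^ (1 + X.c)) := by
  have hB := hkb.one
  have hr := H.rpos
  have hr1 := N.rpos
  have hθ := N.th_pos
  have hh := N.hpos
  have hh' := S.h_pos (j + 1)
  have hpw : 0 < S.h j ^ (1 + X.c) := Real.rpow_pos_of_pos hh _
  have hpw' : 0 < S.h j ^ (1 - X.e') := Real.rpow_pos_of_pos hh _
  have hT0 : 0 < Tr S (j + 1) := N.Tr_pos
  have hT2 : S.r (j + 1) ≤ 2 * Tr S (j + 1) := by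
    have := S.th_le (j + 1)
    unfold Tr
    nlinarith
  have e1 : STR.hN m T (wr S j) ν (S.r (j + 1)) = S.h (j + 1) := (S.h_eq (j + 1)).symm
  have hq : 0 < S.h j ^ (1 / 4 : ℝ) := Real.rpow_pos_of_pos hh _
  have hq16 := V.q0
  have htop : STR.hN m T (wr S j) ν (S.r (j + 1) * (1 + S.h j ^ (1 / 4 : ℝ))) ≤
      S.h j ^ (1 - X.e') := by
    refine (S.nxt j).top _ ?_ ?_
    · refine H.r_ge.trans ?_
      nlinarith
    · have h3 : S.r (j + 1) * (1 + S.h j ^ (1 / 4 : ℝ)) ≤ S.r (j + 1) * (1 + th (S.h j)) := by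
        gcongr; linarith
      refine h3.trans ((W.r_le_end H).trans ?_)
      nlinarith [mul_pos hr1 hθ]
  have h1 := W.up_sw H hkb hpw'.le hT0 N.Tr_le hT2 htop
  rw [e1] at h1
  rw [div_le_iff₀ (by positivity)]
  refine h1.trans ?_
  have h3 := V.q1
  calc Tr S (j + 1) ^ 2 * (2 ^ m * 8 * B * (S.h (j + 1) +
        2 ^ m * 4 * (S.h j ^ (1 / 4 : ℝ) * S.h j ^ (1 - X.e')))) ≤
      Tr S (j + 1) ^ 2 * (2 ^ m * 8 * B * (S.h (j + 1) + S.h j ^ (1 + X.c))) := by gcongr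
    _ ≤ Tr S (j + 1) ^ 2 * (C₀ * (S.h (j + 1) + S.h j ^ (1 + X.c))) := by
        have h2m : (1:ℝ) ≤ 2 ^ m := one_le_pow₀ (by norm_num)
        have h4 : 2 ^ m * 8 * B ≤ C₀ := by nlinarith
        gcongr
    _ = _ := by ring

/-- lower bound above the switch radius of a non-tiny window -/
theorem visB_fat {c₀ : ℝ} (N : NumW S j)
    (W : Wd1 T (wr S j) η κ (tube S j) ν (S.r j) (S.h j)) (hkb : ODEW.KB k k' K B)
    (hk3 : ∀ s, 0 ≤ s → s ≤ 1 → (1 - s) ^ 3 ≤ k s)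
    (H : EndB (S.r j) (S.h j) X.c₅ (S.r (j + 1)))
    (hc₀1 : c₀ ≤ (512 * 2 ^ m)⁻¹) (hfat : S.r (j + 1) < S.r j * (1 - 12 * th (S.h j))) :
    c₀ * th (S.h j) ^ 3 * S.h j ^ (1 + X.c) ≤
      INST.Hw m T ν k (tube S j) (wr S j) (S.r (j + 1) * (1 + th (S.h j))) /
        (S.r (j + 1) * (1 + th (S.h j))) ^ 2 := by
  have hr := H.rpos
  have hθ := N.th_pos
  have hθ1 := N.th_le
  have hpw : 0 < S.h j ^ (1 + X.c) := Real.rpow_pos_of_pos N.hpos _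
  have h1 := W.low_fat (m := m) H hkb hk3 hfat hpw fun t ht1 ht2 => (S.nxt j).h_gt t ht1 ht2
  have h2 := div_sq_ge hr (y := S.r (j + 1) * (1 + th (S.h j))) (by nlinarith)
    (by nlinarith) (by positivity) h1
  refine le_trans ?_ h2
  have h5 : c₀ ≤ (128 * 2 ^ m)⁻¹ / 4 := by
    refine hc₀1.trans (le_of_eq ?_)
    rw [mul_inv, mul_inv]; ring
  calc c₀ * th (S.h j) ^ 3 * S.h j ^ (1 + X.c) ≤
        ((128 * 2 ^ m)⁻¹ / 4) * th (S.h j) ^ 3 * S.h j ^ (1 + X.c) := by gcongr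
    _ = _ := by ring

/-- case A -/
theorem visB_A {c₀ : ℝ} (N' : NumW S (j + 1))
    (W : Wd1 T (wr S j) η κ (tube S j) ν (S.r j) (S.h j)) (hkb : ODEW.KB k k' K B)
    (hk3 : ∀ s, 0 ≤ s → s ≤ 1 → (1 - s) ^ 3 ≤ k s)
    (H : EndB (S.r j) (S.h j) X.c₅ (S.r (j + 1)))
    (hc₀1 : c₀ ≤ (512 * 2 ^ m)⁻¹) (hRr : S.r (j + 1) * (1 + th (S.h (j + 1))) ≤ S.r j)
    (hcase : ∀ᵐ y ∂ν, ‖T.starProjection y‖ < S.r (j + 1) →
      ‖FV.co T y - wr S j y‖ ≤ th (S.h (j + 1)) * S.r (j + 1)) :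
    c₀ * th (S.h (j + 1)) ^ 3 * S.h (j + 1) ≤
      INST.Hw m T ν k (tube S j) (wr S j) (S.r (j + 1) * (1 + th (S.h (j + 1)))) /
        (S.r (j + 1) * (1 + th (S.h (j + 1)))) ^ 2 := by
  have hr := H.rpos
  have hθ' := N'.th_pos
  have hθ1' := N'.th_le
  have hh' := N'.hpos
  have e1 : STR.hN m T (wr S j) ν (S.r (j + 1)) = S.h (j + 1) := (S.h_eq (j + 1)).symm
  have h1 := W.low_A (m := m) H hkb hk3 hθ' (by linarith) hRr hcase
  rw [e1] at h1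
  have h2 := div_sq_ge hr (y := S.r (j + 1) * (1 + th (S.h (j + 1)))) (by nlinarith)
    (by nlinarith) (by positivity) h1
  refine le_trans ?_ h2
  have h5 : c₀ ≤ (16 * 2 ^ m)⁻¹ / 4 := by
    refine hc₀1.trans ?_
    rw [mul_inv, mul_inv]
    have : 0 < ((2:ℝ) ^ m)⁻¹ := by positivity
    nlinarith
  calc c₀ * th (S.h (j + 1)) ^ 3 * S.h (j + 1) ≤
        ((16 * 2 ^ m)⁻¹ / 4) * th (S.h (j + 1)) ^ 3 * S.h (j + 1) := by gcongr
    _ = _ := by ring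

/-- **all the bounds for one window** -/
theorem visB_one {c₀ C₀ cB : ℝ} (hX : X.OK m) (N : NumW S j) (N' : NumW S (j + 1))
    (W : Wd1 T (wr S j) η κ (tube S j) ν (S.r j) (S.h j)) (hkb : ODEW.KB k k' K B)
    (hk3 : ∀ s, 0 ≤ s → s ≤ 1 → (1 - s) ^ 3 ≤ k s) {δ' H' : ℝ}
    (hI : Skel.IntCyl m Q T 0 (3 / 8) H' δ' ν P)
    (V : SmVB m X c₀ C₀ cB (S.h j)) (V' : SmVB m X c₀ C₀ cB (S.h (j + 1)))
    (hc₀ : 0 < c₀) (hc₀1 : c₀ ≤ (512 * 2 ^ m)⁻¹) (hC₀ : 2 ^ m * 16 * B ≤ C₀)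
    (hcB : cB = cg m * (8 ^ m)⁻¹ / 4)
    (hS' : Sm X.c (max C₀ c₀) c₀ (S.h (j + 1)))
    (hcont : ContinuousOn (fun t => INST.Hw m T ν k (tube S j) (wr S j) t / t ^ 2)
      (Icc (Tr S (j + 1)) (Tr S j))) : VisB S k c₀ C₀ j := by
  have H := endB_of S hX V
  have hup := visB_up N W hkb H V hC₀
  have hB := hkb.one
  have h2m : (1:ℝ) ≤ 2 ^ m := one_le_pow₀ (by norm_num)
  have hC₀1 : 1 ≤ C₀ := by nlinarith
  have hr := H.rpos
  have hr1 := N.rpos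
  have hθ' := N'.th_pos
  have hθ1' := N'.th_le
  have hθ := N.th_pos
  have hθ1 := N.th_le
  have hh' := N'.hpos
  have hh := N.hpos
  have hh1 : S.h j < 1 := by linarith [N.h1]
  have hnext := vis_h_succ (j := j) S hX hθ.le
  have hθθ : th (S.h (j + 1)) ≤ 11 / 10 * th (S.h j) :=
    vis_th_succ (vis_e'_pos hX).le (vis_e'_small hX) hh' hh hh1 hnext
  refine ⟨hnext, hθθ, hup, ?_, visB_fat N W hkb hk3 H hc₀1⟩
  have hpw : 0 < S.h j ^ (1 + X.c) := Real.rpow_pos_of_pos hh _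
  have hTR : Tr S (j + 1) ≤ S.r (j + 1) := N.Tr_le
  have hRT : S.r (j + 1) * (1 + 11 / 10 * th (S.h j)) ≤ Tr S j := by
    calc S.r (j + 1) * (1 + 11 / 10 * th (S.h j))
        ≤ (S.r j * (1 - 12 * th (S.h j))) * (1 + 11 / 10 * th (S.h j)) :=
          mul_le_mul_of_nonneg_right H.r_le (by linarith)
      _ ≤ Tr S j := by
          unfold Tr
          nlinarith [mul_pos hr1 hθ, mul_pos (mul_pos hr1 hθ) hθ]
  have hc₀2 : c₀ ≤ 1 := hc₀1.trans (inv_le_one_of_one_le₀ (by linarith))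
  have hθ3 : th (S.h (j + 1)) ^ 3 ≤ 1 := pow_le_one₀ hθ'.le (by linarith)
  obtain ⟨A, hA⟩ : ∃ A, A = C₀ * (S.h (j + 1) + S.h j ^ (1 + X.c)) := ⟨_, rfl⟩
  rw [← hA] at hup ⊢
  have hAh : S.h j ^ (1 + X.c) ≤ A := by
    rw [hA]
    nlinarith
  have hA2 : A ≤ 1 / 2 := by
    rw [hA]
    refine le_trans ?_ V.q4
    gcongr
  -- the lower number is below the upper number
  have hBA : c₀ * th (S.h (j + 1)) ^ 3 * S.h (j + 1) ≤ A := by
    calc c₀ * th (S.h (j + 1)) ^ 3 * S.h (j + 1) ≤ 1 * 1 * S.h (j + 1) := by gcongr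
      _ ≤ _ := by rw [hA]; nlinarith
  -- a mid point at the radius `Y`
  have hmid : ∀ Y b, S.r (j + 1) ≤ Y → Y ≤ S.r (j + 1) * (1 + 11 / 10 * th (S.h j)) →
      b ≤ INST.Hw m T ν k (tube S j) (wr S j) Y / Y ^ 2 → b ≤ A →
      ∃ y, Tr S (j + 1) ≤ y ∧ y ≤ Y ∧ b ≤ INST.Hw m T ν k (tube S j) (wr S j) y / y ^ 2 ∧
        INST.Hw m T ν k (tube S j) (wr S j) y / y ^ 2 ≤ A := by
    intro Y b h1 h2 h3 h4
    obtain ⟨y, hy, a1, a2⟩ := exists_mid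
      (f := fun t => INST.Hw m T ν k (tube S j) (wr S j) t / t ^ 2)
      (hTR.trans h1) (hcont.mono (Icc_subset_Icc le_rfl (h2.trans hRT))) hup h3 h4
    exact ⟨y, hy.1, hy.2, a1, a2⟩
  have hlow : ∃ y, Tr S (j + 1) ≤ y ∧ y ≤ S.r (j + 1) * (1 + 11 / 10 * th (S.h j)) ∧
      30 * (y / S.r (j + 1) - 1) ≤
        ((Real.log (INST.Hw m T ν k (tube S j) (wr S j) y / y ^ 2)⁻¹)⁻¹) ^ 6 ∧
      c₀ * th (S.h (j + 1)) ^ 3 * S.h (j + 1) ≤
        INST.Hw m T ν k (tube S j) (wr S j) y / y ^ 2 ∧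
      INST.Hw m T ν k (tube S j) (wr S j) y / y ^ 2 ≤ A := by
    by_cases hcase : ∀ᵐ y ∂ν, ‖T.starProjection y‖ < S.r (j + 1) →
        ‖FV.co T y - wr S j y‖ ≤ th (S.h (j + 1)) * S.r (j + 1)
    · -- case A
      have hRr : S.r (j + 1) * (1 + th (S.h (j + 1))) ≤ S.r j := by
        calc S.r (j + 1) * (1 + th (S.h (j + 1)))
            ≤ S.r (j + 1) * (1 + 11 / 10 * th (S.h j)) := by gcongr
          _ ≤ Tr S j := hRT
          _ ≤ S.r j := by unfold Tr; nlinarith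
      have h2 := visB_A N' W hkb hk3 H hc₀1 hRr hcase
      exact caseA_real (C₁ := max C₀ c₀)
        (f := fun t => INST.Hw m T ν k (tube S j) (wr S j) t / t ^ 2)
        hr hmid hA2 hθ' hθθ hX.c_pos hc₀ hS' rfl hBA h2
    · -- case B
      obtain ⟨ρ, hρ0, hρ1, hρ2, h3⟩ := W.stray_point H hkb hk3 hI hθ' hcase
      obtain ⟨q3a, q3b⟩ := V.q3 ρ hρ0 hρ1
      have hcB0 : 0 < cB := by rw [hcB]; have := cg_pos m; positivity
      rw [← hcB] at h3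
      have hq0 := V.q0
      exact caseB_real (c := X.c)
        (f := fun t => INST.Hw m T ν k (tube S j) (wr S j) t / t ^ 2)
        hr hmid hh W.h_le_one (by linarith [hX.c_le]) hcB0 hAh hA2
        hθ' hρ0 hρ1 hρ2 (by linarith) (by linarith) q3a q3b V'.q2 hBA h3
  obtain ⟨y, y1, y2, y3, y4, y5⟩ := hlow
  exact ⟨y, y1, y2.trans hRT, y2, y3, y4, y5⟩

/-- **the bounds of the kernel heights at the ends of the windows**, together with the smallness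
conditions of `INST/Sw` -/
theorem visB (hk : Ker k k' K B) (hR : RefsStmt E m n Q) (hSoft : SoftStmt E m n Q k K)
    {C₀ : ℝ} (hC₀ : 2 ^ m * 16 * B ≤ C₀) :
    Ev E m n Q fun T F ν P X C ε S b A =>
      (∀ j, NumW S j) ∧ (∀ j, Sm X.c (max C₀ (512 * 2 ^ m)⁻¹) (512 * 2 ^ m)⁻¹ (S.h j)) ∧
      ∀ (k₀ : ℕ) (e : ℕ → ℝ), Fat S k₀ → ∀ i, VisB S k (512 * 2 ^ m)⁻¹ C₀ (k₀ + i) := by
  have hB := hk.kb.one
  have h2m : (1:ℝ) ≤ 2 ^ m := one_le_pow₀ (by norm_num)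
  have hC₀1 : 1 ≤ C₀ := by nlinarith
  have hc₀ : (0:ℝ) < (512 * 2 ^ m)⁻¹ := by positivity
  have hcB : 0 < cg m * (8 ^ m)⁻¹ / 4 := by have := cg_pos m; positivity
  intro X C
  by_cases hX : X.OK m
  swap
  · exact ⟨1, one_pos, fun _ _ _ => ⟨1, le_rfl, fun _ _ => ⟨1, one_pos,
      fun T F ν P ε τ S hS _ => absurd hS.ok hX⟩⟩⟩
  obtain ⟨b₀, hb₀, h1⟩ := ((ev_wd1 eps0_pos le_rfl hR).and hSoft) X C
  refine ⟨b₀, hb₀, fun b hb hbb => ?_⟩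
  obtain ⟨A₀, hA₀, h1⟩ := h1 b hb hbb
  refine ⟨A₀, hA₀, fun A hA => ?_⟩
  obtain ⟨a, ha, h1⟩ := h1 A hA
  obtain ⟨b', hb', hb1, h2⟩ := exists_smVB m X hc₀ hC₀1 hcB hX
  obtain ⟨d, hd, hd1, h3⟩ := exists_Sm (c := X.c) (C₁ := max C₀ (512 * 2 ^ m)⁻¹)
    (c₀ := (512 * 2 ^ m)⁻¹) hX.c_pos hX.c_le (lt_max_of_lt_right hc₀) hc₀
  refine ⟨min a (min b' d), by positivity, fun T F ν P ε τ S hS hε => ?_⟩
  have hεa : ε ≤ a := hε.trans (min_le_left _ _)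
  have hεb : ε ≤ b' := hε.trans ((min_le_right _ _).trans (min_le_left _ _))
  have hεd : ε ≤ d := hε.trans ((min_le_right _ _).trans (min_le_right _ _))
  obtain ⟨hW, hsoft⟩ := h1 T F ν P ε τ S hS hεa
  have hSm : ∀ j, Sm X.c (max C₀ (512 * 2 ^ m)⁻¹) (512 * 2 ^ m)⁻¹ (S.h j) := fun j =>
    h3 _ (S.h_pos j) ((S.h_le j).trans hεd)
  have hV : ∀ j, SmVB m X (512 * 2 ^ m)⁻¹ C₀ (cg m * (8 ^ m)⁻¹ / 4) (S.h j) := fun j =>
    h2 _ (S.h_pos j) ((S.h_le j).trans hεb)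
  refine ⟨fun j => (hW j).1, hSm, fun k₀ e hf i => ?_⟩
  obtain ⟨-, -, -, -, hs5⟩ := hsoft k₀ e hf
  have hcont : ContinuousOn
      (fun t => INST.Hw m T ν k (tube S (k₀ + i)) (wr S (k₀ + i)) t / t ^ 2)
      (Icc (Tr S (k₀ + i + 1)) (Tr S (k₀ + i))) := by
    intro t ht
    have h4 := (hs5 i t ht).1.continuousAt
    have ht0 : 0 < t := (hW (k₀ + i)).1.Tr_pos.trans_le ht.1
    exact (h4.div (continuousAt_id.pow 2) (pow_ne_zero 2 ht0.ne')).continuousWithinAt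
  exact visB_one hX (hW _).1 (hW _).1 (hW _).2 hk.kb hk.low
    (hS.loc.int (3 / 8) (by norm_num) le_rfl) (hV _) (hV _) hc₀ le_rfl hC₀ rfl (hSm _) hcont

end Vale.Agent.P214.BINST
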