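import Vale.Agent.P214.BINST.DichProps
import Vale.Agent.P214.BINST.DichTop
import Vale.Agent.P214.BINST.Vis

/-!
# P214, block BINST: proof of `DichStmt` (target B)
-/

open Set Filter Topology MeasureTheory Metric
open scoped RealInnerProductSpace ContDiff

set_option linter.all false

namespace Vale.Agent.P214.BINST

open WIN FM INST
open WSEQ (th)
open BSEQ (Exps WSeq LocB)

variable {m n Q : ℕ} {E : Type*} [NormedAddCommGroup E] [InnerProductSpace ℝ E]
  [FiniteDimensional ℝ E] [MeasurableSpace E] [BorelSpace E]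

/-- the heights tend to zero -/
lemma dich_h_lim {T : Submodule ℝ E} {F : Frame m n T} {ν : Measure E} {X : Exps} {C ε : ℝ}
    (S : WSeq m n Q T F ν X C ε) (hX : X.OK m) (k₀ : ℕ) :
    Tendsto (fun i => S.h (k₀ + i)) atTop (𝓝 0) := by
  have h1 : Tendsto (fun j => S.r j ^ X.β) atTop (𝓝 0) := by
    have h2 := (Real.continuousAt_rpow_const 0 X.β (Or.inr hX.β_pos.le)).tendsto
    rw [Real.zero_rpow hX.β_pos.ne'] at h2
    exact h2.comp S.r_lim
  have h3 : Tendsto S.h atTop (𝓝 0) :=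
    squeeze_zero (fun j => (S.h_pos j).le) S.h_pow h1
  exact (h3.comp (tendsto_add_atTop_nat k₀)).congr fun j => by
    show S.h (j + k₀) = S.h (k₀ + j)
    rw [add_comm]

/-- **[B-DICH]** -/
theorem dichStmt {k k' K : ℝ → ℝ} {B : ℝ} (hk : Ker k k' K B) (hR : RefsStmt E m n Q)
    (hSoft : SoftStmt E m n Q k K) : DichStmt E m n Q k K := by
  intro S₀ hS₀
  obtain ⟨C₁, hC₁, htc⟩ := ev_top_cmp (kerStmt hk hR)
  have h2m : (1:ℝ) ≤ 2 ^ m := one_le_pow₀ (by norm_num)
  have hB := hk.kb.one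
  have hall := ((visB hk hR hSoft (C₀ := 2 ^ m * 16 * B) le_rfl).and htc).and hSoft
  refine Ev.mono hall fun T F ν P X C ε τ S b A hctx hb hA h k₀ e hfat => ?_
  obtain ⟨⟨⟨hN, hSm, hV⟩, htc⟩, hsoft⟩ := h
  have hV := hV k₀ e hfat
  obtain ⟨-, -, -, -, hs5⟩ := hsoft k₀ e hfat
  have hc₀ : (0:ℝ) < (512 * 2 ^ m)⁻¹ := by positivity
  have hin : DInB X.c (512 * 2 ^ m)⁻¹ C₁ (fun i => S.r (k₀ + i)) (fun i => S.h (k₀ + i))
      (chain k K b A e P S k₀).h :=
    { r_pos := fun i => S.r_pos _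
      h_pos := fun i => S.h_pos _
      r_le := fun i => (S.nxt (k₀ + i)).r_le
      th_next := fun i => (hV i).th_next
      h_lim := dich_h_lim S hctx.ok k₀
      low := fun i => by
        obtain ⟨y, y1, y2, y3, y4, y5, y6⟩ := (hV i).low
        exact ⟨y, y1, y2, y4, y5⟩
      low' := fun i hi => (hV i).low' hi
      top := fun i x hx hx2 => (htc (k₀ + i)).1 x hx hx2
      cmp := fun i x d hx hd hd1 hxd => (htc (k₀ + i)).2 x d hx hd hd1 hxd }
  have h12 : Real.exp (-10) ≤ 1 / 2 := by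
    have h3 : Real.exp (-10) ≤ Real.exp (-1) := Real.exp_le_exp.2 (by norm_num)
    have h4 : Real.exp (-1) ≤ 1 / 2 := by
      rw [Real.exp_neg, one_div]
      refine inv_anti₀ (by norm_num) ?_
      have := Real.add_one_le_exp (1:ℝ)
      linarith
    exact h3.trans h4
  have hC₀ : 1 ≤ max (2 ^ m * 16 * B) (512 * 2 ^ m)⁻¹ := le_max_of_le_left (by nlinarith)
  exact dichB hctx.ok.c_pos hc₀ hC₁ hC₀ hin (fun i => hSm (k₀ + i)) rfl
    (fun i x hx => (hs5 i x hx).2.2.2.trans h12) hS₀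

end Vale.Agent.P214.BINST
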