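import Vale.Agent.P214.BINST.DichNum

/-!
# P214, block BINST: the dichotomy for the differential inequalities, real analysis (target B)

Same as `INST/DichAbs` (helper970), for sequences of windows whose heights are not monotone and whose
tubes have radius `r h^{1/5}`: at every scale `t` of window `k`, where all heights up to the adaptive
collar are `≤ s`, there are a relative collar `d` and a height bound `S'` such that the height of the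
reference of window `k` at the scale `(1 + 2 d) t` is `≤ S'`, `(log 1/S')⁻⁹ ≤ d` and
`(log 1/S')⁻²⁸ S' ≤ (log 1/s)⁻³ s`.
-/

open Set Filter Topology

set_option linter.all false

namespace Vale.Agent.P214.BINST

open INST

noncomputable section

/-- the wanted pair (collar, height) -/
structure DSB (S₀ R θ η H t s d S' : ℝ) : Prop where
  d_pos : 0 < d
  d_le : d ≤ 1 / 2
  S_pos : 0 < S'
  S_le : S' ≤ S₀
  dS : ((Real.log S'⁻¹)⁻¹) ^ 9 ≤ d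
  rad : (1 + 2 * d) * t < R * (1 - 9 * θ)
  tube : S' ^ (1 / 4 : ℝ) * t ≤ R * η
  hgt : H ≤ S' * t ^ 2
  err : ((Real.log S'⁻¹)⁻¹) ^ 28 * S' ≤ ((Real.log s⁻¹)⁻¹) ^ 3 * s

/-- the heights in the adaptive collar: if `x ≤ t (1 + 4 Λ⁻⁸)`, `Λ = log 1/s`, the height at `x` is
at most `s`. -/
lemma adaptB {X : ABS.Chain} {t s : ℝ} (ht : 0 < t) (hs : 0 < s) (hΛ : 2048 ≤ Real.log s⁻¹)
    (hB : X.Bdd t s) (h1 : ∀ i x, X.Win i x → X.h i x ≤ 1 / 2) {i : ℕ} {x : ℝ} (hx : X.Win i x)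
    (hxt : x ≤ t * (1 + 4 * ((Real.log s⁻¹)⁻¹) ^ 8)) : X.h i x ≤ s := by
  by_contra hcon
  have hlt := not_le.1 hcon
  refine hcon (hB i x hx (hxt.trans ?_))
  set Λ := Real.log s⁻¹ with hΛd
  have hΛ0 : 0 < Λ := by linarith
  have h2 : X.L i x ≤ Λ := Real.log_le_log (inv_pos.2 (hs.trans hlt)) (inv_anti₀ hs hlt.le)
  have h3 : 0 < X.L i x := Real.log_pos (by
    rw [one_lt_inv₀ (hs.trans hlt)]; linarith [h1 i x hx])
  have h4 : Λ⁻¹ ≤ (X.L i x)⁻¹ := inv_anti₀ h3 h2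
  have h5 : (Λ⁻¹) ^ 6 ≤ ((X.L i x)⁻¹) ^ 6 := pow_le_pow_left₀ (by positivity) h4 6
  have h6 : 4 * (Λ⁻¹) ^ 8 ≤ (Λ⁻¹) ^ 6 := by
    have h7 : Λ⁻¹ ≤ 1 / 2048 := by
      rw [inv_eq_one_div]; exact one_div_le_one_div_of_le (by norm_num) hΛ
    have h8 : 0 < Λ⁻¹ := by positivity
    have h9 : 4 * (Λ⁻¹ * Λ⁻¹) ≤ 1 := by nlinarith
    calc 4 * (Λ⁻¹) ^ 8 = (4 * (Λ⁻¹ * Λ⁻¹)) * (Λ⁻¹) ^ 6 := by ring
      _ ≤ 1 * (Λ⁻¹) ^ 6 := by gcongr
      _ = _ := one_mul _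
  have h10 : 4 * (Λ⁻¹) ^ 8 ≤ ((X.L i x)⁻¹) ^ 6 := h6.trans h5
  gcongr

/-- what the geometry has to deliver -/
structure DInB (c c₀ C₁ : ℝ) (r h : ℕ → ℝ) (hh : ℕ → ℝ → ℝ) : Prop where
  r_pos : ∀ k, 0 < r k
  h_pos : ∀ k, 0 < h k
  r_le : ∀ k, r (k + 1) ≤ r k * (1 - 12 * thI (h k))
  th_next : ∀ k, thI (h (k + 1)) ≤ 11 / 10 * thI (h k)
  h_lim : Tendsto h atTop (𝓝 0)
  low : ∀ k, ∃ y, TI r h (k + 1) ≤ y ∧ y ≤ TI r h k ∧
    30 * (y / r (k + 1) - 1) ≤ ((Real.log (hh k y)⁻¹)⁻¹) ^ 6 ∧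
    c₀ * thI (h (k + 1)) ^ 3 * h (k + 1) ≤ hh k y
  low' : ∀ k, r (k + 1) < r k * (1 - 12 * thI (h k)) →
    c₀ * thI (h k) ^ 3 * h k ^ (1 + c) ≤ hh k (r (k + 1) * (1 + thI (h k)))
  top : ∀ k x, TI r h (k + 1) ≤ x → x ≤ r k * (1 - 9 * thI (h k)) → hh k x ≤ h k ^ (9 / 10 : ℝ)
  cmp : ∀ k x d, TI r h (k + 1) ≤ x → h k ^ (1 / 8 : ℝ) ≤ d → d ≤ 1 / 2 →
    x * (1 + d) ≤ r (k + 1) * (1 - 9 * thI (h (k + 1))) →
    hh (k + 1) x ≤ C₁ * ((d⁻¹) ^ 3 * hh k (x * (1 + d)) + h k ^ (1 + 9 / 5 * c))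

/-- a point `y ≤ R (1 + θ)` is in the adaptive collar of every `t ≥ R (1 - 25 θ)` -/
lemma in_collarB {R θ δ t y : ℝ} (hR : 0 < R) (hθ : 0 < θ) (hθ1 : θ ≤ 1 / 4000)
    (hδ : 30 * θ ≤ δ) (ht : R * (1 - 25 * θ) ≤ t) (hy : y ≤ R * (1 + θ)) : y ≤ t * (1 + δ) := by
  have h1 : 0 ≤ R * (1 - 25 * θ) := mul_nonneg hR.le (by linarith)
  calc y ≤ R * (1 + θ) := hy
    _ ≤ (R * (1 - 25 * θ)) * (1 + 30 * θ) := by
        nlinarith [mul_pos hR hθ, mul_pos (mul_pos hR hθ) hθ]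
    _ ≤ t * (1 + δ) := by gcongr; linarith

lemma close_numB {R θ d t : ℝ} (hR : 0 ≤ R) (hθ : 0 ≤ θ) (hd : 0 ≤ d) (hd1 : d ≤ θ / 8)
    (hθ1 : θ ≤ 1 / 4000) (h : R * (1 - 10 * θ) < (1 + 2 * d) * t) (ht : 0 < t) :
    R * (1 - 11 * θ) ≤ t := by
  have h6 : 0 ≤ 1 - 2 * d := by linarith
  have h5 : R * (1 - 10 * θ) * (1 - 2 * d) ≤ t := by
    calc R * (1 - 10 * θ) * (1 - 2 * d) ≤ ((1 + 2 * d) * t) * (1 - 2 * d) :=
          mul_le_mul_of_nonneg_right h.le h6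
      _ = (1 - 4 * d ^ 2) * t := by ring
      _ ≤ 1 * t := mul_le_mul_of_nonneg_right (by nlinarith) ht.le
      _ = t := one_mul _
  refine le_trans ?_ h5
  rw [mul_assoc]
  refine mul_le_mul_of_nonneg_left ?_ hR
  nlinarith [mul_nonneg hθ hd]

section seq

variable {c c₀ C C₁ : ℝ} {r h : ℕ → ℝ} {hh : ℕ → ℝ → ℝ}

/-- the collar above `r (k+1)` lies in window `k` -/
lemma DInB.le_TI (I : DInB c c₀ C₁ r h hh) (hS : ∀ k, Sm c C c₀ (h k)) (k : ℕ) :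
    r (k + 1) * (1 + 11 / 10 * thI (h k)) ≤ TI r h k := by
  have h1 := (hS k).th_pos
  have h2 := (hS k).th_le
  have h3 := I.r_pos k
  calc r (k + 1) * (1 + 11 / 10 * thI (h k))
      ≤ (r k * (1 - 12 * thI (h k))) * (1 + 11 / 10 * thI (h k)) := by
        gcongr; exact I.r_le k
    _ ≤ TI r h k := by unfold TI; nlinarith [mul_pos h3 h1, mul_pos (mul_pos h3 h1) h1]

lemma DInB.TI_pos (I : DInB c c₀ C₁ r h hh) (hS : ∀ k, Sm c C c₀ (h k)) (k : ℕ) :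
    0 < TI r h k :=
  mul_pos (I.r_pos k) (by linarith [(hS k).th_le])

lemma DInB.TI_le (I : DInB c c₀ C₁ r h hh) (hS : ∀ k, Sm c C c₀ (h k)) (k : ℕ) :
    TI r h k ≤ r k := by
  have h1 := (hS k).th_pos
  have h3 := I.r_pos k
  unfold TI
  nlinarith [mul_pos h3 h1]

lemma DInB.TI_anti (I : DInB c c₀ C₁ r h hh) (hS : ∀ k, Sm c C c₀ (h k)) (k : ℕ) :
    TI r h (k + 1) < TI r h k := by
  have h1 := (hS k).th_pos
  have h3 := I.r_pos (k + 1)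
  calc TI r h (k + 1) ≤ r (k + 1) := I.TI_le hS _
    _ < r (k + 1) * (1 + 11 / 10 * thI (h k)) := by nlinarith [mul_pos h3 h1]
    _ ≤ _ := I.le_TI hS k

end seq

section

variable {c C₀ c₀ C₁ S₀ : ℝ} {r h : ℕ → ℝ} {X : ABS.Chain} {l : ℕ} {t s d : ℝ}

/-- close to the top of a window, `s` is at least (almost) the height of the previous window -/
lemma low_sB (hc : 0 < c) (hc₀ : 0 < c₀) (I : DInB c c₀ C₁ r h X.h)
    (hS : ∀ k, Sm c (max C₀ c₀) c₀ (h k)) (hT : X.T = TI r h)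
    (h1 : ∀ i x, X.Win i x → X.h i x ≤ 1 / 2) (hB : X.Bdd t s)
    (ht : r (l + 2) * (1 - 11 * thI (h (l + 2))) ≤ t) :
    c₀ * thI (h (l + 1)) ^ 3 * h (l + 1) ^ (1 + c) ≤ s := by
  have hθ := fun k => (hS k).th_pos
  have hθ1 := fun k => (hS k).th_le
  have hr0 := I.r_pos
  have hh0 := I.h_pos
  have h2 := I.th_next (l + 1)
  have a1 := hr0 (l + 2)
  have a2 := hr0 (l + 1)
  have a3 := hθ (l + 2)
  have a4 := hθ (l + 1)
  have a5 := hθ1 (l + 1)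
  by_cases hk : r (l + 2) < r (l + 1) * (1 - 12 * thI (h (l + 1)))
  · have e1 := I.low' (l + 1) hk
    refine e1.trans ?_
    have hwin : X.Win (l + 1) (r (l + 2) * (1 + thI (h (l + 1)))) := by
      rw [ABS.Chain.Win, hT]
      refine ⟨(I.TI_le hS (l + 2)).trans ?_, le_trans ?_ (I.le_TI hS (l + 1))⟩
      · nlinarith [mul_pos a1 a4]
      · exact mul_le_mul_of_nonneg_left (by linarith) a1.le
    refine hB _ _ hwin (in_collarB a1 a4 a5 ?_ ?_ le_rfl)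
    · have := (hS (l + 1)).collar ((hS (l + 1)).s7.trans e1) (h1 _ _ hwin)
      unfold ABS.Chain.L
      linarith
    · refine le_trans (mul_le_mul_of_nonneg_left ?_ a1.le) ht
      linarith
  · have hr : r (l + 2) = r (l + 1) * (1 - 12 * thI (h (l + 1))) :=
      le_antisymm (I.r_le (l + 1)) (not_lt.1 hk)
    obtain ⟨y, y1, y2, y3, e1⟩ := I.low l
    have hwin : X.Win l y := by
      rw [ABS.Chain.Win, hT]
      exact ⟨y1, y2⟩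
    have e2 : c₀ * thI (h (l + 1)) ^ 3 * h (l + 1) ^ (1 + c) ≤
        c₀ * thI (h (l + 1)) ^ 3 * h (l + 1) := by
      have h3 : h (l + 1) ^ (1 + c) ≤ h (l + 1) := by
        calc h (l + 1) ^ (1 + c) ≤ h (l + 1) ^ (1:ℝ) :=
              Real.rpow_le_rpow_of_exponent_ge (hh0 _) (hS (l + 1)).le_one (by linarith)
          _ = _ := Real.rpow_one _
      exact mul_le_mul_of_nonneg_left h3 (by positivity)
    refine (e2.trans e1).trans ?_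
    refine hB _ _ hwin (in_collar a2 a4 a5 ?_ ?_ y3)
    · exact (hS (l + 1)).collar (((hS (l + 1)).s7.trans e2).trans e1) (h1 _ _ hwin)
    · refine le_trans ?_ ht
      rw [hr, mul_assoc]
      refine mul_le_mul_of_nonneg_left ?_ a2.le
      nlinarith [mul_pos a3 a4]

end

section

variable {c C₀ c₀ C₁ S₀ : ℝ} {r h : ℕ → ℝ} {X : ABS.Chain} {l : ℕ} {t s d : ℝ}

/-- the facts which are common to all cases -/
structure ComB (c C₀ c₀ C₁ S₀ : ℝ) (r h : ℕ → ℝ) (X : ABS.Chain) (l : ℕ) (t s : ℝ) : Prop where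
  I : DInB c c₀ C₁ r h X.h
  hS : ∀ k, Sm c (max C₀ c₀) c₀ (h k)
  hC : 1 ≤ max C₀ c₀
  hT : X.T = TI r h
  h1 : ∀ i x, X.Win i x → X.h i x ≤ 1 / 2
  ht : 0 < t
  hs : 0 < s
  hw : X.Win (l + 2) t
  hB : X.Bdd t s
  hΛ : 2048 ≤ Real.log s⁻¹
  hnum : ∀ S', 0 < S' → S' ≤ 8 * C₁ * Real.log s⁻¹ ^ 24 * s →
      S' ≤ S₀ ∧ ((Real.log S'⁻¹)⁻¹) ^ 9 ≤ ((Real.log s⁻¹)⁻¹) ^ 8 ∧
        ((Real.log S'⁻¹)⁻¹) ^ 28 * S' ≤ ((Real.log s⁻¹)⁻¹) ^ 3 * s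
  n2 : NhB S₀ (h (l + 2))
  n1 : NhB S₀ (h (l + 1))

lemma X_H_eqB (X : ABS.Chain) (k : ℕ) {x : ℝ} (hx : 0 < x) : X.H k x = X.h k x * x ^ 2 := by
  unfold ABS.Chain.h
  rw [div_mul_cancel₀]
  positivity

lemma ComB.d_facts (K : ComB c C₀ c₀ C₁ S₀ r h X l t s) :
    0 < ((Real.log s⁻¹)⁻¹) ^ 8 ∧ ((Real.log s⁻¹)⁻¹) ^ 8 ≤ 1 / 2048 := by
  have hΛ := K.hΛ
  set Λ := Real.log s⁻¹ with hΛd
  have hΛ0 : 0 < Λ := by linarith
  have hΛi : 0 < Λ⁻¹ := by positivity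
  have hi1 : Λ⁻¹ ≤ 1 / 2048 := by
    rw [inv_eq_one_div]; exact one_div_le_one_div_of_le (by norm_num) hΛ
  refine ⟨by positivity, ?_⟩
  calc (Λ⁻¹) ^ 8 ≤ (Λ⁻¹) ^ 1 := pow_le_pow_of_le_one hΛi.le (by linarith) (by norm_num)
    _ ≤ _ := by rw [pow_one]; exact hi1

lemma ComB.T_eq (K : ComB c C₀ c₀ C₁ S₀ r h X l t s) (k : ℕ) :
    X.T k = r k * (1 - 10 * thI (h k)) := by
  rw [K.hT]; rfl

lemma ComB.t_le (K : ComB c C₀ c₀ C₁ S₀ r h X l t s) : t ≤ r (l + 2) := by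
  refine K.hw.2.trans ?_
  rw [K.hT]
  exact K.I.TI_le K.hS _

/-- the pair, from a bound `S` of the height at the scale `(1 + 2 d) t` -/
lemma ComB.mkDS (K : ComB c C₀ c₀ C₁ S₀ r h X l t s) {S : ℝ} (hS0 : 0 < S)
    (hSh : S ≤ h (l + 2) ^ (9 / 10 : ℝ)) (hd0 : 0 < d) (hd1 : d ≤ 1 / 2048)
    (hS₀ : 4 * S ≤ S₀) (hdS : ((Real.log (4 * S)⁻¹)⁻¹) ^ 9 ≤ d)
    (hr9 : (1 + 2 * d) * t < r (l + 2) * (1 - 9 * thI (h (l + 2))))
    (hH : X.h (l + 2) ((1 + 2 * d) * t) ≤ S)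
    (he : ((Real.log (4 * S)⁻¹)⁻¹) ^ 28 * (4 * S) ≤ ((Real.log s⁻¹)⁻¹) ^ 3 * s) :
    DSB S₀ (r (l + 2)) (thI (h (l + 2))) (h (l + 2) ^ (1 / 5 : ℝ)) (X.H (l + 2) ((1 + 2 * d) * t))
      t s d (4 * S) := by
  have ht0 := K.ht
  have a1 := K.I.r_pos (l + 2)
  have hx0 : 0 < (1 + 2 * d) * t := by positivity
  have hh := K.I.h_pos (l + 2)
  refine ⟨hd0, by linarith, by positivity, hS₀, hdS, hr9, ?_, ?_, he⟩
  · calc (4 * S) ^ (1 / 4 : ℝ) * t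
        ≤ (4 * h (l + 2) ^ (9 / 10 : ℝ)) ^ (1 / 4 : ℝ) * r (l + 2) :=
          mul_le_mul (Real.rpow_le_rpow (by positivity) (by linarith) (by norm_num)) K.t_le ht0.le
            (by positivity)
      _ ≤ h (l + 2) ^ (1 / 5 : ℝ) * r (l + 2) := mul_le_mul_of_nonneg_right K.n2.n3 a1.le
      _ = _ := mul_comm _ _
  · rw [X_H_eqB X _ hx0]
    have hdd : ((1 + 2 * d) * t) ^ 2 ≤ 4 * t ^ 2 := by
      rw [mul_pow]
      refine mul_le_mul_of_nonneg_right ?_ (by positivity)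
      nlinarith
    calc X.h (l + 2) ((1 + 2 * d) * t) * ((1 + 2 * d) * t) ^ 2
        ≤ S * ((1 + 2 * d) * t) ^ 2 := mul_le_mul_of_nonneg_right hH (by positivity)
      _ ≤ S * (4 * t ^ 2) := mul_le_mul_of_nonneg_left hdd hS0.le
      _ = _ := by ring

/-- a scale in the window is away from the radius of the window -/
lemma ComB.rad (K : ComB c C₀ c₀ C₁ S₀ r h X l t s) {x : ℝ} (hx : x ≤ X.T (l + 2)) :
    x < r (l + 2) * (1 - 9 * thI (h (l + 2))) := by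
  refine hx.trans_lt ?_
  rw [K.T_eq]
  have a1 := K.I.r_pos (l + 2)
  have a2 := (K.hS (l + 2)).th_pos
  exact mul_lt_mul_of_pos_left (by linarith) a1

/-- case (i) -/
lemma ComB.case_i (K : ComB c C₀ c₀ C₁ S₀ r h X l t s) (hC₁ : 1 ≤ C₁)
    (hcase : (1 + 2 * ((Real.log s⁻¹)⁻¹) ^ 8) * t ≤ X.T (l + 2)) :
    ∃ d S', DSB S₀ (r (l + 2)) (thI (h (l + 2))) (h (l + 2) ^ (1 / 5 : ℝ))
      (X.H (l + 2) ((1 + 2 * d) * t)) t s d S' := by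
  obtain ⟨hd0, hd1⟩ := K.d_facts
  obtain ⟨d, hd⟩ : ∃ d, d = ((Real.log s⁻¹)⁻¹) ^ 8 := ⟨_, rfl⟩
  rw [← hd] at hcase hd0 hd1
  have ht0 := K.ht
  have hs := K.hs
  have hw : X.Win (l + 2) ((1 + 2 * d) * t) := ⟨K.hw.1.trans (by nlinarith), hcase⟩
  have e1 : X.h (l + 2) ((1 + 2 * d) * t) ≤ s :=
    adaptB ht0 hs K.hΛ K.hB K.h1 hw (by rw [← hd]; nlinarith)
  have h9 := K.rad hcase
  have e2 : X.h (l + 2) ((1 + 2 * d) * t) ≤ h (l + 2) ^ (9 / 10 : ℝ) :=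
    K.I.top _ _ (by rw [← K.hT]; exact hw.1) h9.le
  have hq0 : 0 < h (l + 2) ^ (9 / 10 : ℝ) := Real.rpow_pos_of_pos (K.I.h_pos _) _
  obtain ⟨S, hSd⟩ : ∃ S, S = min s (h (l + 2) ^ (9 / 10 : ℝ)) := ⟨_, rfl⟩
  have hS0 : 0 < S := by rw [hSd]; exact lt_min hs hq0
  have hSs : S ≤ s := by rw [hSd]; exact min_le_left _ _
  have hSh : S ≤ h (l + 2) ^ (9 / 10 : ℝ) := by rw [hSd]; exact min_le_right _ _
  have he : X.h (l + 2) ((1 + 2 * d) * t) ≤ S := by rw [hSd]; exact le_min e1 e2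
  have hsC : 4 * S ≤ 8 * C₁ * Real.log s⁻¹ ^ 24 * s := by
    have h2 : (1:ℝ) ≤ Real.log s⁻¹ ^ 24 := one_le_pow₀ (by linarith [K.hΛ])
    have h3 : (4:ℝ) ≤ 8 * C₁ * Real.log s⁻¹ ^ 24 := by nlinarith
    calc 4 * S ≤ 4 * s := by linarith
      _ ≤ _ := mul_le_mul_of_nonneg_right h3 hs.le
  obtain ⟨q1, q2, q4⟩ := K.hnum (4 * S) (by positivity) hsC
  exact ⟨d, 4 * S, K.mkDS hS0 hSh hd0 hd1 q1 (by rw [hd]; exact q2) h9 he q4⟩

/-- case (ii-b): comparison with the previous window -/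
lemma ComB.case_b (K : ComB c C₀ c₀ C₁ S₀ r h X l t s) (hc : 0 < c) (hc₀ : 0 < c₀)
    (hC₁ : 1 ≤ C₁) (hcase : X.T (l + 2) < (1 + 2 * ((Real.log s⁻¹)⁻¹) ^ 8) * t)
    (hda : ((Real.log s⁻¹)⁻¹) ^ 8 ≤ thI (h (l + 2)) / 8) :
    ∃ d S', DSB S₀ (r (l + 2)) (thI (h (l + 2))) (h (l + 2) ^ (1 / 5 : ℝ))
      (X.H (l + 2) ((1 + 2 * d) * t)) t s d S' := by
  obtain ⟨hd0, hd1⟩ := K.d_facts
  obtain ⟨d, hd⟩ : ∃ d, d = ((Real.log s⁻¹)⁻¹) ^ 8 := ⟨_, rfl⟩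
  rw [← hd] at hcase hd0 hd1 hda
  have ht0 := K.ht
  have hs := K.hs
  have a1 := K.I.r_pos (l + 2)
  have a2 := (K.hS (l + 2)).th_pos
  have a3 := (K.hS (l + 2)).th_le
  have hclose := close_numB a1.le a2.le hd0.le hda a3 (by rw [← K.T_eq]; exact hcase) ht0
  have hlow := low_sB hc hc₀ K.I K.hS K.hT K.h1 K.hB hclose
  have hΛ := K.hΛ
  have hΛ0 : 0 < Real.log s⁻¹ := by linarith
  -- the height of the previous window and `s`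
  have b1 : h (l + 1) ^ (1 + 9 / 5 * c) ≤ s := by
    have h2 := (K.hS (l + 1)).s6
    have h3 : Real.exp (-11) ≤ 1 := Real.exp_le_one_iff.2 (by norm_num)
    have h4 : 0 < c₀ * thI (h (l + 1)) ^ 3 * h (l + 1) ^ (1 + c) :=
      mul_pos (mul_pos hc₀ (pow_pos (K.hS (l + 1)).th_pos 3))
        (Real.rpow_pos_of_pos (K.I.h_pos _) _)
    have h5 : 0 < h (l + 1) ^ (1 + 9 / 5 * c) := Real.rpow_pos_of_pos (K.I.h_pos _) _
    calc h (l + 1) ^ (1 + 9 / 5 * c) ≤ max C₀ c₀ * h (l + 1) ^ (1 + 9 / 5 * c) :=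
          le_mul_of_one_le_left h5.le K.hC
      _ ≤ Real.exp (-11) * (c₀ * thI (h (l + 1)) ^ 3 * h (l + 1) ^ (1 + c)) := h2
      _ ≤ 1 * (c₀ * thI (h (l + 1)) ^ 3 * h (l + 1) ^ (1 + c)) :=
          mul_le_mul_of_nonneg_right h3 h4.le
      _ ≤ s := by rw [one_mul]; exact hlow
  have b2 : h (l + 1) ^ (1 / 8 : ℝ) ≤ d := by
    have h2 : h (l + 1) ^ 2 ≤ s := (K.hS (l + 1)).s7.trans hlow
    have h3 : Real.log s⁻¹ ≤ 2 * Real.log (h (l + 1))⁻¹ := by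
      have h4 : Real.log s⁻¹ ≤ Real.log (h (l + 1) ^ 2)⁻¹ :=
        Real.log_le_log (inv_pos.2 hs) (inv_anti₀ (pow_pos (K.I.h_pos _) 2) h2)
      rw [← inv_pow, Real.log_pow] at h4
      exact_mod_cast h4
    refine K.n1.n5.trans ?_
    rw [hd]
    exact pow_le_pow_left₀ (by
      have := (K.hS (l + 1)).big
      positivity) (inv_anti₀ hΛ0 h3) 8
  have hx0 : 0 < (1 + 2 * d) * t := by positivity
  -- the point `x (1 + d)`
  have h4d : (1 + 2 * d) * t * (1 + d) ≤ t * (1 + 4 * d) := by nlinarith [mul_pos hd0 ht0]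
  have hr9 : t * (1 + 4 * d) ≤ r (l + 2) * (1 - 9 * thI (h (l + 2))) := by
    have h2 := K.hw.2
    rw [K.T_eq] at h2
    calc t * (1 + 4 * d) ≤ (r (l + 2) * (1 - 10 * thI (h (l + 2)))) *
          (1 + thI (h (l + 2)) / 2) := mul_le_mul h2 (by linarith) (by positivity)
            (mul_nonneg a1.le (by linarith))
      _ ≤ _ := by
        rw [mul_assoc]
        refine mul_le_mul_of_nonneg_left ?_ a1.le
        nlinarith
  have hwin : X.Win (l + 1) ((1 + 2 * d) * t * (1 + d)) := by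
    refine ⟨hcase.le.trans (by nlinarith), (h4d.trans hr9).trans ?_⟩
    rw [K.hT]
    have h3 := (K.hS (l + 1)).th_pos
    refine le_trans (mul_le_mul_of_nonneg_left ?_ a1.le) (K.I.le_TI K.hS (l + 1))
    linarith
  have b3 : X.h (l + 1) ((1 + 2 * d) * t * (1 + d)) ≤ s :=
    adaptB ht0 hs hΛ K.hB K.h1 hwin (by rw [← hd]; exact h4d)
  have b4 : X.h (l + 2) ((1 + 2 * d) * t) ≤ C₁ * ((d⁻¹) ^ 3 * s + s) := by
    refine (K.I.cmp (l + 1) ((1 + 2 * d) * t) d (by rw [← K.hT]; exact hcase.le) b2 (by linarith)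
      (h4d.trans hr9)).trans ?_
    have h2 : 0 ≤ (d⁻¹) ^ 3 := by positivity
    have h3 : (d⁻¹) ^ 3 * X.h (l + 1) ((1 + 2 * d) * t * (1 + d)) ≤ (d⁻¹) ^ 3 * s :=
      mul_le_mul_of_nonneg_left b3 h2
    exact mul_le_mul_of_nonneg_left (by linarith) (by linarith)
  have b5 : C₁ * ((d⁻¹) ^ 3 * s + s) ≤ 2 * C₁ * Real.log s⁻¹ ^ 24 * s := by
    have h2 : (d⁻¹) ^ 3 = Real.log s⁻¹ ^ 24 := by
      rw [hd, ← inv_pow, inv_inv, ← pow_mul]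
    have h3 : (1:ℝ) ≤ Real.log s⁻¹ ^ 24 := one_le_pow₀ (by linarith)
    rw [h2]
    have h4 : s ≤ Real.log s⁻¹ ^ 24 * s := by nlinarith
    calc C₁ * (Real.log s⁻¹ ^ 24 * s + s) ≤ C₁ * (Real.log s⁻¹ ^ 24 * s + Real.log s⁻¹ ^ 24 * s) :=
          mul_le_mul_of_nonneg_left (by linarith) (by linarith)
      _ = _ := by ring
  have hq0 : 0 < h (l + 2) ^ (9 / 10 : ℝ) := Real.rpow_pos_of_pos (K.I.h_pos _) _
  have hrs : (1 + 2 * d) * t < r (l + 2) * (1 - 9 * thI (h (l + 2))) := by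
    refine lt_of_lt_of_le ?_ hr9
    nlinarith [mul_pos hd0 ht0]
  have b6 : X.h (l + 2) ((1 + 2 * d) * t) ≤ h (l + 2) ^ (9 / 10 : ℝ) :=
    K.I.top _ _ (by rw [← K.hT]; exact K.hw.1.trans (by nlinarith)) hrs.le
  obtain ⟨S, hSd⟩ : ∃ S, S = min (2 * C₁ * Real.log s⁻¹ ^ 24 * s) (h (l + 2) ^ (9 / 10 : ℝ)) :=
    ⟨_, rfl⟩
  have hS0 : 0 < S := by rw [hSd]; exact lt_min (by positivity) hq0
  have hS1 : S ≤ 2 * C₁ * Real.log s⁻¹ ^ 24 * s := by rw [hSd]; exact min_le_left _ _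
  have hSh : S ≤ h (l + 2) ^ (9 / 10 : ℝ) := by rw [hSd]; exact min_le_right _ _
  obtain ⟨q1, q2, q4⟩ := K.hnum (4 * S) (by positivity) (by linarith)
  exact ⟨d, 4 * S, K.mkDS hS0 hSh hd0 hd1 q1 (by rw [hd]; exact q2) hrs
    (by rw [hSd]; exact le_min (b4.trans b5) b6) q4⟩

/-- case (ii-a): the crude bound -/
lemma ComB.case_a (K : ComB c C₀ c₀ C₁ S₀ r h X l t s)
    (hda : thI (h (l + 2)) / 8 < ((Real.log s⁻¹)⁻¹) ^ 8) :
    ∃ d S', DSB S₀ (r (l + 2)) (thI (h (l + 2))) (h (l + 2) ^ (1 / 5 : ℝ))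
      (X.H (l + 2) ((1 + 2 * d) * t)) t s d S' := by
  have ht0 := K.ht
  have hs := K.hs
  have a1 := K.I.r_pos (l + 2)
  have a2 := (K.hS (l + 2)).th_pos
  have a3 := (K.hS (l + 2)).th_le
  have a4 := (K.hS (l + 2)).big
  have hh := K.I.h_pos (l + 2)
  have hΛ := K.hΛ
  obtain ⟨Λ, hΛd⟩ : ∃ Λ, Λ = Real.log s⁻¹ := ⟨_, rfl⟩
  obtain ⟨L, hL⟩ : ∃ L, L = Real.log (h (l + 2))⁻¹ := ⟨_, rfl⟩
  rw [← hΛd] at hΛ hda
  rw [← hL] at a4
  have hΛ0 : 0 < Λ := by linarith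
  have hL0 : 0 < L := by linarith
  have hLL : Λ ≤ L / 2 := by
    by_contra hcon
    have h2 : L / 2 < Λ := not_le.1 hcon
    have h3 : (Λ⁻¹) ^ 8 ≤ ((L / 2)⁻¹) ^ 8 :=
      pow_le_pow_left₀ (by positivity) (inv_anti₀ (by positivity) h2.le) 8
    have h4 : thI (h (l + 2)) = (L⁻¹) ^ 7 := by unfold thI; rw [hL]
    rw [h4] at hda
    have h5 : ((L / 2)⁻¹) ^ 8 = (256 * L⁻¹) * (L⁻¹) ^ 7 := by
      rw [show (L / 2)⁻¹ = 2 * L⁻¹ by field_simp]; ring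
    rw [h5] at h3
    have h6 : 256 * L⁻¹ ≤ 1 / 8 := by
      rw [← div_eq_mul_inv, div_le_iff₀ hL0]
      linarith
    have h7 : 0 < (L⁻¹) ^ 7 := by positivity
    nlinarith
  have hsh : h (l + 2) ^ (1 / 2 : ℝ) ≤ s := by
    have h2 : Real.log (h (l + 2)) = -L := by rw [hL, Real.log_inv]; ring
    have h3 : Real.log s = -Λ := by rw [hΛd, Real.log_inv]; ring
    rw [← Real.log_le_log_iff (Real.rpow_pos_of_pos hh _) hs, Real.log_rpow hh, h2, h3]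
    linarith
  obtain ⟨d, hd⟩ : ∃ d, d = thI (h (l + 2)) / 4 := ⟨_, rfl⟩
  have hd0 : 0 < d := by rw [hd]; positivity
  have hd1 : d ≤ 1 / 16000 := by rw [hd]; linarith
  have hq0 : 0 < h (l + 2) ^ (9 / 10 : ℝ) := Real.rpow_pos_of_pos hh _
  have hr9 : (1 + 2 * d) * t < r (l + 2) * (1 - 9 * thI (h (l + 2))) := by
    have h2 := K.hw.2
    rw [K.T_eq] at h2
    calc (1 + 2 * d) * t ≤ (1 + 2 * d) * (r (l + 2) * (1 - 10 * thI (h (l + 2)))) :=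
          mul_le_mul_of_nonneg_left h2 (by linarith)
      _ = r (l + 2) * ((1 + 2 * d) * (1 - 10 * thI (h (l + 2)))) := by ring
      _ < _ := by
        refine mul_lt_mul_of_pos_left ?_ a1
        rw [hd]
        nlinarith
  refine ⟨d, 4 * h (l + 2) ^ (9 / 10 : ℝ), K.mkDS hq0 le_rfl hd0 (by linarith) K.n2.n1 ?_ hr9 ?_ ?_⟩
  · rw [hd]; exact K.n2.n2
  · exact K.I.top (l + 2) ((1 + 2 * d) * t)
      (by rw [← K.hT]; exact K.hw.1.trans (by nlinarith)) hr9.le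
  · refine K.n2.n4.trans ?_
    rw [← hΛd, ← hL]
    refine mul_le_mul ?_ hsh (by positivity) (by positivity)
    exact pow_le_pow_left₀ (by positivity) (inv_anti₀ hΛ0 (by linarith)) 3

end

/-- **the dichotomy**, real analysis -/
theorem dichB {c C₀ c₀ C₁ : ℝ} {r h : ℕ → ℝ} (hc : 0 < c) (hc₀ : 0 < c₀) (hC₁ : 1 ≤ C₁)
    (hC₀ : 1 ≤ max C₀ c₀) {X : ABS.Chain} (I : DInB c c₀ C₁ r h X.h)
    (hS : ∀ k, Sm c (max C₀ c₀) c₀ (h k)) (hT : X.T = TI r h)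
    (h1 : ∀ i x, X.Win i x → X.h i x ≤ 1 / 2) {S₀ : ℝ} (hS₀ : 0 < S₀) :
    ∃ t₀ > 0, ∀ i t s, X.Win i t → t ≤ t₀ → 0 < s → s ≤ t₀ → X.Bdd t s →
      ∃ d S', DSB S₀ (r i) (thI (h i)) (h i ^ (1 / 5 : ℝ)) (X.H i ((1 + 2 * d) * t)) t s d S' := by
  obtain ⟨t₁, ht₁, hN1⟩ := num_sB (C₂ := 8 * C₁) (by linarith) hS₀
  obtain ⟨t₂, ht₂, hN2⟩ := exists_NhB hS₀
  have hTp : ∀ k, 0 < X.T k := fun k => by rw [hT]; exact I.TI_pos hS k
  have hTa : ∀ k, X.T (k + 1) < X.T k := fun k => by rw [hT]; exact I.TI_anti hS k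
  have hTm : StrictAnti X.T := strictAnti_nat_of_succ_lt hTa
  obtain ⟨N, hN⟩ := (I.h_lim.eventually (gt_mem_nhds ht₂)).exists_forall_of_atTop
  refine ⟨min t₁ (X.T (N + 4) / 2), lt_min ht₁ (by have := hTp (N + 4); positivity), ?_⟩
  intro i t s hi ht hs hst hB
  have ht' : t ≤ X.T (N + 4) / 2 := ht.trans (min_le_right _ _)
  have hst' : s ≤ t₁ := hst.trans (min_le_left _ _)
  have hiN : N + 4 < i + 1 := by
    by_contra hcon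
    have h2 : X.T (N + 4) ≤ X.T (i + 1) := hTm.antitone (not_lt.1 hcon)
    have h3 := hTp (N + 4)
    linarith [hi.1]
  obtain ⟨l, rfl⟩ : ∃ l, i = l + 2 := ⟨i - 2, by omega⟩
  obtain ⟨hΛ, hnum⟩ := hN1 s hs hst'
  have K : ComB c C₀ c₀ C₁ S₀ r h X l t s :=
    { I := I, hS := hS, hC := hC₀, hT := hT, h1 := h1, ht := (hTp _).trans_le hi.1, hs := hs,
      hw := hi, hB := hB, hΛ := hΛ, hnum := hnum,
      n2 := hN2 _ (I.h_pos _) (hN _ (by omega)).le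
      n1 := hN2 _ (I.h_pos _) (hN _ (by omega)).le }
  by_cases hcase : (1 + 2 * ((Real.log s⁻¹)⁻¹) ^ 8) * t ≤ X.T (l + 2)
  · exact K.case_i hC₁ hcase
  · by_cases hda : ((Real.log s⁻¹)⁻¹) ^ 8 ≤ thI (h (l + 2)) / 8
    · exact K.case_b hc hc₀ hC₁ (not_le.1 hcase) hda
    · exact K.case_a (not_le.1 hda)

end

end Vale.Agent.P214.BINST
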