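import Vale.Agent.P214.INST.Sw

/-!
# P214, block BINST: numerical facts for the dichotomy (target B)
-/

open Set Filter Topology

set_option linter.all false

namespace Vale.Agent.P214.BINST

open INST

noncomputable section

lemma ev_to_exB {p : ℝ → Prop} (h : ∀ᶠ s in 𝓝[>] (0:ℝ), p s) :
    ∃ t₁ : ℝ, 0 < t₁ ∧ ∀ s, 0 < s → s ≤ t₁ → p s := by
  rw [eventually_nhdsWithin_iff, Metric.eventually_nhds_iff] at h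
  obtain ⟨ε, hε, h⟩ := h
  refine ⟨ε / 2, by positivity, fun x hx hxε => h ?_ hx⟩
  rw [dist_zero_right, Real.norm_eq_abs, abs_of_pos hx]
  linarith

/-- numerical facts for small `s` -/
lemma num_sB {C₂ S₀ : ℝ} (hC₂ : 1 ≤ C₂) (hS₀ : 0 < S₀) : ∃ t₁ : ℝ, 0 < t₁ ∧ ∀ s, 0 < s → s ≤ t₁ →
    2048 ≤ Real.log s⁻¹ ∧ ∀ S', 0 < S' → S' ≤ C₂ * Real.log s⁻¹ ^ 24 * s →
      S' ≤ S₀ ∧ ((Real.log S'⁻¹)⁻¹) ^ 9 ≤ ((Real.log s⁻¹)⁻¹) ^ 8 ∧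
        ((Real.log S'⁻¹)⁻¹) ^ 28 * S' ≤ ((Real.log s⁻¹)⁻¹) ^ 3 * s := by
  apply ev_to_exB
  have a1 := (tendsto_rpow_div (1 / 2) (by norm_num) 24).eventually
    (gt_mem_nhds (show 0 < 1 / C₂ by positivity))
  have a2 := tendsto_log_inv.eventually (eventually_ge_atTop (max 2048 (2 ^ 28 * C₂)))
  have a3 := (tendsto_rpow_div (1 / 2) (by norm_num) 0).eventually (gt_mem_nhds hS₀)
  filter_upwards [a1, a2, a3, self_mem_nhdsWithin] with s b1 b2 b3 hpos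
  have hs : (0:ℝ) < s := hpos
  set Λ := Real.log s⁻¹ with hΛ
  have c1 : 2048 ≤ Λ := (le_max_left _ _).trans b2
  have c2 : 2 ^ 28 * C₂ ≤ Λ := (le_max_right _ _).trans b2
  have hΛ0 : 0 < Λ := by linarith
  refine ⟨c1, fun S' hS' hle => ?_⟩
  have e0 : s = s ^ (1 / 2 : ℝ) * s ^ (1 / 2 : ℝ) := by
    rw [← Real.rpow_add hs]; norm_num
  have hsq : 0 < s ^ (1 / 2 : ℝ) := Real.rpow_pos_of_pos hs _
  have hS1 : S' ≤ s ^ (1 / 2 : ℝ) := by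
    have h1 : C₂ * (s ^ (1 / 2 : ℝ) * Λ ^ 24) ≤ 1 := by
      calc C₂ * (s ^ (1 / 2 : ℝ) * Λ ^ 24) ≤ C₂ * (1 / C₂) := by gcongr
        _ = 1 := by field_simp
    calc S' ≤ C₂ * Λ ^ 24 * s := hle
      _ = C₂ * Λ ^ 24 * (s ^ (1 / 2 : ℝ) * s ^ (1 / 2 : ℝ)) := by rw [← e0]
      _ = (C₂ * (s ^ (1 / 2 : ℝ) * Λ ^ 24)) * s ^ (1 / 2 : ℝ) := by ring
      _ ≤ 1 * s ^ (1 / 2 : ℝ) := by gcongr
      _ = _ := one_mul _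
  have hL : Λ / 2 ≤ Real.log S'⁻¹ := by
    have h1 : Real.log (s ^ (1 / 2 : ℝ))⁻¹ ≤ Real.log S'⁻¹ :=
      Real.log_le_log (inv_pos.2 hsq) (inv_anti₀ hS' hS1)
    rw [Real.log_inv, Real.log_rpow hs] at h1
    have h2 : Real.log s = -Λ := by rw [hΛ, Real.log_inv]; ring
    rw [h2] at h1
    linarith
  have hL0 : 0 < Real.log S'⁻¹ := by linarith
  have hinv : (Real.log S'⁻¹)⁻¹ ≤ 2 * Λ⁻¹ := by
    calc (Real.log S'⁻¹)⁻¹ ≤ (Λ / 2)⁻¹ := inv_anti₀ (by positivity) hL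
      _ = 2 * Λ⁻¹ := by field_simp
  have hΛi : 0 < Λ⁻¹ := by positivity
  have hLi : 0 < (Real.log S'⁻¹)⁻¹ := by positivity
  have hm : Λ * Λ⁻¹ = 1 := mul_inv_cancel₀ hΛ0.ne'
  refine ⟨?_, ?_, ?_⟩
  · rw [pow_zero, mul_one] at b3
    exact hS1.trans b3.le
  · calc ((Real.log S'⁻¹)⁻¹) ^ 9 ≤ (2 * Λ⁻¹) ^ 9 := pow_le_pow_left₀ hLi.le hinv 9
      _ = (512 * Λ⁻¹) * (Λ⁻¹) ^ 8 := by ring
      _ ≤ 1 * (Λ⁻¹) ^ 8 := by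
          gcongr
          calc 512 * Λ⁻¹ ≤ Λ * Λ⁻¹ := by gcongr; linarith
            _ = 1 := hm
      _ = _ := one_mul _
  · calc ((Real.log S'⁻¹)⁻¹) ^ 28 * S' ≤ (2 * Λ⁻¹) ^ 28 * (C₂ * Λ ^ 24 * s) :=
          mul_le_mul (pow_le_pow_left₀ hLi.le hinv 28) hle hS'.le (by positivity)
      _ = (2 ^ 28 * C₂) * (Λ * Λ⁻¹) ^ 24 * (Λ⁻¹) ^ 4 * s := by ring
      _ = (2 ^ 28 * C₂) * (Λ⁻¹) ^ 4 * s := by rw [hm, one_pow, mul_one]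
      _ ≤ Λ * (Λ⁻¹) ^ 4 * s := by gcongr
      _ = (Λ * Λ⁻¹) * (Λ⁻¹) ^ 3 * s := by ring
      _ = _ := by rw [hm, one_mul]

/-- numerical facts for small `h` -/
structure NhB (S₀ h : ℝ) : Prop where
  n1 : 4 * h ^ (9 / 10 : ℝ) ≤ S₀
  n2 : ((Real.log (4 * h ^ (9 / 10 : ℝ))⁻¹)⁻¹) ^ 9 ≤ thI h / 4
  n3 : (4 * h ^ (9 / 10 : ℝ)) ^ (1 / 4 : ℝ) ≤ h ^ (1 / 5 : ℝ)
  n4 : ((Real.log (4 * h ^ (9 / 10 : ℝ))⁻¹)⁻¹) ^ 28 * (4 * h ^ (9 / 10 : ℝ)) ≤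
    ((Real.log h⁻¹)⁻¹) ^ 3 * h ^ (1 / 2 : ℝ)
  n5 : h ^ (1 / 8 : ℝ) ≤ ((2 * Real.log h⁻¹)⁻¹) ^ 8

lemma exists_NhB {S₀ : ℝ} (hS₀ : 0 < S₀) :
    ∃ t₁ : ℝ, 0 < t₁ ∧ ∀ h, 0 < h → h ≤ t₁ → NhB S₀ h := by
  apply ev_to_exB
  have a1 := (tendsto_rpow_div (1 / 40) (by norm_num) 0).eventually
    (gt_mem_nhds (show (0:ℝ) < 1 / 4 by norm_num))
  have a2 := tendsto_log_inv.eventually (eventually_ge_atTop 4000)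
  have a3 := (tendsto_rpow_div (9 / 10) (by norm_num) 0).eventually
    (gt_mem_nhds (show 0 < S₀ / 4 by positivity))
  have a5 := (tendsto_rpow_div (2 / 5) (by norm_num) 3).eventually
    (gt_mem_nhds (show (0:ℝ) < 1 / 4 by norm_num))
  have a6 := (tendsto_rpow_div (1 / 8) (by norm_num) 8).eventually
    (gt_mem_nhds (show (0:ℝ) < 1 / 256 by norm_num))
  filter_upwards [a1, a2, a3, a5, a6, self_mem_nhdsWithin] with h b1 b2 b3 b5 b6 hpos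
  have hh : (0:ℝ) < h := hpos
  set Λ := Real.log h⁻¹ with hΛ
  have hΛ0 : 0 < Λ := by linarith
  have hm : Λ * Λ⁻¹ = 1 := mul_inv_cancel₀ hΛ0.ne'
  have hΛi : 0 < Λ⁻¹ := by positivity
  have h1 : h ≤ 1 := by
    by_contra hcon
    have h2 : h⁻¹ < 1 := inv_lt_one_of_one_lt₀ (not_le.1 hcon)
    have h3 : Real.log h⁻¹ < 0 := Real.log_neg (inv_pos.2 hh) h2
    linarith
  rw [pow_zero, mul_one] at b1 b3
  have hq : 0 < h ^ (1 / 40 : ℝ) := Real.rpow_pos_of_pos hh _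
  have hhf : 0 < h ^ (1 / 2 : ℝ) := Real.rpow_pos_of_pos hh _
  have e1 : h ^ (9 / 10 : ℝ) = h ^ (2 / 5 : ℝ) * h ^ (1 / 2 : ℝ) := by
    rw [← Real.rpow_add hh]; norm_num
  have hq1 : h ^ (2 / 5 : ℝ) ≤ h ^ (1 / 40 : ℝ) :=
    Real.rpow_le_rpow_of_exponent_ge hh h1 (by norm_num)
  set S' := 4 * h ^ (9 / 10 : ℝ) with hS'
  have hS'0 : 0 < S' := by positivity
  have hS1 : S' ≤ h ^ (1 / 2 : ℝ) := by
    rw [hS', e1]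
    calc 4 * (h ^ (2 / 5 : ℝ) * h ^ (1 / 2 : ℝ)) = (4 * h ^ (2 / 5 : ℝ)) * h ^ (1 / 2 : ℝ) := by ring
      _ ≤ 1 * h ^ (1 / 2 : ℝ) := by gcongr; linarith
      _ = _ := one_mul _
  have hL : Λ / 2 ≤ Real.log S'⁻¹ := by
    have h1 : Real.log (h ^ (1 / 2 : ℝ))⁻¹ ≤ Real.log S'⁻¹ :=
      Real.log_le_log (inv_pos.2 hhf) (inv_anti₀ hS'0 hS1)
    rw [Real.log_inv, Real.log_rpow hh] at h1
    have h2 : Real.log h = -Λ := by rw [hΛ, Real.log_inv]; ring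
    rw [h2] at h1
    linarith
  have hL0 : 0 < Real.log S'⁻¹ := by linarith
  have hinv : (Real.log S'⁻¹)⁻¹ ≤ 2 * Λ⁻¹ := by
    calc (Real.log S'⁻¹)⁻¹ ≤ (Λ / 2)⁻¹ := inv_anti₀ (by positivity) hL
      _ = 2 * Λ⁻¹ := by field_simp
  have hLi : 0 < (Real.log S'⁻¹)⁻¹ := by positivity
  have hi1 : Λ⁻¹ ≤ 1 / 4000 := by
    rw [inv_eq_one_div]; exact one_div_le_one_div_of_le (by norm_num) b2
  refine ⟨by linarith, ?_, ?_, ?_, ?_⟩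
  · unfold thI
    rw [← hΛ]
    calc ((Real.log S'⁻¹)⁻¹) ^ 9 ≤ (2 * Λ⁻¹) ^ 9 := pow_le_pow_left₀ hLi.le hinv 9
      _ = (512 * (Λ⁻¹ * Λ⁻¹)) * (Λ⁻¹) ^ 7 := by ring
      _ ≤ (1 / 4) * (Λ⁻¹) ^ 7 := by
          gcongr
          nlinarith
      _ = _ := by ring
  · rw [Real.mul_rpow (by norm_num) (by positivity), ← Real.rpow_mul hh.le]
    have e2 : h ^ (9 / 10 * (1 / 4) : ℝ) = h ^ (1 / 40 : ℝ) * h ^ (1 / 5 : ℝ) := by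
      rw [← Real.rpow_add hh]; norm_num
    have e3 : (4:ℝ) ^ (1 / 4 : ℝ) ≤ 4 := by
      calc (4:ℝ) ^ (1 / 4 : ℝ) ≤ (4:ℝ) ^ (1:ℝ) :=
            Real.rpow_le_rpow_of_exponent_le (by norm_num) (by norm_num)
        _ = 4 := Real.rpow_one _
    rw [e2]
    calc (4:ℝ) ^ (1 / 4 : ℝ) * (h ^ (1 / 40 : ℝ) * h ^ (1 / 5 : ℝ))
        ≤ 4 * (h ^ (1 / 40 : ℝ) * h ^ (1 / 5 : ℝ)) := by gcongr
      _ = (4 * h ^ (1 / 40 : ℝ)) * h ^ (1 / 5 : ℝ) := by ring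
      _ ≤ 1 * h ^ (1 / 5 : ℝ) := by gcongr; linarith
      _ = _ := one_mul _
  · have h3 : ((Real.log S'⁻¹)⁻¹) ^ 28 ≤ 1 := by
      refine pow_le_one₀ hLi.le (hinv.trans (by linarith))
    have h4 : S' ≤ (Λ⁻¹) ^ 3 * h ^ (1 / 2 : ℝ) := by
      rw [hS', e1]
      have h5 : 4 * h ^ (2 / 5 : ℝ) ≤ (Λ⁻¹) ^ 3 := by
        calc 4 * h ^ (2 / 5 : ℝ) = 4 * h ^ (2 / 5 : ℝ) * (Λ * Λ⁻¹) ^ 3 := by
              rw [hm, one_pow, mul_one]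
          _ = (4 * (h ^ (2 / 5 : ℝ) * Λ ^ 3)) * (Λ⁻¹) ^ 3 := by ring
          _ ≤ 1 * (Λ⁻¹) ^ 3 := by gcongr; linarith
          _ = _ := one_mul _
      calc 4 * (h ^ (2 / 5 : ℝ) * h ^ (1 / 2 : ℝ)) = (4 * h ^ (2 / 5 : ℝ)) * h ^ (1 / 2 : ℝ) := by
            ring
        _ ≤ _ := by gcongr
    calc ((Real.log S'⁻¹)⁻¹) ^ 28 * S' ≤ 1 * S' := by gcongr
      _ = S' := one_mul _
      _ ≤ _ := h4
  · calc h ^ (1 / 8 : ℝ) = h ^ (1 / 8 : ℝ) * Λ ^ 8 * (Λ⁻¹) ^ 8 := by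
          rw [mul_assoc, ← mul_pow, hm, one_pow, mul_one]
      _ ≤ (1 / 256) * (Λ⁻¹) ^ 8 := by gcongr
      _ = (2⁻¹ : ℝ) ^ 8 * (Λ⁻¹) ^ 8 := by congr 1; norm_num
      _ = ((2 * Λ)⁻¹) ^ 8 := by rw [mul_inv, mul_pow]

end

end Vale.Agent.P214.BINST
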