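import Vale.Agent.P214.BINST.Props
import Vale.Agent.P214.BINST.DichAbs

/-!
# P214, block BINST: the choice of the collar and of the height for the field `ode` (statement)

`DichStmt` is proved by helper917 (`BINST/DichB.lean`), used in `BINST/OdeWin.lean` (helper731).
-/

open Set Filter Topology MeasureTheory Metric
open scoped RealInnerProductSpace ContDiff

set_option linter.all false

namespace Vale.Agent.P214.BINST

open WIN FM INST
open WSEQ (th)
open BSEQ (Exps WSeq LocB)

/-- **[B-DICH]** (helper917): for all small scales `t` of window `j = k₀ + i` and all bounds `s` of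
the active heights there are a collar `d ≥ (log 1/S')^{-9}` and a bound `S'` of the height of the
same reference in this collar, such that the rate error of `S'` is below the rate error of `s`
(structure `DSB`). -/
def DichStmt (E : Type*) [NormedAddCommGroup E] [InnerProductSpace ℝ E] [FiniteDimensional ℝ E]
    [MeasurableSpace E] [BorelSpace E] (m n Q : ℕ) (k K : ℝ → ℝ) : Prop :=
  ∀ S₀ : ℝ, 0 < S₀ → Ev E m n Q fun T _ ν P _ _ _ S b A => ∀ (k₀ : ℕ) (e : ℕ → ℝ), Fat S k₀ →
    ∃ t₀ > 0, ∀ i t s, (chain k K b A e P S k₀).Win i t → t ≤ t₀ → 0 < s → s ≤ t₀ →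
      (chain k K b A e P S k₀).Bdd t s → ∃ d S' : ℝ,
        DSB S₀ (S.r (k₀ + i)) (th (S.h (k₀ + i))) (S.h (k₀ + i) ^ (1 / 5 : ℝ))
          (Hw m T ν k (tube S (k₀ + i)) (wr S (k₀ + i)) ((1 + 2 * d) * t)) t s d S'

end Vale.Agent.P214.BINST
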