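import Vale.Agent.P214.INST.Sw

/-!
# P214, target B, block BINST (helper874): the fields `switch`, `e_pos`, `e_pow`, `growth`, `e_le`
of `BABS.Good`

Pure real analysis, adaptation of `INST/Sw` (helper700).  Inputs (`SwB`): window radii `r`, window
heights `h`, collars `thI h = (log 1/h)⁻⁷`, the kernel heights near the switch radii, the size of
the jumps.  A window ends because the height has dropped to the power `1 + c`, or because it has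
the maximal length `h ^ c₅`; heights can increase (`h (k+1) ≤ h k ^ (1 - e')`).
`e 0 = h 0 ^ (1/2)`, `e (k+1)` is the square root of the kernel height at a point of the collar
above `r (k+1)`.
-/

open Set Filter Topology

namespace Vale.Agent.P214.BINST

open ABS INST

noncomputable section

/-- numerical inputs for the switches -/
structure SwB (X : Chain) (r h : ℕ → ℝ) (c₀ c c₅ e' b C : ℝ) : Prop where
  r_pos : ∀ k, 0 < r k
  r_one : ∀ k, r k ≤ 1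
  h_pos : ∀ k, 0 < h k
  T_eq : X.T = TI r h
  Xc0 : 0 ≤ X.c
  Xc : X.c ≤ c / 2
  /-- drop, or maximal length -/
  step : ∀ k, h (k + 1) ≤ h k ^ (1 + c) ∨ r (k + 1) = r k * h k ^ c₅
  r_ge : ∀ k, r k * h k ^ c₅ ≤ r (k + 1)
  r_le : ∀ k, r (k + 1) ≤ r k * (1 - 12 * thI (h k))
  h_up : ∀ k, h (k + 1) ≤ h k ^ (1 - e')
  h_pow : ∀ k, h k ≤ r k ^ b
  cont : ∀ k, ContinuousOn (X.h k) (Icc (X.T (k + 1)) (X.T k))
  up : ∀ k, X.h k (X.T (k + 1)) ≤ C * (h (k + 1) + h k ^ (1 + c))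
  low : ∀ k, ∃ y, X.T (k + 1) ≤ y ∧ y ≤ r (k + 1) * (1 + 2 * thI (h k)) ∧
    30 * (y / r (k + 1) - 1) ≤ ((Real.log (X.h k y)⁻¹)⁻¹) ^ 6 ∧
    c₀ * thI (h (k + 1)) ^ 3 * h (k + 1) ≤ X.h k y ∧
    X.h k y ≤ C * (h (k + 1) + h k ^ (1 + c))
  /-- the stopping height is visible if the window is not minimal -/
  low' : ∀ k, r (k + 1) < r k * (1 - 12 * thI (h k)) →
    c₀ * thI (h k) ^ 3 * h k ^ (1 + c) ≤ X.h k (r (k + 1) * (1 + thI (h k)))
  jump_H : ∀ k, |X.H (k + 1) (X.T (k + 1)) - X.H k (X.T (k + 1))|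
    ≤ X.T (k + 1) ^ 2 * (C * h k ^ (1 + 9 / 5 * c))
  jump_a : ∀ k, |X.a (k + 1) (X.T (k + 1)) - X.a k (X.T (k + 1))|
    ≤ X.T (k + 1) ^ 2 * (C * h k ^ (1 + 9 / 5 * c))
  first : r 1 < r 0 * (1 - 12 * thI (h 0))

/-- collars of heights `h' ≤ h ^ (1 - e')` are at most twice as thick -/
theorem thI_double {h h' e' : ℝ} (he1 : e' ≤ 1 / 20) (hh' : 0 < h')
    (hh : 0 < h) (hh1 : h < 1) (hup : h' ≤ h ^ (1 - e')) : thI h' ≤ 2 * thI h := by
  unfold thI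
  have hL : 0 < Real.log h⁻¹ := Real.log_pos ((one_lt_inv₀ hh).2 hh1)
  have h1 : (1 - e') * Real.log h⁻¹ ≤ Real.log h'⁻¹ := by
    have h2 : Real.log h' ≤ (1 - e') * Real.log h := by
      rw [← Real.log_rpow hh]
      exact Real.log_le_log hh' hup
    rw [Real.log_inv, Real.log_inv]
    linarith
  have h2 : 19 / 20 * Real.log h⁻¹ ≤ Real.log h'⁻¹ :=
    le_trans (mul_le_mul_of_nonneg_right (by linarith) hL.le) h1
  have h3 : (Real.log h'⁻¹)⁻¹ ≤ (19 / 20 * Real.log h⁻¹)⁻¹ := inv_anti₀ (by positivity) h2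
  have h4 : 0 ≤ (Real.log h'⁻¹)⁻¹ := by
    have : 0 < Real.log h'⁻¹ := lt_of_lt_of_le (by positivity) h2
    positivity
  calc ((Real.log h'⁻¹)⁻¹) ^ 7 ≤ ((19 / 20 * Real.log h⁻¹)⁻¹) ^ 7 := pow_le_pow_left₀ h4 h3 7
    _ = (20 / 19) ^ 7 * ((Real.log h⁻¹)⁻¹) ^ 7 := by
        rw [mul_inv, mul_pow]; norm_num
    _ ≤ 2 * ((Real.log h⁻¹)⁻¹) ^ 7 := by
        refine mul_le_mul_of_nonneg_right (by norm_num) (by positivity)

/-- the smallness conditions at one height -/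
structure SmB (c c₅ e' C c₀ h : ℝ) : Prop where
  sm : Sm c (4 * Real.exp 10 * C) c₀ h
  lt_one : h < 1
  t1 : 2 * C * h ^ (1 - e') ≤ h ^ (3 / 4 : ℝ)
  t2 : h ^ (c₅ / 2) ≤ 1 / 4
  t3 : h ^ (1 / 2 : ℝ) ≤ c₀ * thI h ^ 3

theorem exists_smB {c c₅ e' C c₀ : ℝ} (hc : 0 < c) (hc1 : c ≤ 1 / 100) (hc₅ : 0 < c₅)
    (he1 : e' ≤ 1 / 20) (hC : 1 ≤ C) (ha : 0 < c₀) :
    ∃ ε : ℝ, 0 < ε ∧ ε ≤ 1 ∧ ∀ h : ℝ, 0 < h → h ≤ ε → SmB c c₅ e' C c₀ h := by
  have hC0 : 0 < C := by linarith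
  have hE : 0 < Real.exp 10 := Real.exp_pos _
  obtain ⟨ε₁, hε₁, hε₁', H₁⟩ := exists_Sm (c := c) (C₁ := 4 * Real.exp 10 * C) (c₀ := c₀) hc hc1
    (by positivity) ha
  have key : ∀ᶠ h in 𝓝[>] (0:ℝ), h < 1 ∧ h ^ (1 / 5 : ℝ) ≤ 1 / (2 * C) ∧
      h ^ (c₅ / 2) ≤ 1 / 4 ∧ h ^ (1 / 2 : ℝ) ≤ c₀ * thI h ^ 3 := by
    have a1 : ∀ᶠ h in 𝓝[>] (0:ℝ), h < 1 := by
      filter_upwards [Ioo_mem_nhdsGT (show (0:ℝ) < 1 by norm_num)] with h hh using hh.2
    have a2 := ev_small (δ := 1 / 5) (by norm_num) 0 (η := 1 / (2 * C)) (by positivity)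
    have a3 := ev_small (δ := c₅ / 2) (by positivity) 0 (η := 1 / 4) (by norm_num)
    have a4 := ev_small (δ := 1 / 2) (by norm_num) 3 (η := c₀) ha
    filter_upwards [a1, a2, a3, a4] with h b1 b2 b3 b4
    rw [pow_zero, mul_one] at b2 b3
    exact ⟨b1, b2, b3, b4⟩
  rw [eventually_nhdsWithin_iff, Metric.eventually_nhds_iff] at key
  obtain ⟨ε₂, hε₂, H₂⟩ := key
  refine ⟨min ε₁ (ε₂ / 2), by positivity, (min_le_left _ _).trans hε₁', fun h hh hle => ?_⟩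
  obtain ⟨b1, b2, b3, b4⟩ := H₂ (y := h) (by
    rw [dist_zero_right, Real.norm_eq_abs, abs_of_pos hh]
    linarith [hle.trans (min_le_right _ _)]) hh
  refine ⟨H₁ h hh (hle.trans (min_le_left _ _)), b1, ?_, b3, b4⟩
  have h1 : h ^ (1 - e') = h ^ (1 / 4 - e') * h ^ (3 / 4 : ℝ) := by
    rw [← Real.rpow_add hh]; ring_nf
  have h2 : h ^ (1 / 4 - e') ≤ h ^ (1 / 5 : ℝ) :=
    Real.rpow_le_rpow_of_exponent_ge hh b1.le (by linarith)
  have h3 : 2 * C * h ^ (1 / 4 - e') ≤ 1 := by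
    calc 2 * C * h ^ (1 / 4 - e') ≤ 2 * C * (1 / (2 * C)) := by gcongr; exact h2.trans b2
      _ = 1 := by field_simp
  have h5 : 0 < h ^ (3 / 4 : ℝ) := Real.rpow_pos_of_pos hh _
  rw [h1, ← mul_assoc]
  nlinarith

section Sm

variable {c c₅ e' C c₀ h : ℝ}

theorem SmB.pos (S : SmB c c₅ e' C c₀ h) : 0 < h := S.sm.pos

theorem SmB.le_one' (S : SmB c c₅ e' C c₀ h) {s : ℝ} (hs : 1 ≤ s) : h ^ s ≤ h := by
  calc h ^ s ≤ h ^ (1:ℝ) := Real.rpow_le_rpow_of_exponent_ge S.pos S.lt_one.le hs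
    _ = h := Real.rpow_one _

theorem SmB.le_pow (S : SmB c c₅ e' C c₀ h) {s : ℝ} (hs : s ≤ 1) : h ≤ h ^ s := by
  calc h = h ^ (1:ℝ) := (Real.rpow_one _).symm
    _ ≤ _ := Real.rpow_le_rpow_of_exponent_ge S.pos S.lt_one.le hs

/-- the visible height -/
def qh (c₀ h : ℝ) : ℝ := c₀ * thI h ^ 3 * h

theorem SmB.th0 (S : SmB c c₅ e' C c₀ h) : 0 < thI h := S.sm.th_pos

theorem SmB.qh_pos (S : SmB c c₅ e' C c₀ h) (ha : 0 < c₀) : 0 < qh c₀ h :=
  mul_pos (mul_pos ha (pow_pos S.th0 3)) S.pos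

theorem SmB.q_mono (S : SmB c c₅ e' C c₀ h) (hc : 0 < c) (ha : 0 < c₀) :
    c₀ * thI h ^ 3 * h ^ (1 + c) ≤ qh c₀ h :=
  mul_le_mul_of_nonneg_left (S.le_one' (by linarith)) (mul_pos ha (pow_pos S.th0 3)).le

theorem SmB.sq_le (S : SmB c c₅ e' C c₀ h) (hc : 0 < c) (ha : 0 < c₀) : h ^ 2 ≤ qh c₀ h :=
  S.sm.s7.trans (S.q_mono hc ha)

theorem SmB.qh_le (S : SmB c c₅ e' C c₀ h) (ha1 : c₀ ≤ 1) : qh c₀ h ≤ h := by
  have h1 : thI h ^ 3 ≤ 1 := pow_le_one₀ S.th0.le (by linarith [S.sm.th_le])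
  have h0 : 0 ≤ thI h ^ 3 := pow_nonneg S.th0.le 3
  have h2 : c₀ * thI h ^ 3 ≤ 1 := by nlinarith
  unfold qh
  nlinarith [S.pos]

/-- `h ^ (3/4) ≤ (visible height) ^ (1/2)` -/
theorem SmB.root (S : SmB c c₅ e' C c₀ h) : h ^ (3 / 4 : ℝ) ≤ qh c₀ h ^ (1 / 2 : ℝ) := by
  have h0 := S.pos
  have h1 : h ^ (3 / 2 : ℝ) ≤ qh c₀ h := by
    unfold qh
    calc h ^ (3 / 2 : ℝ) = h ^ (1 / 2 : ℝ) * h := by
          nth_rw 3 [← Real.rpow_one h]
          rw [← Real.rpow_add h0]; norm_num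
      _ ≤ _ := mul_le_mul_of_nonneg_right S.t3 h0.le
  calc h ^ (3 / 4 : ℝ) = (h ^ (3 / 2 : ℝ)) ^ (1 / 2 : ℝ) := by
        rw [← Real.rpow_mul h0.le]; norm_num
    _ ≤ _ := Real.rpow_le_rpow (Real.rpow_pos_of_pos h0 _).le h1 (by norm_num)

end Sm

section Seq

variable {X : Chain} {r h : ℕ → ℝ} {c₀ c c₅ e' b C : ℝ}

namespace SwB

theorem thm2 (D : SwB X r h c₀ c c₅ e' b C) (hS : ∀ k, SmB c c₅ e' C c₀ (h k))
    (he1 : e' ≤ 1 / 20) (k : ℕ) : thI (h (k + 1)) ≤ 2 * thI (h k) :=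
  thI_double he1 (hS _).pos (hS _).pos (hS _).lt_one (D.h_up k)

theorem T_eq' (D : SwB X r h c₀ c c₅ e' b C) (k : ℕ) : X.T k = r k * (1 - 10 * thI (h k)) := by
  rw [D.T_eq]; rfl

theorem T0 (D : SwB X r h c₀ c c₅ e' b C) (hS : ∀ k, SmB c c₅ e' C c₀ (h k)) (k : ℕ) :
    0 < X.T k := by
  rw [D.T_eq']
  exact mul_pos (D.r_pos k) (by linarith [(hS k).sm.th_le])

theorem Tr (D : SwB X r h c₀ c c₅ e' b C) (hS : ∀ k, SmB c c₅ e' C c₀ (h k)) (k : ℕ) :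
    X.T k ≤ r k := by
  rw [D.T_eq']
  nlinarith [D.r_pos k, mul_pos (D.r_pos k) (hS k).th0]

theorem rT (D : SwB X r h c₀ c c₅ e' b C) (hS : ∀ k, SmB c c₅ e' C c₀ (h k)) (k : ℕ) :
    r k ≤ 2 * X.T k := by
  rw [D.T_eq']
  nlinarith [D.r_pos k, (hS k).sm.th_le]

/-- upper ends of the collars lie in the windows -/
theorem yW (D : SwB X r h c₀ c c₅ e' b C) (hS : ∀ k, SmB c c₅ e' C c₀ (h k)) (k : ℕ) :
    r (k + 1) * (1 + 2 * thI (h k)) ≤ X.T k := by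
  rw [D.T_eq']
  have h1 := D.r_le k
  have h2 := D.r_pos k
  have h3 := D.r_pos (k + 1)
  have h5 := (hS k).th0
  calc r (k + 1) * (1 + 2 * thI (h k))
      ≤ r k * (1 - 12 * thI (h k)) * (1 + 2 * thI (h k)) :=
        mul_le_mul_of_nonneg_right h1 (by linarith)
    _ = r k * ((1 - 12 * thI (h k)) * (1 + 2 * thI (h k))) := by ring
    _ ≤ r k * (1 - 10 * thI (h k)) := mul_le_mul_of_nonneg_left (by nlinarith) h2.le

theorem TT (D : SwB X r h c₀ c c₅ e' b C) (hS : ∀ k, SmB c c₅ e' C c₀ (h k)) (k : ℕ) :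
    X.T (k + 1) ≤ X.T k := by
  refine ((D.Tr hS (k + 1)).trans ?_).trans (D.yW hS k)
  nlinarith [D.r_pos (k + 1), mul_pos (D.r_pos (k + 1)) (hS k).th0]

/-- `R (1 - 60 θ) ≤ T` -/
theorem RT (D : SwB X r h c₀ c c₅ e' b C) (k : ℕ) {θ : ℝ} (hθ : thI (h k) ≤ 6 * θ) :
    r k * (1 - 60 * θ) ≤ X.T k := by
  rw [D.T_eq']
  exact mul_le_mul_of_nonneg_left (by linarith) (D.r_pos k).le

/-- the jump at level `g` -/
theorem jump (D : SwB X r h c₀ c c₅ e' b C) (hS : ∀ k, SmB c c₅ e' C c₀ (h k)) (hc : 0 < c)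
    (ha : 0 < c₀) (hC : 0 < C) (k : ℕ) {g : ℝ} (hg1 : g ≤ 1)
    (hg : Real.exp (-11) * (c₀ * thI (h k) ^ 3 * h k ^ (1 + c)) ≤ g) : X.Jump k g := by
  have hpw : 0 < h k ^ (1 + c) := Real.rpow_pos_of_pos (hS k).pos _
  have hp : 0 < Real.exp (-11) * (c₀ * thI (h k) ^ 3 * h k ^ (1 + c)) :=
    mul_pos (Real.exp_pos _) (mul_pos (mul_pos ha (pow_pos (hS k).th0 3)) hpw)
  have hE : 1 ≤ Real.exp 10 := Real.one_le_exp (by norm_num)
  have h9 : 0 < h k ^ (1 + 9 / 5 * c) := Real.rpow_pos_of_pos (hS k).pos _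
  have h1 : C * h k ^ (1 + 9 / 5 * c) ≤ g ^ (1 + X.c) := by
    calc C * h k ^ (1 + 9 / 5 * c) ≤ 4 * Real.exp 10 * C * h k ^ (1 + 9 / 5 * c) := by
          refine mul_le_mul_of_nonneg_right ?_ h9.le
          nlinarith
      _ ≤ _ := (hS k).sm.s4
      _ ≤ g ^ (1 + c / 2) := Real.rpow_le_rpow hp.le hg (by linarith)
      _ ≤ g ^ (1 + X.c) :=
          Real.rpow_le_rpow_of_exponent_ge (hp.trans_le hg) hg1 (by linarith [D.Xc])
  have h2 := mul_le_mul_of_nonneg_left h1 (sq_nonneg (X.T (k + 1)))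
  exact ⟨(D.jump_H k).trans h2, (D.jump_a k).trans h2⟩

/-- height of the new reference at the switch -/
theorem new (D : SwB X r h c₀ c c₅ e' b C) (hS : ∀ k, SmB c c₅ e' C c₀ (h k)) (k : ℕ) :
    X.h (k + 1) (X.T (k + 1)) ≤ X.h k (X.T (k + 1)) + C * h k ^ (1 + 9 / 5 * c) := by
  have h1 := (abs_le.1 (D.jump_H k)).2
  have h2 : 0 < X.T (k + 1) ^ 2 := pow_pos (D.T0 hS _) 2
  unfold Chain.h
  rw [div_add' _ _ _ h2.ne', div_le_div_iff_of_pos_right h2]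
  linarith

/-- `C (h (k+1) + h k ^ (1 + c)) ≤ h k ^ (3/4)` -/
theorem U_le (D : SwB X r h c₀ c c₅ e' b C) (hS : ∀ k, SmB c c₅ e' C c₀ (h k)) (hc : 0 < c)
    (he0 : 0 ≤ e') (hC : 0 < C) (k : ℕ) :
    C * (h (k + 1) + h k ^ (1 + c)) ≤ h k ^ (3 / 4 : ℝ) := by
  have h1 := D.h_up k
  have h2 : h k ^ (1 + c) ≤ h k ^ (1 - e') :=
    Real.rpow_le_rpow_of_exponent_ge (hS k).pos (hS k).lt_one.le (by linarith)
  calc C * (h (k + 1) + h k ^ (1 + c)) ≤ C * (h k ^ (1 - e') + h k ^ (1 - e')) := by gcongr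
    _ = 2 * C * h k ^ (1 - e') := by ring
    _ ≤ _ := (hS k).t1

/-- `C (h (k+1) + h k ^ (1 + c)) ≤ 2 C h k ^ (1 + c)` after a drop -/
theorem U_drop (hC : 0 < C) {k : ℕ} (hd : h (k + 1) ≤ h k ^ (1 + c)) :
    C * (h (k + 1) + h k ^ (1 + c)) ≤ 2 * C * h k ^ (1 + c) := by
  nlinarith

/-- the switch at the end of a window which is not minimal -/
theorem switch_fat (D : SwB X r h c₀ c c₅ e' b C) (hS : ∀ k, SmB c c₅ e' C c₀ (h k))
    (hc : 0 < c) (he0 : 0 ≤ e') (he1 : e' ≤ 1 / 20) (ha : 0 < c₀) (ha1 : c₀ ≤ 1) (hC : 0 < C)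
    (k : ℕ) (hlt : r (k + 1) < r k * (1 - 12 * thI (h k))) {e : ℝ}
    (he : qh c₀ (h k) ^ (1 / 2 : ℝ) ≤ e) :
    X.Jump k (X.h k (X.T (k + 1))) ∧ X.h k (X.T (k + 1)) ≤ e ∨
      ∃ l y, X.Near k l y ∧ X.Jump k (X.h l y) ∧ X.h l y ≤ e ∧
        Real.exp 10 * X.h k (X.T (k + 1)) ≤ X.h l y ∧
        Real.exp 10 * X.h (k + 1) (X.T (k + 1)) ≤ X.h l y := by
  have S := hS k
  have hup : X.h k (X.T (k + 1)) ≤ h k ^ (3 / 4 : ℝ) :=
    (D.up k).trans (D.U_le hS hc he0 hC k)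
  have hupe : X.h k (X.T (k + 1)) ≤ e := (hup.trans S.root).trans he
  have hup1 : X.h k (X.T (k + 1)) ≤ 1 :=
    hup.trans (Real.rpow_le_one S.pos.le S.lt_one.le (by norm_num))
  set g := c₀ * thI (h k) ^ 3 * h k ^ (1 + c) with hg
  have hg0 : 0 < g := mul_pos (mul_pos ha (pow_pos S.th0 3)) (Real.rpow_pos_of_pos S.pos _)
  have hgq : g ≤ qh c₀ (h k) := S.q_mono hc ha
  have hq1 := S.qh_le ha1
  have hhh : h k ≤ 1 / 2 := by
    have h1 := S.sm.s8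
    have h2 : 1 ≤ Real.exp 10 := Real.one_le_exp (by norm_num)
    have h3 := S.t1
    have h4 : h k = h k ^ (1 / 4 : ℝ) * h k ^ (3 / 4 : ℝ) := by
      rw [← Real.rpow_add S.pos]; norm_num
    have h5 := S.sm.big
    have h6 : Real.log (h k) ≤ -1 := by rw [Real.log_inv] at h5; linarith
    have h7 : h k ≤ Real.exp (-1) := (Real.log_le_iff_le_exp S.pos).1 h6
    have h8 : Real.exp (-1) ≤ 1 / 2 := by
      rw [Real.exp_neg, one_div]
      refine inv_anti₀ (by norm_num) ?_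
      have := Real.add_one_le_exp (1:ℝ)
      linarith
    exact h7.trans h8
  by_cases hreg : Real.exp (-11) * g ≤ X.h k (X.T (k + 1))
  · exact Or.inl ⟨D.jump hS hc ha hC k hup1 hreg, hupe⟩
  rw [not_le] at hreg
  right
  have hE1 : Real.exp (-11) ≤ 1 := Real.exp_le_one_iff.2 (by norm_num)
  have hE0 : 0 < Real.exp (-11) := Real.exp_pos _
  set Y := r (k + 1) * (1 + thI (h k)) with hY
  have hR := D.r_pos (k + 1)
  have hTY : X.T (k + 1) ≤ Y := by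
    refine (D.Tr hS _).trans ?_
    nlinarith [mul_pos hR S.th0]
  have hYT : Y ≤ X.T k := by
    refine le_trans ?_ (D.yW hS k)
    nlinarith [mul_pos hR S.th0]
  have hco : ContinuousOn (X.h k) (Icc (X.T (k + 1)) Y) :=
    (D.cont k).mono (Icc_subset_Icc_right hYT)
  have hgT : X.h k (X.T (k + 1)) ≤ g := by nlinarith
  obtain ⟨y, hy, hyg⟩ := intermediate_value_Icc hTY hco ⟨hgT, D.low' k hlt⟩
  have hW : X.Win k y := ⟨hy.1, hy.2.trans hYT⟩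
  have hcol : 100 * thI (h k) ≤ ((Real.log (X.h k y)⁻¹)⁻¹) ^ 6 := by
    refine S.sm.collar ?_ ?_
    · rw [hyg]; exact S.sm.s7
    · rw [hyg]; linarith
  have hroot : g ≤ e := by
    refine le_trans ?_ he
    calc g ≤ qh c₀ (h k) := hgq
      _ = qh c₀ (h k) ^ (1:ℝ) := (Real.rpow_one _).symm
      _ ≤ _ := Real.rpow_le_rpow_of_exponent_ge (S.qh_pos ha) (hq1.trans S.lt_one.le)
          (by norm_num)
  have h2 : Real.exp 10 * Real.exp (-11) ≤ 1 / 2 := by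
    rw [← Real.exp_add]
    norm_num
    rw [Real.exp_neg, inv_le_comm₀ (Real.exp_pos _) (by norm_num)]
    have := Real.add_one_le_exp (1:ℝ)
    linarith
  refine ⟨k, y, ⟨hW, hy.1, ?_⟩, ?_, ?_, ?_, ?_⟩
  · refine in_collar hR S.th0 S.sm.th_le hcol ?_ ?_
    · exact D.RT (k + 1) (by linarith [D.thm2 hS he1 k, S.th0])
    · have h1 : y / r (k + 1) ≤ 1 + thI (h k) := by
        rw [div_le_iff₀ hR]; linarith [hy.2]
      have h3 : 30 * (y / r (k + 1) - 1) ≤ ((Real.log (X.h k y)⁻¹)⁻¹) ^ 6 := by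
        linarith [S.th0]
      exact h3
  · refine D.jump hS hc ha hC k ?_ ?_
    · rw [hyg]; linarith
    · rw [hyg]; nlinarith
  · rw [hyg]; exact hroot
  · rw [hyg]
    calc Real.exp 10 * X.h k (X.T (k + 1)) ≤ Real.exp 10 * (Real.exp (-11) * g) :=
          mul_le_mul_of_nonneg_left hreg.le (Real.exp_pos _).le
      _ = (Real.exp 10 * Real.exp (-11)) * g := by ring
      _ ≤ 1 / 2 * g := mul_le_mul_of_nonneg_right h2 hg0.le
      _ ≤ g := by linarith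
  · rw [hyg]
    have h3 : 4 * Real.exp 10 * C * h k ^ (1 + 9 / 5 * c) ≤ Real.exp (-11) * g := S.sm.s6
    have h4 : Real.exp (-11) * g ≤ 1 * g := mul_le_mul_of_nonneg_right hE1 hg0.le
    calc Real.exp 10 * X.h (k + 1) (X.T (k + 1))
        ≤ Real.exp 10 * (Real.exp (-11) * g + C * h k ^ (1 + 9 / 5 * c)) :=
          mul_le_mul_of_nonneg_left ((D.new hS k).trans (by linarith)) (Real.exp_pos _).le
      _ = (Real.exp 10 * Real.exp (-11)) * g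
            + 1 / 4 * (4 * Real.exp 10 * C * h k ^ (1 + 9 / 5 * c)) := by ring
      _ ≤ 1 / 2 * g + 1 / 4 * g := by
          have := mul_le_mul_of_nonneg_right h2 hg0.le
          linarith
      _ ≤ g := by linarith

/-- a minimal window is a drop -/
theorem drop_of_min (D : SwB X r h c₀ c c₅ e' b C) (hS : ∀ k, SmB c c₅ e' C c₀ (h k))
    (hc₅ : 0 < c₅) (k : ℕ) (heq : r (k + 1) = r k * (1 - 12 * thI (h k))) :
    h (k + 1) ≤ h k ^ (1 + c) := by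
  rcases D.step k with h1 | h1
  · exact h1
  · exfalso
    rw [heq] at h1
    have h2 := mul_left_cancel₀ (D.r_pos k).ne' h1
    have h3 : h k ^ c₅ ≤ 1 / 4 := by
      refine le_trans ?_ (hS k).t2
      exact Real.rpow_le_rpow_of_exponent_ge (hS k).pos (hS k).lt_one.le (by linarith)
    linarith [(hS k).sm.th_le]

/-- the switch at the end of a minimal window -/
theorem switch_min (D : SwB X r h c₀ c c₅ e' b C) (hS : ∀ k, SmB c c₅ e' C c₀ (h k))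
    (hc : 0 < c) (ha : 0 < c₀) (hc₅ : 0 < c₅) (hC : 0 < C) (k : ℕ)
    (heq : r (k + 1 + 1) = r (k + 1) * (1 - 12 * thI (h (k + 1)))) {y : ℝ}
    (hW : X.Win k y) (hcol : 100 * thI (h (k + 1)) ≤ ((Real.log (X.h k y)⁻¹)⁻¹) ^ 6)
    (hy5 : 30 * (y / r (k + 1) - 1) ≤ ((Real.log (X.h k y)⁻¹)⁻¹) ^ 6)
    (hq : qh c₀ (h (k + 1)) ≤ X.h k y) (h1 : X.h k y ≤ 1) :
    X.Near (k + 1) k y ∧ X.Jump (k + 1) (X.h k y) ∧
      Real.exp 10 * X.h (k + 1) (X.T (k + 1 + 1)) ≤ X.h k y ∧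
      Real.exp 10 * X.h (k + 1 + 1) (X.T (k + 1 + 1)) ≤ X.h k y := by
  have S := hS (k + 1)
  have hR := D.r_pos (k + 1)
  have hdrop := D.drop_of_min hS hc₅ (k + 1) heq
  have hup' : X.h (k + 1) (X.T (k + 1 + 1)) ≤ 2 * C * h (k + 1) ^ (1 + c) :=
    (D.up (k + 1)).trans (U_drop hC hdrop)
  have hq4 : 4 * Real.exp 10 * C * h (k + 1) ^ (1 + c) ≤ qh c₀ (h (k + 1)) := S.sm.s2
  have hqhp := S.qh_pos ha
  have hq1 := S.q_mono hc ha
  -- the collar of the next window is not thicker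
  have hθn : thI (h (k + 1 + 1)) ≤ thI (h (k + 1)) :=
    S.sm.th_mono _ (hS _).pos (hdrop.trans (S.le_one' (by linarith)))
  refine ⟨⟨hW, (D.TT hS (k + 1)).trans hW.1, ?_⟩, ?_, ?_, ?_⟩
  · refine in_collar hR S.th0 S.sm.th_le hcol ?_ hy5
    rw [D.T_eq' (k + 1 + 1), heq, mul_assoc]
    refine mul_le_mul_of_nonneg_left ?_ hR.le
    have h4 := S.sm.th_le
    have h6 := S.th0
    have h7 := (hS (k + 1 + 1)).th0
    nlinarith [mul_pos h6 h7]
  · refine D.jump hS hc ha hC (k + 1) h1 ?_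
    refine le_trans ?_ hq
    refine le_trans ?_ hq1
    have hE1 : Real.exp (-11) ≤ 1 := Real.exp_le_one_iff.2 (by norm_num)
    have h0 : 0 < c₀ * thI (h (k + 1)) ^ 3 * h (k + 1) ^ (1 + c) :=
      mul_pos (mul_pos ha (pow_pos S.th0 3)) (Real.rpow_pos_of_pos S.pos _)
    nlinarith
  · have h2 := mul_le_mul_of_nonneg_left hup' (Real.exp_pos 10).le
    linarith
  · have h2 := mul_le_mul_of_nonneg_left ((D.new hS (k + 1)).trans (add_le_add_left hup' _))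
      (Real.exp_pos 10).le
    have h3 : 4 * Real.exp 10 * C * h (k + 1) ^ (1 + 9 / 5 * c) ≤
        Real.exp (-11) * (c₀ * thI (h (k + 1)) ^ 3 * h (k + 1) ^ (1 + c)) := S.sm.s6
    have hE1 : Real.exp (-11) ≤ 1 := Real.exp_le_one_iff.2 (by norm_num)
    have h0 : 0 < c₀ * thI (h (k + 1)) ^ 3 * h (k + 1) ^ (1 + c) :=
      mul_pos (mul_pos ha (pow_pos S.th0 3)) (Real.rpow_pos_of_pos S.pos _)
    have h4 : Real.exp (-11) * (c₀ * thI (h (k + 1)) ^ 3 * h (k + 1) ^ (1 + c)) ≤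
        1 * (c₀ * thI (h (k + 1)) ^ 3 * h (k + 1) ^ (1 + c)) :=
      mul_le_mul_of_nonneg_right hE1 h0.le
    rw [mul_add] at h2
    linarith

end SwB

end Seq

/-- **the fields of `BABS.Good` concerning the switches** -/
theorem switchB_of {c c₅ e' b C c₀ : ℝ} (hc : 0 < c) (hc1 : c ≤ 1 / 100) (hc₅ : 0 < c₅)
    (hc₅1 : c₅ ≤ 1 / 8) (he0 : 0 ≤ e') (he1 : e' ≤ 1 / 20) (hb : 0 < b) (hC : 1 ≤ C)
    (ha : 0 < c₀) (ha1 : c₀ ≤ 1) :
    ∃ ε : ℝ, 0 < ε ∧ ∀ (X : Chain) (r h : ℕ → ℝ), SwB X r h c₀ c c₅ e' b C →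
      (∀ k, h k ≤ ε) → ∀ β K : ℝ, 0 ≤ β → β ≤ 1 → β ≤ b / 4 → β ≤ c / 2 → β ≤ c₅ / 2 → 2 ≤ K →
      ∃ e : ℕ → ℝ,
      (∀ k, X.Jump k (X.h k (X.T (k + 1))) ∧ X.h k (X.T (k + 1)) ≤ e k ∨
        ∃ l y, X.Near k l y ∧ X.Jump k (X.h l y) ∧ X.h l y ≤ e k ∧
          Real.exp 10 * X.h k (X.T (k + 1)) ≤ X.h l y ∧
          Real.exp 10 * X.h (k + 1) (X.T (k + 1)) ≤ X.h l y) ∧
      (∀ k, 0 < e k) ∧ (∀ k, e k ≤ K * X.T k ^ β) ∧
      (∀ k, e (k + 1) ≤ e k ^ (1 + β) ∨ X.T (k + 1) ≤ X.T k * e k ^ β) ∧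
      (∀ k t S, X.T (k + 1) ≤ t → X.Bdd t S → e (k + 1) ≤ S ^ (1 / 4 : ℝ)) := by
  have hC0 : 0 < C := by linarith
  obtain ⟨ε, hε0, -, H⟩ := exists_smB hc hc1 hc₅ he1 hC ha
  refine ⟨ε, hε0, fun X r h D hε β K hβ0 hβ1 hβb hβc hβ5 hK => ?_⟩
  have hS : ∀ k, SmB c c₅ e' C c₀ (h k) := fun k => H (h k) (D.h_pos k) (hε k)
  choose y hy1 hy2 hy5 hy3 hy4 using D.low
  -- the squares of the heights of the switches
  let G : ℕ → ℝ := fun k => Nat.casesOn k (h 0) (fun j => X.h j (y j))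
  have G0 : G 0 = h 0 := rfl
  have G1 : ∀ j, G (j + 1) = X.h j (y j) := fun _ => rfl
  have hGq : ∀ k, qh c₀ (h k) ≤ G k := by
    intro k
    cases k with
    | zero => rw [G0]; exact (hS 0).qh_le ha1
    | succ j => rw [G1]; exact hy3 j
  have hGU : ∀ k, G (k + 1) ≤ h k ^ (3 / 4 : ℝ) := fun k => by
    rw [G1]; exact (hy4 k).trans (D.U_le hS hc he0 hC0 k)
  have hGp : ∀ k, 0 < G k := fun k => ((hS k).qh_pos ha).trans_le (hGq k)
  have hG1 : ∀ k, G k ≤ 1 := by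
    intro k
    cases k with
    | zero => rw [G0]; exact (hS 0).lt_one.le
    | succ j =>
      exact (hGU j).trans (Real.rpow_le_one (hS j).pos.le (hS j).lt_one.le (by norm_num))
  have hGsmall : ∀ k, G (k + 1) ≤ 1 / 2 := by
    intro k
    rw [G1]
    refine (hy4 k).trans ?_
    have h1 := D.U_le hS hc he0 hC0 k
    have h5 := (hS k).sm.big
    refine h1.trans ?_
    have h6 : Real.log (h k) ≤ -2 := by rw [Real.log_inv] at h5; linarith
    have h7 : h k ≤ Real.exp (-2) := (Real.log_le_iff_le_exp (hS k).pos).1 h6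
    calc h k ^ (3 / 4 : ℝ) ≤ (Real.exp (-2)) ^ (3 / 4 : ℝ) :=
          Real.rpow_le_rpow (hS k).pos.le h7 (by norm_num)
      _ = Real.exp (-(3 / 2)) := by rw [← Real.exp_mul]; norm_num
      _ ≤ Real.exp (-1) := Real.exp_le_exp.2 (by norm_num)
      _ ≤ 1 / 2 := by
          rw [Real.exp_neg, one_div]
          refine inv_anti₀ (by norm_num) ?_
          have := Real.add_one_le_exp (1:ℝ)
          linarith
  have hwin : ∀ k, X.Win k (y k) := fun k => ⟨hy1 k, (hy2 k).trans (D.yW hS k)⟩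
  have hcoll : ∀ k, 100 * thI (h (k + 1)) ≤ ((Real.log (X.h k (y k))⁻¹)⁻¹) ^ 6 := fun k =>
    (hS (k + 1)).sm.collar (((hS (k + 1)).sq_le hc ha).trans (hy3 k))
      (by have := hGsmall k; rwa [G1] at this)
  refine ⟨fun k => G k ^ (1 / 2 : ℝ), fun k => ?_, fun k => Real.rpow_pos_of_pos (hGp k) _,
    fun k => ?_, fun k => ?_, fun k t S' ht hB => ?_⟩
  · -- switch
    have hroot : qh c₀ (h k) ^ (1 / 2 : ℝ) ≤ G k ^ (1 / 2 : ℝ) :=
      Real.rpow_le_rpow ((hS k).qh_pos ha).le (hGq k) (by norm_num)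
    rcases lt_or_eq_of_le (D.r_le k) with hlt | heq
    · exact D.switch_fat hS hc he0 he1 ha ha1 hC0 k hlt hroot
    · cases k with
      | zero => exact absurd heq (ne_of_lt D.first)
      | succ k =>
        obtain ⟨a1, a2, a3, a4⟩ := D.switch_min hS hc ha hc₅ hC0 k heq (hwin k) (hcoll k)
          (hy5 k) (hy3 k) (by have := hG1 (k + 1); rwa [G1] at this)
        refine Or.inr ⟨k, y k, a1, a2, ?_, a3, a4⟩
        have h1 : G (k + 1) ≤ G (k + 1) ^ (1 / 2 : ℝ) := by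
          calc G (k + 1) = G (k + 1) ^ (1:ℝ) := (Real.rpow_one _).symm
            _ ≤ _ := Real.rpow_le_rpow_of_exponent_ge (hGp (k + 1)) (hG1 (k + 1)) (by norm_num)
        rw [G1] at h1
        show X.h k (y k) ≤ G (k + 1) ^ (1 / 2 : ℝ)
        rw [G1]; exact h1
  · -- e_pow
    show G k ^ (1 / 2 : ℝ) ≤ K * X.T k ^ β
    have hT0 := D.T0 hS k
    have h5 : (2:ℝ) ^ β ≤ 2 := by
      calc (2:ℝ) ^ β ≤ 2 ^ (1:ℝ) := Real.rpow_le_rpow_of_exponent_le (by norm_num) hβ1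
        _ = 2 := Real.rpow_one 2
    have h6 : r k ^ β ≤ 2 * X.T k ^ β := by
      calc r k ^ β ≤ (2 * X.T k) ^ β := Real.rpow_le_rpow (D.r_pos k).le (D.rT hS k) hβ0
        _ = 2 ^ β * X.T k ^ β := Real.mul_rpow (by norm_num) hT0.le
        _ ≤ _ := mul_le_mul_of_nonneg_right h5 (Real.rpow_pos_of_pos hT0 _).le
    have h7 : 2 * X.T k ^ β ≤ K * X.T k ^ β :=
      mul_le_mul_of_nonneg_right hK (Real.rpow_pos_of_pos hT0 _).le
    refine le_trans ?_ (h6.trans h7)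
    cases k with
    | zero =>
      rw [G0]
      calc h 0 ^ (1 / 2 : ℝ) ≤ (r 0 ^ b) ^ (1 / 2 : ℝ) :=
            Real.rpow_le_rpow (hS 0).pos.le (D.h_pow 0) (by norm_num)
        _ = r 0 ^ (b / 2) := by rw [← Real.rpow_mul (D.r_pos 0).le]; ring_nf
        _ ≤ r 0 ^ β := Real.rpow_le_rpow_of_exponent_ge (D.r_pos 0) (D.r_one 0) (by linarith)
    | succ k =>
      have hk := (hS k).pos
      have hk1 := (hS k).lt_one.le
      calc G (k + 1) ^ (1 / 2 : ℝ) ≤ (h k ^ (3 / 4 : ℝ)) ^ (1 / 2 : ℝ) :=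
            Real.rpow_le_rpow (hGp (k + 1)).le (hGU k) (by norm_num)
        _ = h k ^ (1 / 4 : ℝ) * h k ^ (1 / 8 : ℝ) := by
            rw [← Real.rpow_mul hk.le, ← Real.rpow_add hk]; norm_num
        _ ≤ (r k ^ b) ^ (1 / 4 : ℝ) * h k ^ (c₅ * β) := by
            refine mul_le_mul (Real.rpow_le_rpow hk.le (D.h_pow k) (by norm_num)) ?_
              (Real.rpow_pos_of_pos hk _).le
              (Real.rpow_nonneg (Real.rpow_pos_of_pos (D.r_pos k) _).le _)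
            exact Real.rpow_le_rpow_of_exponent_ge hk hk1 (by nlinarith)
        _ = r k ^ (b / 4) * (h k ^ c₅) ^ β := by
            rw [← Real.rpow_mul (D.r_pos k).le, ← Real.rpow_mul hk.le]; ring_nf
        _ ≤ r k ^ β * (h k ^ c₅) ^ β := by
            refine mul_le_mul_of_nonneg_right ?_
              (Real.rpow_nonneg (Real.rpow_pos_of_pos hk _).le _)
            exact Real.rpow_le_rpow_of_exponent_ge (D.r_pos k) (D.r_one k) hβb
        _ = (r k * h k ^ c₅) ^ β :=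
            (Real.mul_rpow (D.r_pos k).le (Real.rpow_pos_of_pos hk _).le).symm
        _ ≤ r (k + 1) ^ β :=
            Real.rpow_le_rpow (mul_pos (D.r_pos k) (Real.rpow_pos_of_pos hk _)).le (D.r_ge k) hβ0
  · -- growth
    show G (k + 1) ^ (1 / 2 : ℝ) ≤ (G k ^ (1 / 2 : ℝ)) ^ (1 + β) ∨
      X.T (k + 1) ≤ X.T k * (G k ^ (1 / 2 : ℝ)) ^ β
    have S := hS k
    have hE : 1 ≤ Real.exp 10 := Real.one_le_exp (by norm_num)
    rcases D.step k with h1 | h1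
    · left
      have h2 : G (k + 1) ≤ G k ^ (1 + β) := by
        calc G (k + 1) ≤ C * (h (k + 1) + h k ^ (1 + c)) := by rw [G1]; exact hy4 k
          _ ≤ 2 * C * h k ^ (1 + c) := SwB.U_drop hC0 h1
          _ ≤ 4 * Real.exp 10 * C * h k ^ (1 + c) := by
              refine mul_le_mul_of_nonneg_right ?_ (Real.rpow_pos_of_pos S.pos _).le
              nlinarith
          _ ≤ qh c₀ (h k) ^ (1 + c / 2) := S.sm.s3
          _ ≤ G k ^ (1 + c / 2) := Real.rpow_le_rpow (S.qh_pos ha).le (hGq k) (by linarith)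
          _ ≤ G k ^ (1 + β) :=
              Real.rpow_le_rpow_of_exponent_ge (hGp k) (hG1 k) (by linarith)
      calc G (k + 1) ^ (1 / 2 : ℝ) ≤ (G k ^ (1 + β)) ^ (1 / 2 : ℝ) :=
            Real.rpow_le_rpow (hGp (k + 1)).le h2 (by norm_num)
        _ = (G k ^ (1 / 2 : ℝ)) ^ (1 + β) := by
            rw [← Real.rpow_mul (hGp k).le, ← Real.rpow_mul (hGp k).le, mul_comm]
    · right
      have h2 : h k ^ c₅ ≤ 1 / 4 * h k ^ (c₅ / 2) := by
        have h4 : h k ^ c₅ = h k ^ (c₅ / 2) * h k ^ (c₅ / 2) := by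
          rw [← Real.rpow_add S.pos]; ring_nf
        rw [h4]
        exact mul_le_mul_of_nonneg_right S.t2 (Real.rpow_pos_of_pos S.pos _).le
      have h3 : h k ^ (c₅ / 2) ≤ (G k ^ (1 / 2 : ℝ)) ^ β := by
        calc h k ^ (c₅ / 2) ≤ h k ^ β :=
              Real.rpow_le_rpow_of_exponent_ge S.pos S.lt_one.le hβ5
          _ = (h k ^ 2) ^ (β / 2) := by
              rw [← Real.rpow_natCast (h k) 2, ← Real.rpow_mul S.pos.le]; push_cast; ring_nf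
          _ ≤ G k ^ (β / 2) := Real.rpow_le_rpow (by positivity)
              ((S.sq_le hc ha).trans (hGq k)) (by linarith)
          _ = (G k ^ (1 / 2 : ℝ)) ^ β := by
              rw [← Real.rpow_mul (hGp k).le]; ring_nf
      have hT0 := D.T0 hS k
      have h0 : 0 < h k ^ (c₅ / 2) := Real.rpow_pos_of_pos S.pos _
      calc X.T (k + 1) ≤ r (k + 1) := D.Tr hS _
        _ = r k * h k ^ c₅ := h1
        _ ≤ (2 * X.T k) * (1 / 4 * h k ^ (c₅ / 2)) :=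
            mul_le_mul (D.rT hS k) h2 (Real.rpow_pos_of_pos S.pos _).le (by linarith)
        _ ≤ X.T k * h k ^ (c₅ / 2) := by nlinarith [mul_pos hT0 h0]
        _ ≤ _ := mul_le_mul_of_nonneg_left h3 hT0.le
  · -- e_le
    show G (k + 1) ^ (1 / 2 : ℝ) ≤ S' ^ (1 / 4 : ℝ)
    have h1 : G (k + 1) ≤ S' := by
      rw [G1]
      exact hB k (y k) (hwin k) (in_collar (D.r_pos (k + 1)) (hS (k + 1)).th0
        (hS (k + 1)).sm.th_le (hcoll k)
        ((D.RT (k + 1) (by linarith [(hS (k + 1)).th0])).trans ht) (hy5 k))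
    calc G (k + 1) ^ (1 / 2 : ℝ) ≤ G (k + 1) ^ (1 / 4 : ℝ) :=
          Real.rpow_le_rpow_of_exponent_ge (hGp (k + 1)) (hG1 (k + 1)) (by norm_num)
      _ ≤ S' ^ (1 / 4 : ℝ) := Real.rpow_le_rpow (hGp (k + 1)).le h1 (by norm_num)

end

end Vale.Agent.P214.BINST
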