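import Vale.Agent.P214.BINST.Props
import Vale.Agent.P214.BINST.Sw

/-!
# P214, target B, block BINST: [B-FAT], there is a window which is not tiny (helper874)

If all windows are tiny, all of them are drops, so the collars are summable and the radii do not
tend to `0`.
-/

open Set Filter Topology MeasureTheory Metric
open scoped RealInnerProductSpace ContDiff

namespace Vale.Agent.P214.BINST

open WIN FM INST
open WSEQ (th)
open BSEQ (Exps WSeq LocB)

variable {m n Q : ℕ} {E : Type*} [NormedAddCommGroup E] [InnerProductSpace ℝ E]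
  [FiniteDimensional ℝ E] [MeasurableSpace E] [BorelSpace E]
variable {T : Submodule ℝ E} {F : Frame m n T} {ν : Measure E} {P : E → E →L[ℝ] E}
  {X : Exps} {C ε : ℝ}

omit [BorelSpace E] in
/-- the radii and heights, if all the windows are tiny -/
lemma seqIn_of_tiny (S : WSeq m n Q T F ν X C ε) {ε' : ℝ} (hε : ε ≤ ε')
    (hsm : ∀ h : ℝ, 0 < h → h ≤ ε' → h ^ X.c₅ < 1 - 12 * thI h)
    (hno : ¬ ∃ k₀, Fat S k₀) : SeqIn X.c ε' S.r S.h where
  r_pos := S.r_pos
  h_pos := S.h_pos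
  h_le k := (S.h_le k).trans hε
  h_next k := by
    rcases (S.nxt k).h_next with h1 | h1
    · rw [S.h_eq (k + 1)]; exact h1
    · exfalso
      refine hno ⟨k, ?_⟩
      show S.r (k + 1) < S.r k * (1 - 12 * th (S.h k))
      rw [h1]
      exact mul_lt_mul_of_pos_left (hsm _ (S.h_pos k) ((S.h_le k).trans hε)) (S.r_pos k)
  r_le k := (S.nxt k).r_le

/-- **[B-FAT]** -/
theorem fatStmt (E : Type*) [NormedAddCommGroup E] [InnerProductSpace ℝ E] [FiniteDimensional ℝ E]
    [MeasurableSpace E] [BorelSpace E] (m n Q : ℕ) : FatStmt E m n Q := by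
  intro X C
  refine ⟨1, one_pos, fun b _ _ => ⟨1, le_rfl, fun A _ => ?_⟩⟩
  by_cases hX : 0 < X.c ∧ 0 < X.c₅
  · obtain ⟨hc, hc₅⟩ := hX
    obtain ⟨ε₀, hε₀, h⟩ := exists_first hc
    -- smallness
    have key : ∀ᶠ h in 𝓝[>] (0:ℝ), h ^ X.c₅ < 1 - 12 * thI h := by
      have a1 := ev_small (δ := X.c₅) hc₅ 0 (η := 1 / 4) (by norm_num)
      have a2 := tendsto_log_inv.eventually (eventually_ge_atTop 10000)
      filter_upwards [a1, a2] with x b1 b2
      rw [pow_zero, mul_one] at b1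
      linarith [thI_le b2]
    rw [eventually_nhdsWithin_iff, Metric.eventually_nhds_iff] at key
    obtain ⟨ε₁, hε₁, hE⟩ := key
    refine ⟨min ε₀ (ε₁ / 2), by positivity, fun T F ν P ε τ S _ hε => ?_⟩
    by_contra hno
    have I : SeqIn X.c (min ε₀ (ε₁ / 2)) S.r S.h := seqIn_of_tiny S hε (fun x hx hx1 => by
      refine hE ?_ hx
      rw [dist_zero_right, Real.norm_eq_abs, abs_of_pos hx]
      linarith [hx1.trans (min_le_right _ _)]) hno
    have I' : SeqIn X.c ε₀ S.r S.h :=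
      ⟨I.r_pos, I.h_pos, fun k => (I.h_le k).trans (min_le_left _ _), I.h_next, I.r_le⟩
    obtain ⟨k, hk⟩ := h S.r S.h I' S.r_lim
    exact hno ⟨k, hk⟩
  · exact ⟨1, one_pos, fun T F ν P ε τ S hS _ => absurd ⟨hS.ok.c_pos, hS.ok.c₅_pos⟩ hX⟩

end Vale.Agent.P214.BINST
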