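import Vale.Agent.P214.BINST.OdeCore
import Vale.Agent.P214.BINST.DichProps
import Vale.Agent.P214.BINST.Rad

/-!
# P214, block BINST, [B-ODE]: the field `ode` of the chain

`odeStmt`: from the curved rate lemma, `RefsStmt`, `CylStmt`, `DichStmt` and `SoftStmt` (positivity
of the heights).  The references are taken with the smallest constant `A₁` of `RefsStmt`.
-/

open Set Filter Topology MeasureTheory Metric
open scoped RealInnerProductSpace ContDiff

set_option linter.all false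

namespace Vale.Agent.P214.BINST

open WIN FM INST
open WSEQ (th)
open BSEQ (Exps WSeq LocB)

variable {m n Q : ℕ} {E : Type*} [NormedAddCommGroup E] [InnerProductSpace ℝ E]
  [FiniteDimensional ℝ E] [MeasurableSpace E] [BorelSpace E]

/-- `A t^b` is small for small `t` -/
lemma exists_pow_small {A b η : ℝ} (hA : 0 < A) (hb : 0 < b) (hη : 0 < η) :
    ∃ t₀ > 0, ∀ t : ℝ, 0 < t → t ≤ t₀ → A * t ^ (b - 1) * t ≤ η := by
  obtain ⟨t₀, ht₀, H⟩ := exists_rpow_small hb (div_pos hη hA)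
  refine ⟨t₀, ht₀, fun t ht htt => ?_⟩
  have h1 : t ^ (b - 1) * t = t ^ b := by
    rw [← Real.rpow_add_one ht.ne']; congr 1; ring
  rw [mul_assoc, h1]
  calc A * t ^ b ≤ A * (η / A) := mul_le_mul_of_nonneg_left (H t ht htt) hA.le
    _ = η := by field_simp

/-- **[B-ODE]** -/
theorem odeStmt {k k' K : ℝ → ℝ} {B : ℝ} (hRC : LOCF.RateCurved E m Q) (hk : Ker k k' K B)
    (hR : RefsStmt E m n Q) (hC : CylStmt E m n Q)
    (hD : DichStmt E m n Q k K) (hS : SoftStmt E m n Q k K) : OdeStmt E m n Q k K := by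
  have hlow : RC2X.KerLow 1 k := fun s h0 h1 => by rw [one_mul]; exact hk.low s h0 h1
  obtain ⟨C₀, δ₀, S₀, hC₀, hδ₀, hS₀, hS₀1, hode⟩ := ode_core hRC hk.kb hlow 28 9
  have he0 := eps0_pos
  obtain ⟨η, hη⟩ : ∃ η, η = min (δ₀ / 2) eps0 := ⟨_, rfl⟩
  have hη0 : 0 < η := by rw [hη]; exact lt_min (by linarith) he0
  have hηe : η ≤ eps0 := by rw [hη]; exact min_le_right _ _
  have hηδ : η ≤ δ₀ / 2 := by rw [hη]; exact min_le_left _ _
  obtain ⟨ε₅, hε₅, htube⟩ := exists_tube_le (η := 1) one_pos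
  intro X C
  obtain ⟨b₁, hb₁, hR⟩ := hR η hη0 hηe X C
  obtain ⟨b₂, hb₂, hC'⟩ := hC eps0 he0 le_rfl X C
  obtain ⟨b₃, hb₃, hD⟩ := hD S₀ hS₀ X C
  obtain ⟨b₄, hb₄, hS⟩ := hS X C
  refine ⟨min (min b₁ b₂) (min b₃ b₄), by positivity, fun b hb hbb => ?_⟩
  obtain ⟨A₁, hA₁, hR⟩ := hR b hb (hbb.trans ((min_le_left _ _).trans (min_le_left _ _)))
  obtain ⟨A₂, hA₂, hC'⟩ := hC' b hb (hbb.trans ((min_le_left _ _).trans (min_le_right _ _)))
  obtain ⟨A₃, hA₃, hD⟩ := hD b hb (hbb.trans ((min_le_right _ _).trans (min_le_left _ _)))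
  obtain ⟨A₄, hA₄, hS⟩ := hS b hb (hbb.trans ((min_le_right _ _).trans (min_le_right _ _)))
  obtain ⟨ε₁, hε₁, hR⟩ := hR A₁ le_rfl
  obtain ⟨ε₂, hε₂, hC'⟩ := hC' A₂ le_rfl
  refine ⟨max (max 1 (C₀ * A₁)) (max A₃ A₄), (le_max_left _ _).trans (le_max_left _ _),
    fun A hA => ?_⟩
  have hA0 : C₀ * A₁ ≤ A := ((le_max_right _ _).trans (le_max_left _ _)).trans hA
  obtain ⟨ε₃, hε₃, hD⟩ := hD A (((le_max_left _ _).trans (le_max_right _ _)).trans hA)
  obtain ⟨ε₄, hε₄, hS⟩ := hS A (((le_max_right _ _).trans (le_max_right _ _)).trans hA)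
  have h4m : (0:ℝ) < 4 ^ m := by positivity
  refine ⟨min (min (min ε₁ ε₂) (min ε₃ ε₄)) (min (min ε₅ (1 / 2)) (δ₀ / (8 * 4 ^ m))),
    by positivity, ?_⟩
  intro T F ν P ε τ S hctx hε k₀ e hfat
  have hεa := hε.trans (min_le_left _ _)
  have hεb := hε.trans (min_le_right _ _)
  have hε1 : ε ≤ ε₁ := hεa.trans ((min_le_left _ _).trans (min_le_left _ _))
  have hε2 : ε ≤ ε₂ := hεa.trans ((min_le_left _ _).trans (min_le_right _ _))
  have hε3 : ε ≤ ε₃ := hεa.trans ((min_le_right _ _).trans (min_le_left _ _))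
  have hε4 : ε ≤ ε₄ := hεa.trans ((min_le_right _ _).trans (min_le_right _ _))
  have hε5 : ε ≤ ε₅ := hεb.trans ((min_le_left _ _).trans (min_le_left _ _))
  have hεh : ε ≤ 1 / 2 := hεb.trans ((min_le_left _ _).trans (min_le_right _ _))
  have hεm : ε ≤ δ₀ / (8 * 4 ^ m) := hεb.trans (min_le_right _ _)
  have hε1' : ε < 1 := by linarith
  have hτm : 8 * 4 ^ m * τ ≤ δ₀ := by
    have h1 := hctx.τ_le.trans hεm
    rwa [le_div_iff₀ (by positivity), mul_comm] at h1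
  obtain ⟨t₁, ht₁, hdich⟩ := hD T F ν P ε τ S hctx hε3 k₀ e hfat
  obtain ⟨-, -, -, -, hsoft⟩ := hS T F ν P ε τ S hctx hε4 k₀ e hfat
  have hA₁0 : 0 < A₁ := by linarith
  obtain ⟨t₂, ht₂, hpow⟩ := exists_pow_small hA₁0 hb hη0
  refine ⟨min t₁ (min t₂ (3 / 32)), lt_min ht₁ (lt_min ht₂ (by norm_num)), ?_⟩
  intro i t s hwin htt hs hst hbdd
  have ht1 : t ≤ t₁ := htt.trans (min_le_left _ _)
  have ht2 : t ≤ t₂ := htt.trans ((min_le_right _ _).trans (min_le_left _ _))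
  have ht3 : t ≤ 3 / 32 := htt.trans ((min_le_right _ _).trans (min_le_right _ _))
  have hs1 : s ≤ t₁ := hst.trans (min_le_left _ _)
  obtain ⟨j, hj⟩ : ∃ j, j = k₀ + i := ⟨_, rfl⟩
  have hTr : Tr S (j + 1) ≤ t := by rw [hj]; exact hwin.1
  have hTr' : t ≤ Tr S j := by rw [hj]; exact hwin.2
  have ht : 0 < t := (Tr_pos S (j + 1)).trans_le hTr
  have hrj := S.r_pos j
  have htr : t ≤ S.r j := hTr'.trans (Tr_le S hε1' j)
  obtain ⟨-, -, -, -, hmin, hRt⟩ := hR T F ν P ε τ S hctx hε1 j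
  obtain ⟨-, hadm, hslp, hval⟩ := hRt t hTr htr
  obtain ⟨-, hcyl, -⟩ := hC' T F ν P ε τ S hctx hε2 j
  obtain ⟨d, S', hDS⟩ := hdich i t s hwin ht1 hs hs1 hbdd
  rw [← hj] at hDS
  have hθ := th_h_pos S hε1' j
  have hκt : A₁ * t ^ (b - 1) * t ≤ η := hpow t ht ht2
  have hh0 := (S.h_pos j).le
  have hW : OneW m Q T (wr S j) η (A₁ * t ^ (b - 1)) (tube S j) t δ₀
      (S.r j * (1 - 9 * th (S.h j))) (2 * (S.r j * S.h j ^ (2 / 5 : ℝ))) X.β τ ν P :=
    { loc := hctx.loc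
      β_nn := hctx.ok.β_pos.le
      τ_nn := hctx.τ_pos.le
      τ_le := hτm
      η_le := by linarith
      t_pos := ht
      t_le := by linarith
      κt := by linarith
      κt' := hκt.trans hηe
      tube_le := by
        have := htube S hctx.ok hε5 j
        linarith
      slab_le := by
        have h1 := r_le S hε1' j
        have h3 : S.h j ^ (2 / 5 : ℝ) ≤ 1 :=
          Real.rpow_le_one hh0 (h_lt_one S hε1' j).le (by norm_num)
        have h5 : 0 ≤ S.h j ^ (2 / 5 : ℝ) := Real.rpow_nonneg hh0 _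
        nlinarith
      adm := hadm
      slp := hslp
      val := fun y hy => by
        rw [mem_ball, dist_zero_right] at hy
        refine ((hval y (by linarith)).2.2).trans ?_
        exact mul_le_mul_of_nonneg_right hηδ ht.le
      min := fun y hy => hmin y (ball_subset_ball (by nlinarith) hy)
      cyl := hcyl }
  have hpos : 0 < Hw m T ν k (tube S j) (wr S j) t := by
    rw [hj]; exact (hsoft i t hwin).2.2.1
  obtain ⟨-, -, key⟩ := hode T (wr S j) η (A₁ * t ^ (b - 1)) (tube S j) t δ₀ _ _ X.β τ ν P d S' s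
    hW le_rfl hDS.d_pos hDS.d_le hDS.S_pos hDS.S_le hDS.dS hDS.rad hDS.hgt hDS.tube hDS.err hpos
  have hfin : ABS.Ode (A * t ^ (b - 1)) (((Real.log s⁻¹)⁻¹) ^ 3 * s * t ^ 2) t
      (Hw m T ν k (tube S j) (wr S j) t) (jw m T ν P K (tube S j) (wr S j) t)
      (aw m Q T ν K (tube S j) (wr S j) t) (bw m T ν P k (tube S j) (wr S j) t)
      (deriv (Hw m T ν k (tube S j) (wr S j)) t)
      (deriv (aw m Q T ν K (tube S j) (wr S j)) t) := by
    refine ode_mono key ht.le ?_ le_rfl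
    rw [← mul_assoc]
    exact mul_le_mul_of_nonneg_right hA0 (Real.rpow_nonneg ht.le _)
  rw [hj] at hfin
  exact hfin

end Vale.Agent.P214.BINST
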