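import Vale.Agent.P214.BINST.Rad
import Vale.Agent.P214.INST.Lim

/-!
# P214, target B, block BINST: [B-POWER] and [B-LIM]
-/

open Set Filter Topology MeasureTheory Metric
open scoped RealInnerProductSpace ContDiff

set_option linter.all false

namespace Vale.Agent.P214.BINST

open WIN FM FV ODE INST INSTL
open WSEQ (th)
open BSEQ (Exps WSeq LocB)

variable {m n Q : ℕ} {E : Type*} [NormedAddCommGroup E] [InnerProductSpace ℝ E]
  [FiniteDimensional ℝ E] [MeasurableSpace E] [BorelSpace E]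
variable {T : Submodule ℝ E} {ν : Measure E} {P : E → E →L[ℝ] E}

/-- the situation at one scale, at a point with power decay -/
lemma sc_of_locB {w : E → E} {η κ h₁ β τ t v : ℝ} (hL : LocB m Q T ν P β τ) (hτ0 : 0 ≤ τ)
    (hτ : τ ≤ 1) (hβ : 0 ≤ β) (H : Adm T w η κ h₁) (ht : 0 < t) (ht1 : t ≤ 3 / 16) (hh : h₁ ≤ t)
    (hw : ∀ Y, ‖T.starProjection Y‖ ≤ 8 * t → ‖w Y‖ ≤ v * t) :
    Sc m T w h₁ t ν (2 * (τ * (2 * t) ^ β) + v) ((Q * Skel.om m + 1) * 2 ^ m) where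
  fin := (hL.int (2 * t) (by positivity) (by linarith)).cyl.fin
  pos := ht
  near := by
    filter_upwards [(hL.int (2 * t) (by positivity) (by linarith)).cyl.slab] with y hs hor
    have hY : Psi T w h₁ (PsiInv T w h₁ y) = y := H.Psi_PsiInv y
    have h3 := H.ref.norm_star_Psi_sub_le H.hpos (PsiInv T w h₁ y)
    rw [hY] at h3
    set Y := PsiInv T w h₁ y with hYd
    have h4 : 2 * η * h₁ ≤ 1 / 8 * t := by
      have := H.eps_le
      have h5 := H.ref.eps_nonneg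
      have := H.hpos
      calc 2 * η * h₁ ≤ 2 * (1 / 16) * t := by gcongr
        _ = 1 / 8 * t := by ring
    have a1 : ‖T.starProjection y‖ ≤ ‖T.starProjection Y‖ +
        ‖T.starProjection y - T.starProjection Y‖ := by
      calc _ = ‖T.starProjection Y + (T.starProjection y - T.starProjection Y)‖ := by congr 1; abel
        _ ≤ _ := norm_add_le _ _
    have a2 : ‖T.starProjection Y‖ ≤ ‖T.starProjection y‖ +
        ‖T.starProjection y - T.starProjection Y‖ := by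
      calc _ = ‖T.starProjection y - (T.starProjection y - T.starProjection Y)‖ := by congr 1; abel
        _ ≤ _ := norm_sub_le _ _
    have b1 : ‖T.starProjection Y‖ < 2 * t ∧ ‖T.starProjection y‖ < 2 * t := by
      rcases hor with h | h <;> constructor <;> linarith
    refine ⟨b1.1, b1.2, ?_⟩
    have e1 : co T Y = co T y - w Y := by
      have := H.ref.co_Psi h₁ Y
      rw [hY] at this
      rw [this]; abel
    have h5 : ‖co T y‖ ≤ τ * (2 * t) * (2 * t) ^ β := by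
      have := hs (by rw [mem_ball_zero_iff]; exact b1.2)
      rwa [← co_apply] at this
    have h6 := hw Y (by linarith [b1.1])
    rw [e1]
    calc _ ≤ ‖co T y‖ + ‖w Y‖ := norm_sub_le _ _
      _ ≤ τ * (2 * t) * (2 * t) ^ β + v * t := add_le_add h5 h6
      _ = _ := by ring
  mass := by
    have h1 := (abs_le.1 (hL.int (2 * t) (by positivity) (by linarith)).mass).2
    have h2 : {y | ‖T.starProjection y‖ < 2 * t} = Skel.cylSet T 0 (2 * t) := by
      ext y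
      show _ ↔ T.starProjection y ∈ ball (0:E) (2 * t)
      rw [mem_ball_zero_iff]; rfl
    rw [h2]
    have h3 : (0:ℝ) < (2 * t) ^ m := by positivity
    have h4 : (2 * t) ^ β ≤ 1 := Real.rpow_le_one (by positivity) (by linarith) hβ
    have h5 : 0 ≤ (2 * t) ^ β := by positivity
    have h6 : τ * (2 * t) ^ β ≤ 1 := by nlinarith
    calc ν.real (Skel.cylSet T 0 (2 * t))
        ≤ Q * Skel.om m * (2 * t) ^ m + τ * (2 * t) ^ β * (2 * t) ^ m := by linarith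
      _ ≤ Q * Skel.om m * (2 * t) ^ m + 1 * (2 * t) ^ m := by gcongr
      _ = _ := by rw [mul_pow]; ring

variable (E) in
/-- the common preparation of the two statements: at every scale of the chain, the situation `Sc`
with `u ≤ A₁ t ^ b` -/
lemma ev_sc (m n Q : ℕ) (hR : RefsStmt E m n Q) :
    ∀ (X : Exps) (C : ℝ), ∃ b₀ : ℝ, 0 < b₀ ∧ b₀ ≤ 1 ∧ ∀ b : ℝ, 0 < b → b ≤ b₀ → ∃ A₁ : ℝ,
    1 ≤ A₁ ∧
    ∃ ε₀ > 0, ∀ (T : Submodule ℝ E) (F : Frame m n T) (ν : Measure E) (P : E → E →L[ℝ] E)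
      (ε τ : ℝ) (S : WSeq m n Q T F ν X C ε), Ctx P τ S → ε ≤ ε₀ → ∀ j t, Tr S (j + 1) ≤ t →
        t ≤ Tr S j → 0 < t ∧ t ≤ 3 / 16 ∧
        (∃ κ, Adm T (wr S j) eps0 κ (tube S j)) ∧
        (∀ Y, ‖T.starProjection Y‖ ≤ 8 * t → ‖fderiv ℝ (wr S j) Y‖ ≤ A₁ * t ^ b) ∧
        ∃ u, 0 ≤ u ∧ u ≤ A₁ * t ^ b ∧
          Sc m T (wr S j) (tube S j) t ν u ((Q * Skel.om m + 1) * 2 ^ m) := by
  intro X C
  obtain ⟨b₁, hb₁, H1⟩ := hR eps0 eps0_pos le_rfl X C
  by_cases hX : 0 < X.β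
  swap
  · refine ⟨1, one_pos, le_rfl, fun b _ _ => ⟨1, le_rfl, 1, one_pos,
      fun T F ν P ε τ S hS _ => absurd hS.ok.β_pos hX⟩⟩
  refine ⟨min b₁ (min X.β 1), by positivity, (min_le_right _ _).trans (min_le_right _ _),
    fun b hb hbb => ?_⟩
  obtain ⟨A₀, hA₀, H2⟩ := H1 b hb (hbb.trans (min_le_left _ _))
  have hbβ : b ≤ X.β := hbb.trans ((min_le_right _ _).trans (min_le_left _ _))
  obtain ⟨ε₁, hε₁, H3⟩ := H2 A₀ le_rfl
  obtain ⟨ε₂, hε₂, H4⟩ := exists_tube_le (η := 1) one_pos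
  refine ⟨4 + A₀, by linarith, min (min ε₁ ε₂) (1 / 2), by positivity, ?_⟩
  intro T F ν P ε τ S hS hε j t ht1 ht2
  have hε1 : ε < 1 := (hε.trans (min_le_right _ _)).trans_lt (by norm_num)
  have ht0 : 0 < t := (Tr_pos S (j + 1)).trans_le ht1
  have htr : t ≤ S.r j := ht2.trans (Tr_le S hε1 j)
  have ht3 : t ≤ 3 / 16 := htr.trans (r_le S hε1 j)
  obtain ⟨hA, -, -, -, -, hB⟩ := H3 T F ν P ε τ S hS (hε.trans ((min_le_left _ _).trans
    (min_le_left _ _))) j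
  obtain ⟨hB1, hB2, -, hB3⟩ := hB t ht1 htr
  have htb : tube S j ≤ t := by
    have := H4 S hS.ok (hε.trans ((min_le_left _ _).trans (min_le_right _ _))) j
    rw [one_mul] at this
    exact this.trans ht1
  have h0b : 0 ≤ t ^ b := by positivity
  have hτ1 : τ ≤ 1 := hS.τ_le.trans hε1.le
  have hsc := sc_of_locB hS.loc hS.τ_pos.le hτ1 hS.ok.β_pos.le hB2 ht0 ht3 htb (v := A₀ * t ^ b)
    (fun Y hY => by
      have := (hB3 Y hY).2.1
      calc _ ≤ A₀ * (t * t ^ b) := this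
        _ = _ := by ring)
  have hu0 : 0 ≤ 2 * (τ * (2 * t) ^ X.β) + A₀ * t ^ b := by
    have := hS.τ_pos
    positivity
  have hu : 2 * (τ * (2 * t) ^ X.β) + A₀ * t ^ b ≤ (4 + A₀) * t ^ b := by
    have h1 : (2 * t) ^ X.β ≤ 2 * t ^ b := by
      calc (2 * t) ^ X.β ≤ (2 * t) ^ b :=
            Real.rpow_le_rpow_of_exponent_ge (by positivity) (by linarith) hbβ
        _ = 2 ^ b * t ^ b := Real.mul_rpow (by norm_num) ht0.le
        _ ≤ 2 ^ (1:ℝ) * t ^ b := by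
            gcongr
            · norm_num
            · exact hbb.trans ((min_le_right _ _).trans (min_le_right _ _))
        _ = _ := by rw [Real.rpow_one]
    have h2 : τ * (2 * t) ^ X.β ≤ 1 * (2 * t ^ b) := by
      have := hS.τ_pos
      gcongr
    linarith
  refine ⟨ht0, ht3, ⟨_, hB2⟩, fun Y hY => ?_, _, hu0, hu, hsc⟩
  refine (hB3 Y hY).1.trans ?_
  gcongr
  linarith

/-- **[B-POWER]** -/
theorem powerStmt (E : Type*) [NormedAddCommGroup E] [InnerProductSpace ℝ E]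
    [FiniteDimensional ℝ E] [MeasurableSpace E] [BorelSpace E] (m n Q : ℕ) {k k' K : ℝ → ℝ}
    {B : ℝ} (hk : Ker k k' K B) (hR : RefsStmt E m n Q) : PowerStmt E m n Q k K := by
  intro X C
  obtain ⟨b₀, hb₀, hb1, H1⟩ := ev_sc E m n Q hR X C
  refine ⟨b₀, hb₀, fun b hb hbb => ?_⟩
  obtain ⟨A₁, hA₁, ε₀, hε₀, H2⟩ := H1 b hb hbb
  have hom : 0 ≤ Skel.om m := ENNReal.toReal_nonneg
  obtain ⟨M, hM⟩ : ∃ M : ℝ, M = (Q * Skel.om m + 1) * 2 ^ m := ⟨_, rfl⟩
  have hM0 : 0 < M := by rw [hM]; positivity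
  have hB : 1 ≤ B := hk.kb.one
  refine ⟨max 1 (4 * B * M * A₁ ^ 2), le_max_left _ _, fun A hA => ⟨ε₀, hε₀, ?_⟩⟩
  intro T F ν P ε τ S hS hε k₀ e hf i t hW
  obtain ⟨ht0, ht3, ⟨κ, H⟩, -, u, hu0, hu, hSc⟩ := H2 T F ν P ε τ S hS hε (k₀ + i) t hW.1 hW.2
  rw [← hM] at hSc
  have h1 := hSc.HF_le H hk.kb
  show HF m T (wr S (k₀ + i)) 0 k (fmeas T (wr S (k₀ + i)) (tube S (k₀ + i)) ν) t / t ^ 2
    ≤ A * t ^ b
  rw [div_le_iff₀ (by positivity)]
  refine h1.trans ?_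
  have h0b : 0 ≤ t ^ b := by positivity
  have h2 : t ^ b ≤ 1 := Real.rpow_le_one ht0.le (by linarith) hb.le
  have h3 : u ^ 2 ≤ A₁ ^ 2 * t ^ b := by
    calc u ^ 2 ≤ (A₁ * t ^ b) ^ 2 := by gcongr
      _ = A₁ ^ 2 * (t ^ b * t ^ b) := by ring
      _ ≤ A₁ ^ 2 * (t ^ b * 1) := by gcongr
      _ = _ := by ring
  calc 4 * B * M * u ^ 2 * t ^ 2 ≤ 4 * B * M * (A₁ ^ 2 * t ^ b) * t ^ 2 := by gcongr
    _ = 4 * B * M * A₁ ^ 2 * t ^ b * t ^ 2 := by ring
    _ ≤ A * t ^ b * t ^ 2 := by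
        gcongr
        exact (le_max_right _ _).trans hA

/-- **[B-LIM]** -/
theorem limStmt (E : Type*) [NormedAddCommGroup E] [InnerProductSpace ℝ E]
    [FiniteDimensional ℝ E] [MeasurableSpace E] [BorelSpace E] (m n Q : ℕ) {k k' K : ℝ → ℝ}
    {B : ℝ} (hk : Ker k k' K B) (hR : RefsStmt E m n Q) : LimStmt E m n Q k K := by
  intro X C
  obtain ⟨b₀, hb₀, hb1, H1⟩ := ev_sc E m n Q hR X C
  refine ⟨b₀, hb₀, fun b hb hbb => ?_⟩
  obtain ⟨A₁, hA₁, ε₀, hε₀, H2⟩ := H1 b hb hbb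
  have hom : 0 ≤ Skel.om m := ENNReal.toReal_nonneg
  obtain ⟨M, hM⟩ : ∃ M : ℝ, M = (Q * Skel.om m + 1) * 2 ^ m := ⟨_, rfl⟩
  have hM0 : 0 < M := by rw [hM]; positivity
  have hB : 1 ≤ B := hk.kb.one
  have hB0 : 0 < B := by linarith
  refine ⟨1, le_rfl, fun A hA => ⟨min ε₀ 1, by positivity, ?_⟩⟩
  intro T F ν P ε τ S hS hε k₀ e hf η hη
  obtain ⟨δ₁, hδ₁, HA⟩ := area_lim E m Q hS.m_pos (η := η / (4 * B)) (by positivity)
  have hβ := hS.ok.β_pos
  have hτ1 : τ ≤ 1 := hS.τ_le.trans (hε.trans (min_le_right _ _))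
  have hτ0 := hS.τ_pos
  -- smallness of the scale
  obtain ⟨t₁, ht₁, h1⟩ := exists_rpow_small (a := b) (η := min δ₁ (η / (4 * B * M)) / A₁) hb
    (by positivity)
  obtain ⟨t₂, ht₂, h2⟩ := exists_rpow_small (a := X.β) (η := δ₁) hβ hδ₁
  refine ⟨min (min t₁ (t₂ / 8)) (3 / 64), by positivity, fun i t hW ht => ?_⟩
  obtain ⟨ht0, ht3, ⟨κ, H⟩, hDw, u, hu0, hu, hSc⟩ :=
    H2 T F ν P ε τ S hS (hε.trans (min_le_left _ _)) (k₀ + i) t hW.1 hW.2
  have ht4 : t ≤ 3 / 64 := ht.trans (min_le_right _ _)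
  have h3 := h1 t ht0 (ht.trans ((min_le_left _ _).trans (min_le_left _ _)))
  have h4 := h2 (8 * t) (by positivity) (by
    have := ht.trans ((min_le_left _ _).trans (min_le_right _ _)); linarith)
  have h5 : A₁ * t ^ b ≤ min δ₁ (η / (4 * B * M)) := by
    rwa [le_div_iff₀' (by positivity)] at h3
  have h6 : A₁ * t ^ b ≤ δ₁ := h5.trans (min_le_left _ _)
  have h7 : u ≤ η / (4 * B * M) := hu.trans (h5.trans (min_le_right _ _))
  have hI8 := hS.loc.int (8 * t) (by positivity) (by linarith)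
  have hE8 := hS.loc.exc (8 * t) (by positivity) (by linarith)
  have h8 : τ * (8 * t) ^ X.β ≤ δ₁ := by
    have : 0 ≤ (8 * t) ^ X.β := by positivity
    nlinarith
  have hmul : 8 * t * (8 * t) ^ m = (8 * t) ^ (m + 1) := by rw [pow_succ]; ring
  rw [← hM] at hSc
  have hA' := HA T _ t ν P { hI8 with mass := hI8.mass.trans (by gcongr) }
    (by
      calc Skel.exc T ν P 0 (8 * t) ≤ τ * (8 * t) ^ m * (8 * t) ^ X.β := hE8
        _ = τ * (8 * t) ^ X.β * (8 * t) ^ m := by ring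
        _ ≤ δ₁ * (8 * t) ^ m := by gcongr)
    (wr S (k₀ + i)) (kmsRef H.ref) (fun y hy => (hDw y (by linarith)).trans h6)
    (fun x => K (‖x‖ ^ 2 / t ^ 2) / B)
    (((hk.kb.kern.pK.continuous.comp (by fun_prop)).div_const _).measurable)
    (fun x => by
      have h1 := hk.kb.KB (‖x‖ ^ 2 / t ^ 2) (by positivity)
      have h2 := hk.kb.kern.K_nonneg (‖x‖ ^ 2 / t ^ 2)
      rw [abs_of_nonneg (by positivity), div_le_one hB0]
      exact h1)
    (fun x hx => by rw [kern_zero hk.kb.kern.pK.zero ht0 hx, zero_div])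
  have h9 := hSc.aF_le hu0 H hk.kb hA'
  show |aF m Q T (wr S (k₀ + i)) 0 K (fmeas T (wr S (k₀ + i)) (tube S (k₀ + i)) ν) t|
    ≤ η * t ^ 2
  refine h9.trans ?_
  gcongr
  have h10 : B * u * M ≤ η / 4 := by
    rw [le_div_iff₀' (by positivity)] at h7
    nlinarith
  have h11 : B * (η / (4 * B)) = η / 4 := by field_simp
  rw [h11]
  linarith

end Vale.Agent.P214.BINST
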