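import Vale.Agent.P214.BINST.Props
import Vale.Agent.P214.INST.Refs

/-!
# P214, target B, block BINST, [B-REFS]: the references of the windows in the sense of FM
-/

open Set Filter Topology MeasureTheory Metric
open scoped RealInnerProductSpace ContDiff

set_option linter.all false

namespace Vale.Agent.P214.BINST

open WIN FM INST
open WSEQ (th)
open BSEQ (Exps WSeq LocB)

noncomputable section

variable {m n Q : ℕ} {E : Type*} [NormedAddCommGroup E] [InnerProductSpace ℝ E]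
  [FiniteDimensional ℝ E]

/-- a larger curvature bound -/
lemma ref_mono {T : Submodule ℝ E} {w : E → E} {ε κ κ' : ℝ} (h : FM.Ref T w ε κ) (hκ : κ ≤ κ') :
    FM.Ref T w ε κ' :=
  ⟨h.smooth, h.base, h.perp, h.knn.trans hκ, h.slope, fun k hk hk' y =>
    (h.bound k hk hk' y).trans (pow_le_pow_left₀ h.knn hκ _)⟩

/-- **power curvature**: a reference with `r^{k-1} |D^k u| ≤ 2 r^{β/4}`, at the scales `t ≤ r` -/
lemma ref_of_pw {T : Submodule ℝ E} (F : Frame m n T) {u : Fin n → REF.E m → ℝ}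
    {ε r t β b A η : ℝ} (hu : ∀ a, ContDiff ℝ ∞ (u a))
    (h1 : ∀ a x, ‖iteratedFDeriv ℝ 1 (u a) x‖ ≤ ε) (hη : n * ε ≤ η)
    (h2 : ∀ a k, 2 ≤ k → k ≤ 6 → ∀ x,
      ‖iteratedFDeriv ℝ k (u a) x‖ ≤ 2 * (r * r⁻¹ ^ k * r ^ (β / 4)))
    (hb : 0 < b) (hbβ : b ≤ β / 20) (ht : 0 < t) (htr : t ≤ r) (hr : r ≤ 1) (hA : 1 ≤ A)
    (hA2 : n * 2 ≤ A) (hβ1 : β ≤ 1 / 2) : FM.Ref T (F.lift u) η (A * t ^ (b - 1)) := by
  have hr0 : 0 < r := ht.trans_le htr
  have hκ0 : 0 ≤ A * t ^ (b - 1) := mul_nonneg (by linarith) (Real.rpow_nonneg ht.le _)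
  refine COORD.fm_ref_lift F hu hκ0 (fun x => ?_) fun k hk hk' x => ?_
  · refine (Finset.sum_le_sum fun a _ => h1 a x).trans ?_
    simpa using hη
  · refine (Finset.sum_le_sum fun a _ => h2 a k hk hk' x).trans ?_
    rw [Finset.sum_const, Finset.card_univ, Fintype.card_fin, nsmul_eq_mul]
    obtain ⟨j, rfl⟩ := Nat.exists_eq_add_of_le' (show 1 ≤ k by omega)
    rw [Nat.add_sub_cancel]
    have hj1 : 1 ≤ j := by omega
    have hj5 : j ≤ 5 := by omega
    have hj1' : (1:ℝ) ≤ j := by exact_mod_cast hj1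
    have hj5' : (j:ℝ) ≤ 5 := by exact_mod_cast hj5
    -- the exponent of `r`
    have e1 : r * r⁻¹ ^ (j + 1) * r ^ (β / 4) = r ^ (β / 4 - j) := by
      rw [Real.rpow_sub hr0, Real.rpow_natCast, pow_succ, inv_pow]
      field_simp
    have e2 : (A * t ^ (b - 1)) ^ j = A ^ j * t ^ (j * b - j) := by
      rw [mul_pow, ← Real.rpow_natCast (t ^ _), ← Real.rpow_mul ht.le]
      congr 2; ring
    rw [e1, e2]
    have h3 : r ^ (β / 4 - j) ≤ t ^ (β / 4 - (j:ℝ)) :=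
      Real.rpow_le_rpow_of_nonpos ht htr (by linarith)
    have h4 : t ^ (β / 4 - (j:ℝ)) ≤ t ^ (j * b - (j:ℝ)) := by
      refine Real.rpow_le_rpow_of_exponent_ge ht (htr.trans hr) ?_
      nlinarith
    have h5 : A ≤ A ^ j := le_self_pow₀ hA (by omega)
    have h7 : 0 ≤ t ^ (j * b - (j:ℝ)) := Real.rpow_nonneg ht.le _
    calc (n:ℝ) * (2 * r ^ (β / 4 - j)) = (n * 2) * r ^ (β / 4 - j) := by ring
      _ ≤ A ^ j * t ^ (j * b - (j:ℝ)) :=
          mul_le_mul (hA2.trans h5) (h3.trans h4) (Real.rpow_nonneg hr0.le _) (by positivity)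

variable [MeasurableSpace E] [BorelSpace E]
variable {T : Submodule ℝ E} {F : Frame m n T} {ν : Measure E} {P : E → E →L[ℝ] E}
  {X : Exps} {C ε : ℝ}

lemma th_nn {h : ℝ} (h0 : 0 < h) (h1 : h ≤ 1) : 0 ≤ th h := by
  unfold th
  exact pow_nonneg (inv_nonneg.2 (Real.log_nonneg (one_le_inv_iff₀.2 ⟨h0, h1⟩))) _

lemma r_succ_le' (S : WSeq m n Q T F ν X C ε) (hε : ε ≤ 1) (j : ℕ) : S.r (j + 1) ≤ S.r j := by
  have h1 := (S.nxt j).r_le
  have h2 := th_nn (S.h_pos j) ((S.h_le j).trans hε)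
  nlinarith [S.r_pos j]

lemma r_le' (S : WSeq m n Q T F ν X C ε) (hε : ε ≤ 1) (j : ℕ) : S.r j ≤ 3 / 16 := by
  induction j with
  | zero => rw [S.r_zero]
  | succ j ih => exact (r_succ_le' S hε j).trans ih

lemma r_le_two_mul (S : WSeq m n Q T F ν X C ε) (j : ℕ) {t : ℝ} (ht : Tr S j ≤ t) :
    S.r j ≤ 2 * t := by
  have h1 := S.th_le j
  unfold Tr at ht
  nlinarith [S.r_pos j]

lemma wr_contDiff (S : WSeq m n Q T F ν X C ε) (j : ℕ) (a : Fin n) {k : ℕ∞} :
    ContDiff ℝ k (S.u (j + 1) a) := ((S.refe (j + 1)).smooth a).of_le (WithTop.coe_le_coe.2 le_top)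

lemma wr_slope1 (S : WSeq m n Q T F ν X C ε) (j : ℕ) (a : Fin n) (x : REF.E m) :
    ‖iteratedFDeriv ℝ 1 (S.u (j + 1) a) x‖ ≤ ε := by
  have h1 := (S.refe (j + 1)).small a 1 le_rfl (by unfold sW; omega) x
  rwa [pow_one, mul_inv_cancel₀ (S.r_pos (j + 1)).ne', mul_one] at h1

/-- the slope of the reference -/
lemma wr_slope (S : WSeq m n Q T F ν X C ε) (j : ℕ) (Y : E) :
    ‖fderiv ℝ (wr S j) Y‖ ≤ n * ε := by
  unfold wr
  rw [← norm_iteratedFDeriv_one]
  refine (COORD.norm_iteratedFDeriv_lift F (fun a => wr_contDiff S j a (k := (1:ℕ))) Y).trans ?_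
  refine (Finset.sum_le_sum fun a _ => wr_slope1 S j a _).trans (le_of_eq ?_)
  simp

/-- the slope of the reference at the centre -/
lemma wr_slope0 (S : WSeq m n Q T F ν X C ε) (j : ℕ) :
    ‖fderiv ℝ (wr S j) 0‖ ≤ n * C * S.r (j + 1) ^ (X.β / 4) := by
  unfold wr
  rw [← norm_iteratedFDeriv_one]
  refine (COORD.norm_iteratedFDeriv_lift F (fun a => wr_contDiff S j a (k := (1:ℕ))) 0).trans ?_
  have h3 : ∀ a, ‖iteratedFDeriv ℝ 1 (S.u (j + 1) a) (F.xc 0)‖ ≤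
      C * S.r (j + 1) ^ (X.β / 4) := fun a => by
    rw [norm_iteratedFDeriv_one, F.xc_zero]
    exact S.cen' j a
  refine (Finset.sum_le_sum fun a _ => h3 a).trans (le_of_eq ?_)
  simp; ring

/-- the value of the reference at the centre -/
lemma wr_zero (S : WSeq m n Q T F ν X C ε) (j : ℕ) :
    ‖wr S j 0‖ ≤ n * C * (S.r (j + 1) * S.r (j + 1) ^ (X.β / 4)) ∧
      ‖wr S j 0‖ ≤ n * ε * S.r (j + 1) := by
  have h1 : ‖wr S j 0‖ ≤ ∑ a, |S.u (j + 1) a (F.xc 0)| := F.norm_lift_le _ _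
  rw [F.xc_zero] at h1
  refine ⟨h1.trans ((Finset.sum_le_sum fun a _ => S.cen j a).trans (le_of_eq ?_)),
    h1.trans ((Finset.sum_le_sum fun a _ => (S.refe (j + 1)).val a).trans (le_of_eq ?_))⟩
  · simp; ring
  · simp; ring

/-- **[B-REFS]** -/
theorem refsStmt (E : Type*) [NormedAddCommGroup E] [InnerProductSpace ℝ E]
    [FiniteDimensional ℝ E] [MeasurableSpace E] [BorelSpace E] (m n Q : ℕ) :
    RefsStmt E m n Q := by
  intro η hη hη0 X C
  by_cases hXC : X.OK m ∧ 1 ≤ C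
  swap
  · refine ⟨1, one_pos, fun b _ _ => ⟨1, le_rfl, fun A _ => ⟨1, one_pos, ?_⟩⟩⟩
    intro T F ν P ε τ S hctx
    exact absurd ⟨hctx.ok, hctx.C_one⟩ hXC
  obtain ⟨hX, hC⟩ := hXC
  have hβ := hX.β_pos
  have hβ1 := hX.β_le
  have hn : (0:ℝ) ≤ n := Nat.cast_nonneg n
  refine ⟨X.β / 20, by positivity, fun b hb hbβ => ?_⟩
  have hbβ4 : b ≤ X.β / 4 := by linarith
  have hnC : (n:ℝ) ≤ n * C := by nlinarith
  have hnC0 : 0 ≤ (n:ℝ) * C := by linarith
  refine ⟨200 * (n * C) + 200, by linarith, fun A hA => ?_⟩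
  have hA1 : 1 ≤ A := by linarith
  have hA0 : 0 < A := by linarith
  have hA2 : (n:ℝ) * 2 ≤ A := by linarith
  set ε₁ : ℝ := η / (10 * n + 1) with hε₁
  have hε₁0 : 0 < ε₁ := by positivity
  set ε₂ : ℝ := (1 / (64 * A)) ^ (10 : ℝ) with hε₂
  have hε₂0 : 0 < ε₂ := by positivity
  refine ⟨min 1 (min ε₁ ε₂), by positivity, ?_⟩
  intro T F ν P ε τ S hctx hεm j
  have hε := hctx.ε_pos
  have hε1 : ε ≤ 1 := hεm.trans (min_le_left _ _)
  have hεη : n * ε ≤ η / 10 := by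
    have h1 : ε ≤ ε₁ := hεm.trans ((min_le_right _ _).trans (min_le_left _ _))
    have h2 : (10 * n + 1) * ε ≤ η := by
      calc (10 * (n:ℝ) + 1) * ε ≤ (10 * n + 1) * ε₁ := by gcongr
        _ = η := by rw [hε₁]; field_simp
    linarith
  have hr := S.refe (j + 1)
  have hrj := S.r_pos j
  have hrj' := S.r_pos (j + 1)
  have hrle := r_le' S hε1 j
  have hrle' := r_le' S hε1 (j + 1)
  have hh := S.h_pos j
  have hh1 : S.h j ≤ 1 := (S.h_le j).trans hε1
  have hpw : S.r (j + 1) ^ (X.β / 4) ≤ S.r (j + 1) ^ b :=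
    Real.rpow_le_rpow_of_exponent_ge hrj' (by linarith) hbβ4
  have hpw0 : 0 ≤ S.r (j + 1) ^ b := Real.rpow_nonneg hrj'.le _
  -- references
  have hR : ∀ A' : ℝ, 1 ≤ A' → n * 2 ≤ A' → ∀ t, 0 < t → t ≤ S.r j →
      FM.Ref T (wr S j) η (A' * t ^ (b - 1)) := by
    intro A' hA' hA'2 t ht0 htr
    refine ref_of_pw F (fun a => wr_contDiff S j a (k := ⊤)) (wr_slope1 S j) (by linarith)
      (fun a k hk hk' x => S.pw j a k hk ?_ x) hb hbβ ht0 htr (by linarith) hA' hA'2 hβ1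
    unfold sW; omega
  have h0a := wr_slope0 S j
  obtain ⟨h0b, h0c⟩ := wr_zero S j
  refine ⟨fun κ h₁ hκ hh₁ hκh => ⟨ref_mono (hR A hA1 hA2 _ hrj le_rfl) hκ, hh₁, hη0, hκh⟩,
    ?_, ?_, ?_, ?_, ?_⟩
  · refine h0b.trans ?_
    have : S.r (j + 1) * S.r (j + 1) ^ (X.β / 4) ≤ S.r (j + 1) * S.r (j + 1) ^ b := by gcongr
    exact mul_le_mul (by linarith) this (by positivity) hA0.le
  · refine h0c.trans ?_
    nlinarith
  · exact h0a.trans (mul_le_mul (by linarith) hpw (by positivity) hA0.le)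
  · exact (COORD.minimalOver_lift_iff F fun a => wr_contDiff S j a (k := (2:ℕ))).2
      (S.nxt j).exact
  intro t ht htr
  have hrt : S.r (j + 1) ≤ 2 * t := r_le_two_mul S (j + 1) ht
  have ht0 : 0 < t := by linarith
  have ht1 : t ≤ 1 := by linarith
  have htb : 0 < t ^ (b - 1) := Real.rpow_pos_of_pos ht0 _
  have htbb : t ^ b = t ^ (b - 1) * t := by
    rw [Real.rpow_sub_one ht0.ne', div_mul_cancel₀ _ ht0.ne']
  have htb0 : 0 < t ^ b := Real.rpow_pos_of_pos ht0 _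
  have hb1 : b ≤ 1 := by linarith
  -- the tube
  have htube : A * t ^ (b - 1) * tube S j ≤ 1 / 16 := by
    have hc5 : 0 < X.c₅ := hX.c₅_pos
    have hc5' : X.c₅ ≤ 1 / 10 := by
      have h1 := hX.c₅_small
      have h2 := hX.e_pos
      have h3 : (0:ℝ) ≤ m := Nat.cast_nonneg m
      nlinarith
    have h1 : S.r j * S.h j ^ X.c₅ / 2 ≤ t := by
      have := (S.nxt j).r_ge
      linarith
    have h0 : 0 < S.r j * S.h j ^ X.c₅ / 2 := by positivity
    have h2 : t ^ (b - 1) ≤ (S.r j * S.h j ^ X.c₅ / 2) ^ (b - 1) :=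
      Real.rpow_le_rpow_of_nonpos h0 h1 (by linarith)
    have h3 : (S.r j * S.h j ^ X.c₅ / 2) ^ (b - 1) * (S.r j * S.h j ^ X.c₅ / 2)
        = (S.r j * S.h j ^ X.c₅ / 2) ^ b := by
      rw [Real.rpow_sub_one h0.ne', div_mul_cancel₀ _ h0.ne']
    have h4 : (S.r j * S.h j ^ X.c₅ / 2) ^ b ≤ 1 := by
      refine Real.rpow_le_one h0.le ?_ hb.le
      linarith
    have h5 : S.h j ^ (1 / 5 : ℝ) = S.h j ^ X.c₅ * S.h j ^ (1 / 5 - X.c₅) := by
      rw [← Real.rpow_add hh]; congr 1; ring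
    have h6 : S.h j ^ (1 / 5 - X.c₅) ≤ S.h j ^ (1 / 10 : ℝ) :=
      Real.rpow_le_rpow_of_exponent_ge hh hh1 (by linarith)
    have h7 : S.h j ^ (1 / 10 : ℝ) ≤ 1 / (64 * A) := by
      have h8 : S.h j ≤ ε₂ := (S.h_le j).trans (hεm.trans ((min_le_right _ _).trans
        (min_le_right _ _)))
      refine (Real.rpow_le_rpow hh.le h8 (by norm_num)).trans (le_of_eq ?_)
      rw [hε₂, ← Real.rpow_mul (by positivity)]
      norm_num
    calc A * t ^ (b - 1) * tube S j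
        ≤ A * (S.r j * S.h j ^ X.c₅ / 2) ^ (b - 1) *
          (S.r j * (S.h j ^ X.c₅ * S.h j ^ (1 / 5 - X.c₅))) := by
          unfold tube; rw [h5]; gcongr
      _ = A * ((S.r j * S.h j ^ X.c₅ / 2) ^ (b - 1) * (S.r j * S.h j ^ X.c₅ / 2)) *
          (2 * S.h j ^ (1 / 5 - X.c₅)) := by ring
      _ = A * (S.r j * S.h j ^ X.c₅ / 2) ^ b * (2 * S.h j ^ (1 / 5 - X.c₅)) := by
          rw [h3]
      _ ≤ A * 1 * (2 * (1 / (64 * A))) := by
          gcongr
          exact h6.trans h7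
      _ = 1 / 32 := by field_simp; norm_num
      _ ≤ _ := by norm_num
  have htube0 : 0 < tube S j := by unfold tube; positivity
  -- the slope
  have h4 : S.r (j + 1) ^ (X.β / 4) ≤ 2 * t ^ b := by
    calc S.r (j + 1) ^ (X.β / 4) ≤ S.r (j + 1) ^ b := hpw
      _ ≤ (2 * t) ^ b := Real.rpow_le_rpow hrj'.le hrt hb.le
      _ = 2 ^ b * t ^ b := Real.mul_rpow (by norm_num) ht0.le
      _ ≤ 2 ^ (1:ℝ) * t ^ b := by
          gcongr
          norm_num
      _ = _ := by rw [Real.rpow_one]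
  have hslope : ∀ Y : E, ‖fderiv ℝ (wr S j) Y‖ ≤
      2 * (n * C) * t ^ b + (2 * n + 1) * t ^ (b - 1) * ‖T.starProjection Y‖ := by
    intro Y
    have h1 := INST.Ref.norm_fderiv_le (hR (2 * n + 1) (by linarith) (by linarith) t ht0 htr) Y
    have h2 : n * C * S.r (j + 1) ^ (X.β / 4) ≤ n * C * (2 * t ^ b) := by gcongr
    linarith
  refine ⟨htube, ⟨hR A hA1 hA2 t ht0 htr, htube0, hη0, htube⟩, ⟨fun Y hY => ?_, fun Y hY => ?_⟩,
    fun Y hY => ⟨?_, ?_, ?_⟩⟩
  · have e : ODE.bx T 0 Y = T.starProjection Y := by unfold ODE.bx; rw [sub_zero]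
    rw [e] at hY
    calc ‖fderiv ℝ (wr S j) Y‖ ≤ 2 * (n * C) * t ^ b + (2 * n + 1) * t ^ (b - 1) * t := by
          refine (hslope Y).trans ?_
          gcongr
      _ = (2 * (n * C) + (2 * n + 1)) * (t ^ (b - 1) * t) := by rw [htbb]; ring
      _ ≤ A * (t ^ (b - 1) * t) := mul_le_mul_of_nonneg_right (by linarith) (by positivity)
      _ = _ := by ring
  · have e : ODE.bx T 0 Y = T.starProjection Y := by unfold ODE.bx; rw [sub_zero]
    rw [e] at hY ⊢
    have h5 : t ^ (b - 1) * t ≤ t ^ (b - 1) * (4 * ‖T.starProjection Y‖) := by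
      gcongr; linarith
    calc ‖fderiv ℝ (wr S j) Y‖
        ≤ 2 * (n * C) * (t ^ (b - 1) * (4 * ‖T.starProjection Y‖)) +
          (2 * n + 1) * t ^ (b - 1) * ‖T.starProjection Y‖ := by
          refine (hslope Y).trans ?_
          rw [htbb]
          gcongr
      _ = (8 * (n * C) + (2 * n + 1)) * (t ^ (b - 1) * ‖T.starProjection Y‖) := by ring
      _ ≤ A * (t ^ (b - 1) * ‖T.starProjection Y‖) :=
          mul_le_mul_of_nonneg_right (by linarith) (by positivity)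
      _ = _ := by ring
  · calc ‖fderiv ℝ (wr S j) Y‖ ≤ 2 * (n * C) * t ^ b + (2 * n + 1) * t ^ (b - 1) * (8 * t) := by
          refine (hslope Y).trans ?_
          gcongr
      _ = (2 * (n * C) + 8 * (2 * n + 1)) * t ^ b := by rw [htbb]; ring
      _ ≤ A * t ^ b := mul_le_mul_of_nonneg_right (by linarith) htb0.le
  · -- values, power
    have hbd : ∀ x ∈ {z : E | ‖z‖ ≤ 8 * t}, ‖fderiv ℝ (wr S j) x‖ ≤
        (2 * (n * C) + 8 * (2 * n + 1)) * t ^ b := by
      intro x hx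
      have hx' : ‖T.starProjection x‖ ≤ 8 * t := (T.norm_starProjection_apply_le x).trans hx
      calc ‖fderiv ℝ (wr S j) x‖ ≤ 2 * (n * C) * t ^ b + (2 * n + 1) * t ^ (b - 1) * (8 * t) := by
            refine (hslope x).trans ?_
            gcongr
        _ = _ := by rw [htbb]; ring
    have hdf : Differentiable ℝ (wr S j) := (hR A hA1 hA2 t ht0 htr).diff
    have hcv : Convex ℝ {z : E | ‖z‖ ≤ 8 * t} := by
      have := convex_closedBall (0:E) (8 * t)
      convert this using 1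
      ext z; simp
    have h5 : ‖wr S j (T.starProjection Y) - wr S j 0‖ ≤
        (2 * (n * C) + 8 * (2 * n + 1)) * t ^ b * ‖T.starProjection Y - 0‖ :=
      hcv.norm_image_sub_le_of_norm_fderiv_le (𝕜 := ℝ) (fun x _ => hdf x) hbd
        (by simp; positivity) hY
    rw [sub_zero, (hR A hA1 hA2 t ht0 htr).base] at h5
    have h6 : ‖wr S j 0‖ ≤ n * C * (2 * t * (2 * t ^ b)) := h0b.trans (by gcongr)
    have h7 : ‖wr S j Y‖ ≤ ‖wr S j Y - wr S j 0‖ + ‖wr S j 0‖ := by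
      have := norm_add_le (wr S j Y - wr S j 0) (wr S j 0)
      rwa [sub_add_cancel] at this
    calc ‖wr S j Y‖ ≤ (2 * (n * C) + 8 * (2 * n + 1)) * t ^ b * (8 * t) +
          n * C * (2 * t * (2 * t ^ b)) := by
          refine h7.trans (add_le_add (h5.trans ?_) h6)
          gcongr
      _ = (20 * (n * C) + 64 * (2 * n + 1)) * (t * t ^ b) := by ring
      _ ≤ A * (t * t ^ b) := mul_le_mul_of_nonneg_right (by linarith) (by positivity)
  · -- values, small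
    have hdf : Differentiable ℝ (wr S j) := (hR A hA1 hA2 t ht0 htr).diff
    have h5 : ‖wr S j (T.starProjection Y) - wr S j 0‖ ≤ n * ε * ‖T.starProjection Y - 0‖ :=
      convex_univ.norm_image_sub_le_of_norm_fderiv_le (𝕜 := ℝ) (fun x _ => hdf x)
        (fun x _ => wr_slope S j x) (mem_univ _) (mem_univ _)
    rw [sub_zero, (hR A hA1 hA2 t ht0 htr).base] at h5
    have h7 : ‖wr S j Y‖ ≤ ‖wr S j Y - wr S j 0‖ + ‖wr S j 0‖ := by
      have := norm_add_le (wr S j Y - wr S j 0) (wr S j 0)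
      rwa [sub_add_cancel] at this
    calc ‖wr S j Y‖ ≤ n * ε * (8 * t) + n * ε * (2 * t) := by
          refine h7.trans (add_le_add (h5.trans ?_) (h0c.trans ?_))
          · gcongr
          · gcongr
      _ = 10 * (n * ε) * t := by ring
      _ ≤ η * t := by
          refine mul_le_mul_of_nonneg_right ?_ ht0.le
          linarith

end

end Vale.Agent.P214.BINST
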