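import Vale.Agent.P214.BINST.Props
import Vale.Agent.P214.BINST.Asm
import Vale.Agent.P214.BINST.Rad
import Vale.Agent.P214.INST.Soft

/-!
# P214, target B, block BINST: the soft fields of the chain
-/

open Set Filter Topology MeasureTheory Metric
open scoped RealInnerProductSpace ContDiff

set_option linter.all false

namespace Vale.Agent.P214.BINST

open WIN FM ODE FV INST INSTL
open WSEQ (th)
open BSEQ (Exps WSeq LocB)

variable {m n Q : ℕ} {E : Type*} [NormedAddCommGroup E] [InnerProductSpace ℝ E]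
  [FiniteDimensional ℝ E] [MeasurableSpace E] [BorelSpace E]
variable {T : Submodule ℝ E} {ν : Measure E} {P : E → E →L[ℝ] E} {w : E → E} {ε κ h₁ t : ℝ}

/-- if the measure is carried by the reference in Fermi coordinates near the centre, then the
centre is regular (the reference need not pass through the centre) -/
theorem onGraph_of_fermi_near {τ : ℝ}
    (hL : ∀ ρ, 0 < ρ → ρ ≤ 3 / 8 → ∀ᵐ y ∂ν, T.starProjection y ∈ ball (0:E) ρ →
      ‖y - T.starProjection y‖ ≤ τ * ρ) (hτ : τ ≤ 1) (H : Adm T w ε κ h₁)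
    (ht : 2 * ε * h₁ < t)
    (hν : fmeas T w h₁ ν {Y | aX T w 0 Y < t ^ 2 ∧ co T Y ≠ 0} = 0) :
    ∃ ρ > 0, ALL.OnGraph T ν ρ w := by
  have hc : Continuous (PsiInv T w h₁) := H.contDiff_PsiInv.continuous
  have hnear : ∀ᶠ y in 𝓝 (0:E), ‖T.starProjection (PsiInv T w h₁ y)‖ < t := by
    have h1 : ContinuousAt (fun y => ‖T.starProjection (PsiInv T w h₁ y)‖) 0 :=
      (T.starProjection.continuous.comp hc).norm.continuousAt
    have h2 : ‖T.starProjection (PsiInv T w h₁ 0)‖ < t := by
      have h3 := H.ref.norm_star_Psi_sub_le H.hpos (PsiInv T w h₁ 0)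
      rw [H.Psi_PsiInv, map_zero, zero_sub, norm_neg] at h3
      exact h3.trans_lt ht
    exact h1.eventually_lt_const h2
  obtain ⟨ρ', hρ', hball⟩ := Metric.eventually_nhds_iff.1 hnear
  set ρ : ℝ := min (ρ' / 3) (3 / 8) with hρ
  have hρ0 : 0 < ρ := by positivity
  have hρ1 : ρ ≤ 3 / 8 := min_le_right _ _
  have hρ2 : 3 * ρ ≤ ρ' := by
    have : ρ ≤ ρ' / 3 := min_le_left _ _
    linarith
  refine ⟨ρ, hρ0, ?_, fun y _ => ?_, ?_⟩
  · have h1 : ContDiff ℝ ∞ (fun y => w (T.starProjection y)) :=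
      H.ref.smooth.comp T.starProjection.contDiff
    exact h1.contDiffOn
  · exact H.ref.perp _
  · have h1 : ∀ᵐ Y ∂(fmeas T w h₁ ν), ¬ (aX T w 0 Y < t ^ 2 ∧ co T Y ≠ 0) := by
      rw [ae_iff]
      simpa using hν
    have h2 : ∀ᵐ y ∂ν, ¬ (aX T w 0 (PsiInv T w h₁ y) < t ^ 2 ∧ co T (PsiInv T w h₁ y) ≠ 0) := by
      unfold fmeas at h1
      exact ae_of_ae_map H.aem.aemeasurable h1
    filter_upwards [h2, hL ρ hρ0 hρ1] with y hy hs hyρ
    have h3 : ‖T.starProjection y‖ < ρ := by rwa [mem_ball_zero_iff] at hyρ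
    have h4 := hs hyρ
    have h5 : ‖y‖ < ρ' := by
      calc ‖y‖ = ‖T.starProjection y + (y - T.starProjection y)‖ := by congr 1; abel
        _ ≤ ‖T.starProjection y‖ + ‖y - T.starProjection y‖ := norm_add_le _ _
        _ < ρ + τ * ρ := add_lt_add_of_lt_of_le h3 h4
        _ ≤ ρ + 1 * ρ := by gcongr
        _ ≤ ρ' := by linarith
    have h6 : ‖T.starProjection (PsiInv T w h₁ y)‖ < t := hball (by rwa [dist_zero_right])
    set Y := PsiInv T w h₁ y with hY
    have h7 : aX T w 0 Y < t ^ 2 := by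
      rw [aX_zero]
      gcongr
    have h8 : co T Y = 0 := by
      by_contra h
      exact hy ⟨h7, h⟩
    have h9 : Psi T w h₁ Y = y := H.Psi_PsiInv y
    have h10 : y = Y + w Y := by
      rw [← h9]
      unfold Psi ret
      rw [h8]
      simp
    have h11 : T.starProjection Y = Y := by
      rw [co_apply, sub_eq_zero] at h8
      exact h8.symm
    have h12 : T.starProjection y = Y := by
      rw [h10, map_add, H.ref.perp, add_zero, h11]
    rw [h12]
    rw [h10]; abel

section chain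

variable {F : Frame m n T} {X : Exps} {C : ℝ}

lemma r_le_one (S : WSeq m n Q T F ν X C ε) (hε : ε ≤ 1) (j : ℕ) : S.r j ≤ 3 / 16 := by
  rw [← S.r_zero]
  induction j with
  | zero => exact le_rfl
  | succ j ih =>
    refine ((S.nxt j).r_le.trans ?_).trans ih
    have h1 : 0 ≤ th (S.h j) := by
      unfold th
      have : 0 ≤ Real.log (S.h j)⁻¹ :=
        Real.log_nonneg ((one_le_inv₀ (S.h_pos j)).2 ((S.h_le j).trans hε))
      positivity
    have h2 := S.r_pos j
    nlinarith

/-- the base ball of a scale of window `j` -/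
lemma ballIn_Gr (S : WSeq m n Q T F ν X C ε) (j : ℕ) {R : ℝ}
    (hR : R < S.r j * (1 - 9 * th (S.h j))) : BallIn T (Gr S j) 0 R := by
  intro x hx hxR
  show x ∈ ball (0:E) _
  rw [mem_ball_zero_iff]
  rw [map_zero, sub_zero] at hxR
  exact hxR.trans_lt hR

/-- the tube is thin at all scales of the window -/
lemma tube_le_Tr (S : WSeq m n Q T F ν X C ε) (hX : X.OK m) (hε : ε ≤ 1)
    (hsm : ∀ h : ℝ, 0 < h → h ≤ ε → 4 * h ^ (1 / 8 : ℝ) ≤ 1) (j : ℕ) :
    2 * tube S j ≤ Tr S (j + 1) := by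
  have hr := S.r_pos j
  have hr' := S.r_pos (j + 1)
  have hh := S.h_pos j
  have h1 : S.r (j + 1) / 2 ≤ Tr S (j + 1) := by
    unfold Tr
    have := S.th_le (j + 1)
    nlinarith
  have hc5 : X.c₅ ≤ 1 / 160 := by
    have h2 := hX.c₅_small
    have h3 := hX.e_pos
    have h4 := hX.c₅_pos
    have h5 : (0:ℝ) ≤ m := by positivity
    nlinarith
  have h2 : S.r j * S.h j ^ (1 / 5 : ℝ) ≤ S.r (j + 1) / 4 := by
    calc S.r j * S.h j ^ (1 / 5 : ℝ)
        = S.r j * (S.h j ^ X.c₅ * S.h j ^ (1 / 5 - X.c₅)) := by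
          rw [← Real.rpow_add hh]; congr 2; ring
      _ ≤ S.r j * (S.h j ^ X.c₅ * S.h j ^ (1 / 8 : ℝ)) := by
          have h6 : S.h j ^ (1 / 5 - X.c₅) ≤ S.h j ^ (1 / 8 : ℝ) :=
            Real.rpow_le_rpow_of_exponent_ge hh ((S.h_le j).trans hε) (by linarith)
          gcongr
      _ ≤ S.r j * (S.h j ^ X.c₅ * (1 / 4)) := by
          have h6 := hsm _ hh (S.h_le j)
          have h7 : S.h j ^ (1 / 8 : ℝ) ≤ 1 / 4 := by linarith
          gcongr
      _ = (S.r j * S.h j ^ X.c₅) / 4 := by ring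
      _ ≤ S.r (j + 1) / 4 := by
          have := (S.nxt j).r_ge
          linarith
  unfold tube
  linarith

end chain

/-- **[B-SOFT]** -/
theorem softStmt (E : Type*) [NormedAddCommGroup E] [InnerProductSpace ℝ E]
    [FiniteDimensional ℝ E] [MeasurableSpace E] [BorelSpace E] (m n Q : ℕ) {k k' K : ℝ → ℝ}
    {B : ℝ} (hk : Ker k k' K B) (hR : RefsStmt E m n Q) (hC : CylStmt E m n Q) :
    SoftStmt E m n Q k K := by
  have hB : 1 ≤ B := hk.kb.one
  have hom : 0 ≤ Skel.om m := ENNReal.toReal_nonneg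
  have he10 : 0 < Real.exp (-10) := Real.exp_pos _
  set M : ℝ := (Q * Skel.om m + 1) * 2 ^ m with hM
  have hM0 : 0 < M := by positivity
  -- the slope
  obtain ⟨η, hη, hη0, hη1⟩ : ∃ η : ℝ, 0 < η ∧ η ≤ eps0 ∧
      4 * B * M * η ^ 2 ≤ Real.exp (-10) := by
    refine ⟨min eps0 (Real.exp (-10) / (4 * B * M)), ?_, min_le_left _ _, ?_⟩
    · have := eps0_pos
      positivity
    · set η := min eps0 (Real.exp (-10) / (4 * B * M)) with hη
      have h1 : η ≤ Real.exp (-10) / (4 * B * M) := min_le_right _ _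
      have h2 : 0 ≤ η := by
        have := eps0_pos
        positivity
      have h3 : η ≤ 1 := (min_le_left _ _).trans (eps0_le.trans (by norm_num))
      calc 4 * B * M * η ^ 2 = 4 * B * M * (η * η) := by ring
        _ ≤ 4 * B * M * (η * 1) := by gcongr
        _ ≤ 4 * B * M * (Real.exp (-10) / (4 * B * M) * 1) := by gcongr
        _ = _ := by field_simp
  intro X C
  obtain ⟨b₀, hb₀, H0⟩ := (Ev.and (hR η hη hη0) (hC η hη hη0)) X C
  refine ⟨b₀, hb₀, fun b hb hbb => ?_⟩
  obtain ⟨A₀, hA₀, H0⟩ := H0 b hb hbb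
  refine ⟨A₀, hA₀, fun A hA => ?_⟩
  obtain ⟨ε₀, hε₀, H0⟩ := H0 A hA
  obtain ⟨ε₁, hε₁, hε₁', H1⟩ := exists_pow_small 4 (a := 1 / 8) (by norm_num)
  refine ⟨min ε₀ (min ε₁ (1 / 16)), by positivity,
    fun T F ν P ε τ S hS hε k₀ e hf => ?_⟩
  obtain ⟨hRef, hCyl⟩ := H0 T F ν P ε τ S hS (hε.trans (min_le_left _ _))
  have hεε₁ : ε ≤ ε₁ := hε.trans ((min_le_right _ _).trans (min_le_left _ _))
  have hε16 : ε ≤ 1 / 16 := hε.trans ((min_le_right _ _).trans (min_le_right _ _))
  have hε1 : ε < 1 := by linarith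
  have hτ16 : τ ≤ 1 / 16 := hS.τ_le.trans hε16
  have hτ0 := hS.τ_pos
  have hβ := hS.ok.β_pos
  have hr1 : ∀ j, S.r j ≤ 3 / 16 := fun j => r_le_one S hε1.le j
  have hth0 : ∀ j, 0 < th (S.h j) := fun j => INSTL.th_pos (S.h_pos j) ((S.h_le j).trans_lt hε1)
  have htube : ∀ j, 2 * tube S j ≤ Tr S (j + 1) := fun j =>
    tube_le_Tr S hS.ok hε1.le (fun h h0 hh => H1 h h0 (hh.trans hεε₁)) j
  have htu0 : ∀ j, 0 < tube S j := fun j =>
    mul_pos (S.r_pos j) (Real.rpow_pos_of_pos (S.h_pos j) _)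
  have hadm : ∀ j t, Tr S (j + 1) ≤ t → t ≤ S.r j →
      Adm T (wr S j) η (A * t ^ (b - 1)) (tube S j) := fun j t h1 h2 =>
    ((hRef j).2.2.2.2.2 t h1 h2).2.1
  have hcyl : ∀ j, CylF m T (wr S j) (tube S j) (Gr S j) (2 * (S.r j * S.h j ^ (2 / 5 : ℝ)))
      (fmeas T (wr S j) (tube S j) ν) (fP T (wr S j) (tube S j) P) := fun j => (hCyl j).2.1
  have hpow : ∀ r : ℝ, 0 < r → r ≤ 3 / 8 → τ * r ^ X.β ≤ τ := fun r hr0 hr1 => by
    have h1 : r ^ X.β ≤ 1 := Real.rpow_le_one hr0.le (by linarith) hβ.le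
    nlinarith
  have hslab : ∀ ρ, 0 < ρ → ρ ≤ 3 / 8 → ∀ᵐ y ∂ν, T.starProjection y ∈ ball (0:E) ρ →
      ‖y - T.starProjection y‖ ≤ τ * ρ := by
    intro ρ hρ hρ1
    filter_upwards [(hS.loc.int ρ hρ hρ1).cyl.slab] with y hy hyρ
    refine (hy hyρ).trans ?_
    have := hpow ρ hρ hρ1
    calc τ * ρ * ρ ^ X.β = (τ * ρ ^ X.β) * ρ := by ring
      _ ≤ τ * ρ := by gcongr
  refine ⟨fun i => Tr_pos S _, ?_, ?_, ?_, ?_⟩
  · exact strictAnti_nat_of_succ_lt fun i => Tr_succ_lt S hε1 (k₀ + i)
  · have h1 : Tendsto (fun i => k₀ + i) atTop atTop := by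
      simpa [add_comm] using tendsto_add_atTop_nat k₀
    exact (Tr_lim S hε1).comp h1
  · exact (Tr_le S hε1 _).trans ((hr1 _).trans (by norm_num))
  · intro i t hw
    obtain ⟨hw1, hw2⟩ := hw
    have hw1' : Tr S (k₀ + i + 1) ≤ t := hw1
    have hw2' : t ≤ Tr S (k₀ + i) := hw2
    set j := k₀ + i with hj
    have ht : 0 < t := (Tr_pos S (j + 1)).trans_le hw1'
    have hrj := S.r_pos j
    have hthj := hth0 j
    have htrj : t ≤ S.r j := hw2'.trans (Tr_le S hε1 j)
    have hA := hadm j t hw1' htrj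
    set R : ℝ := S.r j * (1 - 19 / 2 * th (S.h j)) with hRdef
    have hR9 : R < S.r j * (1 - 9 * th (S.h j)) := by
      rw [hRdef]
      nlinarith
    have htR : t < R := by
      refine hw2'.trans_lt ?_
      unfold Tr
      rw [hRdef]
      nlinarith
    have hGR : BallIn T (Gr S j) 0 R := ballIn_Gr S j hR9
    have hGt : BallIn T (Gr S j) 0 t := ballIn_Gr S j (htR.trans hR9)
    have h1 := (hcyl j).height_ode hA hk.kb.kern ht htR hGR
    have h2 := (hcyl j).hasDerivAt_aF (Q := Q) hA hk.kb.kern ht hGt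
    -- displacement
    have hη16 : η ≤ 1 / 16 := hη0.trans eps0_le
    have hdisp : 2 * η * tube S j < t := by
      have h3 := htube j
      have h4 := htu0 j
      have h5 : η * tube S j ≤ 1 / 16 * tube S j := by gcongr
      linarith
    refine ⟨?_, ?_, ?_, ?_⟩
    · exact h1.differentiableAt.hasDerivAt
    · exact h2.differentiableAt.hasDerivAt
    · refine (hcyl j).HF_pos hA hk.kb.kern (fun s hs0 hs1 => ?_) ht hGt ?_
      · exact lt_of_lt_of_le (pow_pos (by linarith) 3) (hk.low s hs0 hs1.le)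
      · intro h0
        obtain ⟨ρ, hρ, hgr⟩ := onGraph_of_fermi_near hslab (by linarith) hA hdisp h0
        exact hS.irr ρ hρ _ hgr
    · have hI := hS.loc.int (2 * t) (by positivity) (by linarith [hr1 j])
      have hsc : Sc m T (wr S j) (tube S j) t ν η M :=
      { fin := hI.cyl.fin
        pos := ht
        near := by
          have h3 := (hCyl j).2.2 t hw1' hw2'
          have h4 : ∀ᵐ y ∂ν, ‖T.starProjection (PsiInv T (wr S j) (tube S j) y)‖ < 2 * t →
              ‖co T (PsiInv T (wr S j) (tube S j) y)‖ ≤ η * t := by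
            unfold fmeas at h3
            exact ae_of_ae_map hA.aem.aemeasurable h3
          filter_upwards [h4] with y hy hor
          have h5 := hA.ref.norm_star_Psi_sub_le hA.hpos (PsiInv T (wr S j) (tube S j) y)
          rw [hA.Psi_PsiInv] at h5
          have h6 : ‖T.starProjection (PsiInv T (wr S j) (tube S j) y)‖
              ≤ ‖T.starProjection y‖ + 2 * η * tube S j := by
            have e : T.starProjection (PsiInv T (wr S j) (tube S j) y) = T.starProjection y
                - (T.starProjection y - T.starProjection (PsiInv T (wr S j) (tube S j) y)) := by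
              abel
            rw [e]
            exact (norm_sub_le _ _).trans (by linarith)
          have h7 : ‖T.starProjection y‖
              ≤ ‖T.starProjection (PsiInv T (wr S j) (tube S j) y)‖ + 2 * η * tube S j := by
            have e : T.starProjection y = T.starProjection (PsiInv T (wr S j) (tube S j) y)
                + (T.starProjection y - T.starProjection (PsiInv T (wr S j) (tube S j) y)) := by
              abel
            rw [e]
            refine (norm_add_le _ _).trans ?_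
            linarith
          have h8 : ‖T.starProjection (PsiInv T (wr S j) (tube S j) y)‖ < 2 * t := by
            rcases hor with h | h <;> linarith
          have h9 : ‖T.starProjection y‖ < 2 * t := by
            rcases hor with h | h <;> linarith
          exact ⟨h8, h9, hy h8⟩
        mass := by
          have h3 := (abs_le.1 hI.mass).2
          have h4 : {y | ‖T.starProjection y‖ < 2 * t} = Skel.cylSet T 0 (2 * t) := by
            ext y
            show _ ↔ T.starProjection y ∈ ball (0:E) (2 * t)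
            rw [mem_ball_zero_iff]; rfl
          rw [h4]
          have h5 : (0:ℝ) < (2 * t) ^ m := by positivity
          have h6 := hpow (2 * t) (by positivity) (by linarith [hr1 j])
          calc ν.real (Skel.cylSet T 0 (2 * t))
              ≤ Q * Skel.om m * (2 * t) ^ m + τ * (2 * t) ^ X.β * (2 * t) ^ m := by linarith
            _ ≤ Q * Skel.om m * (2 * t) ^ m + 1 * (2 * t) ^ m := by gcongr; linarith
            _ = _ := by rw [mul_pow, hM]; ring }
      have h3 := hsc.HF_le hA hk.kb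
      show Hw m T ν k (tube S j) (wr S j) t / t ^ 2 ≤ _
      rw [div_le_iff₀ (by positivity)]
      refine h3.trans ?_
      gcongr

end Vale.Agent.P214.BINST
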