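import Vale.Agent.P214.BINST.CylOne
import Vale.Agent.P214.INST.KerBd

/-!
# P214, block BINST: kernel heights and cylindrical heights in one window

`Wd1` : the facts on one window (reference `w`, tube `h₁`, radius `r`, height `h`).
`Wd1.upper`, `Wd1.lower` : helper700's comparison, without sequences.
-/

open Set Filter Topology MeasureTheory Metric
open scoped RealInnerProductSpace ContDiff

set_option linter.all false

namespace Vale.Agent.P214.BINST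

open Vale.Agent.P214.WIN Vale.Agent.P214.WSEQ Vale.Agent.P214.FM Vale.Agent.P214.INST

variable {m : ℕ} {E : Type*} [NormedAddCommGroup E] [InnerProductSpace ℝ E]
  [FiniteDimensional ℝ E] [MeasurableSpace E] [BorelSpace E]
variable {T : Submodule ℝ E} {w : E → E} {ν : Measure E} {η κ h₁ r h c₅ t d B : ℝ} {k : ℝ → ℝ}

/-- the facts on one window -/
structure Wd1 (T : Submodule ℝ E) (w : E → E) (η κ h₁ : ℝ) (ν : Measure E) (r h : ℝ) :
    Prop where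
  hpos : 0 < h
  h1 : h ≤ 1 / 2
  rpos : 0 < r
  rle : r ≤ 3 / 16
  th_pos : 0 < th h
  th_le : th h ≤ 1 / 120
  quart : h ^ (1 / 4 : ℝ) ≤ 1 / 2 * th h
  adm : Adm T w η κ h₁
  tube_le : h₁ ≤ r
  sup : ∀ᵐ y ∂ν, T.starProjection y ∈ ball (0:E) (r * (1 - 17 / 2 * th h)) →
      ‖FV.co T y - w y‖ ≤ r * h ^ (2 / 5 : ℝ)
  slab : ∀ᵐ Y ∂(fmeas T w h₁ ν), T.starProjection Y ∈ ball (0:E) (r * (1 - 9 * th h)) →
      ‖FV.co T Y‖ ≤ 2 * (r * h ^ (2 / 5 : ℝ))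
  int : ∀ s, s < 3 / 8 → IntegrableOn (fun y => ‖FV.co T y - w y‖ ^ 2) (Skel.cylSet T 0 s) ν

namespace Wd1

variable (W : Wd1 T w η κ h₁ ν r h)

include W

lemma slab' : ∀ᵐ y ∂ν, ‖T.starProjection (PsiInv T w h₁ y)‖ < r * (1 - 9 * th h) →
      ‖FV.co T (PsiInv T w h₁ y)‖ ≤ 2 * (r * h ^ (2 / 5 : ℝ)) := by
  filter_upwards [ae_of_ae_map W.adm.aem.aemeasurable W.slab] with y hy hlt
  exact hy (mem_ball_zero_iff.2 hlt)

lemma h_le_one : h ≤ 1 := W.h1.trans (by norm_num)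

lemma q_pos : 0 < h ^ (1 / 4 : ℝ) := Real.rpow_pos_of_pos W.hpos _

/-- **(a)** kernel height ≤ height over the cylinder -/
theorem upper (hc : c₅ ≤ 1 / 20) (hk : Continuous k) (hk1 : ∀ s, 1 ≤ s → k s = 0)
    (hk2 : ∀ s, 0 ≤ s → k s ≤ B) (hk0 : ∀ s, 0 ≤ k s) (ht : r * h ^ (2 * c₅) ≤ t)
    (htr : t ≤ r * (1 - 9 * th h)) :
    HF m T w 0 k (fmeas T w h₁ ν) t ≤
      2 * B * 2 ^ (m + 2) * t ^ 2 * STR.hN m T w ν (t * (1 + h ^ (1 / 4 : ℝ))) := by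
  have hr := W.rpos
  have hB : 0 ≤ B := (hk0 0).trans (hk2 0 le_rfl)
  have hq := W.q_pos
  have hq1 : h ^ (1 / 4 : ℝ) ≤ 1 := by linarith [W.quart, W.th_le]
  have ht0 : 0 < t := lt_of_lt_of_le (mul_pos hr (Real.rpow_pos_of_pos W.hpos _)) ht
  have htr1 : t ≤ r := by nlinarith [W.th_pos]
  set t' := t * (1 + h ^ (1 / 4 : ℝ)) with ht'
  have ht'0 : 0 < t' := by positivity
  have ht'2 : t' ≤ 2 * t := by rw [ht']; nlinarith
  have ht'8 : t' < 3 / 8 := by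
    have := W.quart; have := W.th_le; have := W.rle
    rw [ht']; nlinarith
  have hsub : ∀ᵐ y ∂ν, ‖ODE.bx T 0 (PsiInv T w h₁ y)‖ < t → y ∈ Skel.cylSet T 0 t' := by
    filter_upwards [W.slab'] with y hy hlt
    rw [← setOf_bx_zero]
    have h1 := W.adm.bx_le' 0 y
    have h2 := hy (by rw [← bx_zero]; exact hlt.trans_le htr)
    have h3 := disp_small W.hpos W.h_le_one hr hc ht
    have h4 := W.adm.ref.eps_nonneg
    show ‖ODE.bx T 0 y‖ < t'
    calc ‖ODE.bx T 0 y‖ ≤ _ := h1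
      _ < t + 1 / 16 * (2 * (r * h ^ (2 / 5 : ℝ))) := by
          have : η * ‖FV.co T (PsiInv T w h₁ y)‖ ≤ 1 / 16 * (2 * (r * h ^ (2 / 5 : ℝ))) := by
            have := W.adm.eps_le
            gcongr
          linarith
      _ ≤ t + 1 / 16 * (2 * (t * h ^ (1 / 4 : ℝ))) := by gcongr
      _ ≤ t' := by rw [ht']; nlinarith [mul_pos ht0 hq]
  have h1 := W.adm.HF_le m hk hk1 hk2 hk0 ht0 (KMS.measurableSet_cylSet T 0 t')
    (W.int t' ht'8) hsub
  refine h1.trans ?_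
  have e1 : ∫ y in Skel.cylSet T 0 t', ‖FV.co T y - w y‖ ^ 2 ∂ν =
      t' ^ (m + 2) * STR.hN m T w ν t' := by
    unfold STR.hN WIN.hE KMS.rel
    field_simp
  rw [e1]
  have h0 : 0 ≤ STR.hN m T w ν t' := by
    unfold STR.hN WIN.hE
    have : 0 ≤ ∫ y in Skel.cylSet T 0 t', ‖KMS.rel T w y‖ ^ 2 ∂ν :=
      integral_nonneg fun _ => sq_nonneg _
    positivity
  calc 2 * B * (t ^ m)⁻¹ * (t' ^ (m + 2) * STR.hN m T w ν t') ≤
        2 * B * (t ^ m)⁻¹ * ((2 * t) ^ (m + 2) * STR.hN m T w ν t') := by gcongr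
    _ = _ := by rw [mul_pow, pow_add t]; field_simp

/-- the integrand of the kernel height is integrable at all scales `≤ r` -/
lemma integrable (hk : Continuous k) (hk1 : ∀ s, 1 ≤ s → k s = 0)
    (hk2 : ∀ s, 0 ≤ s → k s ≤ B) (hk0 : ∀ s, 0 ≤ k s) (ht0 : 0 < t) (htr : t ≤ r) :
    Integrable (hIn T w h₁ 0 k t) ν := by
  have hr := W.rpos
  have h5 : r + 2 * η * h₁ < 3 / 8 := by
    have h1 := W.adm.eps_le
    have h2 : 2 * η * h₁ ≤ 2 * (1 / 16) * r := by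
      have := W.adm.ref.eps_nonneg
      have := W.adm.hpos
      have := W.tube_le
      gcongr
    linarith [W.rle]
  refine W.adm.integrable_hIn hk hk1 hk2 hk0 ht0 (KMS.measurableSet_cylSet T 0
    (r + 2 * η * h₁)) (W.int _ h5) (Eventually.of_forall fun y hy => ?_)
  rw [← setOf_bx_zero]
  have := W.adm.bx_le 0 y
  show ‖ODE.bx T 0 y‖ < _
  linarith

/-- **(b)** height over the cylinder ≤ kernel height -/
theorem lower (hc : c₅ ≤ 1 / 20) (hk : Continuous k) (hk1 : ∀ s, 1 ≤ s → k s = 0)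
    (hk2 : ∀ s, 0 ≤ s → k s ≤ B) (hk0 : ∀ s, 0 ≤ k s)
    (hk3 : ∀ s, 0 ≤ s → s ≤ 1 → (1 - s) ^ 3 ≤ k s) (ht : r * h ^ (2 * c₅) ≤ t)
    (hd : 4 * h ^ (1 / 4 : ℝ) ≤ d) (hd1 : d ≤ 1 / 2)
    (htr : t * (1 + d) ≤ r * (1 - 17 / 2 * th h)) :
    STR.hN m T w ν t ≤ 16 * 2 ^ m * d⁻¹ ^ 3 * (t ^ 2)⁻¹ *
      HF m T w 0 k (fmeas T w h₁ ν) (t * (1 + d)) := by
  have hr := W.rpos
  have hq := W.q_pos
  have hd0 : 0 < d := by linarith
  have ht0 : 0 < t := lt_of_lt_of_le (mul_pos hr (Real.rpow_pos_of_pos W.hpos _)) ht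
  have htd0 : 0 < t * (1 + d) := by positivity
  have htr1 : t * (1 + d) ≤ r := by nlinarith [W.th_pos]
  have hlow : ∀ᵐ y ∂ν, y ∈ Skel.cylSet T 0 t →
      d ^ 3 / 4 ≤ k (aX T w 0 (PsiInv T w h₁ y) / (t * (1 + d)) ^ 2) := by
    filter_upwards [W.sup] with y hy hyt
    have hyt' : ‖T.starProjection y‖ < t := by
      have h0 : T.starProjection y ∈ ball (0:E) t := hyt
      exact mem_ball_zero_iff.1 h0
    have h1 := W.adm.le_bx' 0 y
    have h2 := hy (by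
      rw [mem_ball_zero_iff]
      refine hyt'.trans_le (le_trans ?_ htr)
      nlinarith)
    have h3 := disp_small W.hpos W.h_le_one hr hc ht
    have h4 := W.adm.ref.eps_nonneg
    have h5 := W.adm.co_le y
    unfold aX XX
    refine ker_low hk3 ht0 hd0 hd1 (norm_nonneg _) ?_
    rw [bx_zero] at h1 ⊢
    rw [bx_zero] at h1
    calc _ ≤ _ := h1
      _ ≤ t + 1 / 16 * (256 / 255 * (t * h ^ (1 / 4 : ℝ))) := by
          have : η * ‖FV.co T (PsiInv T w h₁ y)‖ ≤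
              1 / 16 * (256 / 255 * (t * h ^ (1 / 4 : ℝ))) := by
            have := W.adm.eps_le
            calc _ ≤ 1 / 16 * (256 / 255 * ‖FV.co T y - w y‖) := by gcongr
              _ ≤ _ := by
                  gcongr
                  exact h2.trans h3
          linarith
      _ ≤ t * (1 + d / 4) := by nlinarith [mul_pos ht0 hq]
  have h1 := W.adm.HF_ge m (z := 0) hk0 htd0 (KMS.measurableSet_cylSet T 0 t)
    (W.integrable hk hk1 hk2 hk0 htd0 htr1) (by positivity : 0 ≤ d ^ 3 / 4) hlow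
  have e1 : ∫ y in Skel.cylSet T 0 t, ‖FV.co T y - w y‖ ^ 2 ∂ν =
      t ^ (m + 2) * STR.hN m T w ν t := by
    unfold STR.hN WIN.hE KMS.rel
    field_simp
  rw [e1] at h1
  have h0 : 0 ≤ STR.hN m T w ν t := by
    unfold STR.hN WIN.hE
    have : 0 ≤ ∫ y in Skel.cylSet T 0 t, ‖KMS.rel T w y‖ ^ 2 ∂ν :=
      integral_nonneg fun _ => sq_nonneg _
    positivity
  have h2' : t * (1 + d) ≤ 2 * t := by nlinarith
  have h2 : ((2 * t) ^ m)⁻¹ ≤ ((t * (1 + d)) ^ m)⁻¹ := by gcongr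
  have h3 : d ^ 3 / 4 / 4 * ((2 * t) ^ m)⁻¹ * (t ^ (m + 2) * STR.hN m T w ν t) ≤
      HF m T w 0 k (fmeas T w h₁ ν) (t * (1 + d)) := by
    refine le_trans ?_ h1
    gcongr
  have e2 : d ^ 3 / 4 / 4 * ((2 * t) ^ m)⁻¹ * (t ^ (m + 2) * STR.hN m T w ν t) =
      d ^ 3 / (16 * 2 ^ m) * t ^ 2 * STR.hN m T w ν t := by
    rw [mul_pow, pow_add]; field_simp; ring
  rw [e2] at h3
  calc STR.hN m T w ν t =
        16 * 2 ^ m * d⁻¹ ^ 3 * (t ^ 2)⁻¹ * (d ^ 3 / (16 * 2 ^ m) * t ^ 2 *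
          STR.hN m T w ν t) := by field_simp
    _ ≤ _ := by gcongr

end Wd1

end Vale.Agent.P214.BINST
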