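import Vale.Agent.P214.BINST.Inp0
import Vale.Agent.P214.BSEQ.StepS
import Vale.Agent.P214.COORD.Win
import Vale.Agent.P214.ALL.Frame

/-!
# P214, block BINST: references in scaled norms are references in the sense of FM
-/

open Set Filter Topology MeasureTheory Metric
open scoped RealInnerProductSpace ContDiff

set_option linter.all false

namespace Vale.Agent.P214.BINST

open WIN BSEQ FM FV

noncomputable section

variable {m n Q : ℕ} {E : Type*} [NormedAddCommGroup E] [InnerProductSpace ℝ E]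
  [FiniteDimensional ℝ E]

/-- a function which is small in scaled norms is a reference in the sense of FM, for every
`κ ≥ (n ε)^{1/5} / r` -/
theorem ref_of_scaled {T : Submodule ℝ E} (F : Frame m n T) {u : Fin n → REF.E m → ℝ}
    {ε r κ η : ℝ} (hu : ∀ a, ContDiff ℝ ∞ (u a))
    (hs : ∀ a k, 1 ≤ k → k ≤ sW m → ∀ x, ‖iteratedFDeriv ℝ k (u a) x‖ ≤ ε * (r * r⁻¹ ^ k))
    (hr : 0 < r) (hκ : 0 ≤ κ) (h1 : n * ε ≤ η) (h2 : n * ε ≤ 1)
    (h3 : n * ε ≤ (κ * r) ^ 5) : FM.Ref T (F.lift u) η κ := by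
  have hsum : ∀ k, 1 ≤ k → k ≤ sW m → ∀ x, ∑ a, ‖iteratedFDeriv ℝ k (u a) x‖ ≤
      n * ε * (r⁻¹ ^ (k - 1)) := by
    intro k hk1 hk x
    refine (Finset.sum_le_sum fun a _ => hs a k hk1 hk x).trans (le_of_eq ?_)
    have e : r * r⁻¹ ^ k = r⁻¹ ^ (k - 1) := by
      obtain ⟨j, rfl⟩ := Nat.exists_eq_add_of_le' hk1
      rw [Nat.add_sub_cancel, pow_succ]
      field_simp
    rw [Finset.sum_const, Finset.card_univ, Fintype.card_fin, nsmul_eq_mul, e]
    ring
  have h6 : 6 ≤ sW m := by unfold sW; omega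
  refine COORD.fm_ref_lift F hu hκ (fun x => ?_) fun k hk hk' x => ?_
  · have := hsum 1 le_rfl (by omega) x
    rw [Nat.sub_self, pow_zero, mul_one] at this
    exact this.trans h1
  · refine (hsum k (by omega) (by omega) x).trans ?_
    have h4 : n * ε ≤ (κ * r) ^ (k - 1) := by
      rcases le_total (κ * r) 1 with h5 | h5
      · exact h3.trans (pow_le_pow_of_le_one (by positivity) h5 (by omega))
      · exact h2.trans (one_le_pow₀ h5)
    calc n * ε * r⁻¹ ^ (k - 1) ≤ (κ * r) ^ (k - 1) * r⁻¹ ^ (k - 1) := by gcongr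
      _ = κ ^ (k - 1) := by rw [← mul_pow]; congr 1; field_simp

/-- a reference which is small in scaled norms is a reference in the sense of FM, for every
`κ ≥ (n ε)^{1/5} / r` -/
theorem ref_of_refS {T : Submodule ℝ E} (F : Frame m n T) {u : Fin n → REF.E m → ℝ}
    {ε r κ η : ℝ} (hu : RefS ε r u) (hr : 0 < r) (hκ : 0 ≤ κ) (h1 : n * ε ≤ η) (h2 : n * ε ≤ 1)
    (h3 : n * ε ≤ (κ * r) ^ 5) : FM.Ref T (F.lift u) η κ :=
  ref_of_scaled F hu.smooth hu.small hr hκ h1 h2 h3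

/-- exactness, raw form -/
theorem minimal_of_exact {T : Submodule ℝ E} (F : Frame m n T) {u : Fin n → REF.E m → ℝ} {r : ℝ}
    (hu : ∀ a, ContDiff ℝ ∞ (u a)) (hex : ∀ a x, ‖x‖ < r → REF.Mop u a x = 0) :
    MinimalOver T (F.lift u) (ball 0 r) :=
  (COORD.minimalOver_lift_iff F fun a =>
    (hu a).of_le (WithTop.coe_le_coe.2 le_top)).2 hex

/-- exactness -/
theorem minimal_of_refS {T : Submodule ℝ E} (F : Frame m n T) {u : Fin n → REF.E m → ℝ} {ε r : ℝ}
    (hu : RefS ε r u) : MinimalOver T (F.lift u) (ball 0 r) :=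
  (COORD.minimalOver_lift_iff F fun a =>
    (hu.smooth a).of_le (WithTop.coe_le_coe.2 le_top)).2 hu.exact

variable [MeasurableSpace E] [BorelSpace E]

/-- coarse data at every scale from `LocB` and a bound of the reference -/
theorem crs_of_locB {T : Submodule ℝ E} {w : E → E} {ν : Measure E} {P : E → E →L[ℝ] E}
    {b τ t δ₀ : ℝ} (hL : LocB m Q T ν P b τ) (hb : 0 ≤ b) (hτ : 0 ≤ τ) (ht : 0 < t)
    (ht2 : 4 * t ≤ 3 / 8) (hτδ : 8 * 4 ^ m * τ ≤ δ₀)
    (hw : ∀ y, T.starProjection y ∈ ball (0:E) (4 * t) → ‖w y‖ ≤ δ₀ / 2 * t) :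
    Crs m Q T w 0 t (τ * (4 * t) * (4 * t) ^ b) δ₀ ν P := by
  have h4 : (1:ℝ) ≤ 4 ^ m := one_le_pow₀ (by norm_num)
  have h4t : (0:ℝ) < 4 * t := by positivity
  have hp : (4 * t) ^ b ≤ 1 := Real.rpow_le_one h4t.le (by linarith) hb
  have hp0 : 0 ≤ (4 * t) ^ b := Real.rpow_nonneg h4t.le _
  have hI := hL.int (4 * t) h4t ht2
  have hτδ' : 8 * τ ≤ δ₀ := by nlinarith
  refine ⟨ht, ⟨hI.cyl, hI.mem, hI.pos, hI.int, hI.mass.trans ?_⟩, ?_, ?_, hw⟩
  · have : τ * (4 * t) ^ b ≤ δ₀ := by nlinarith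
    gcongr
  · refine (hL.exc (4 * t) h4t ht2).trans ?_
    have h5 : τ * (4 * t) ^ m * (4 * t) ^ b ≤ τ * (4 * t) ^ m * 1 := by gcongr
    refine h5.trans ?_
    rw [mul_one, mul_pow]
    have : 0 < t ^ m := by positivity
    nlinarith
  · filter_upwards [hI.cyl.slab] with y hy hyb
    have h5 : ‖co T y‖ ≤ τ * (4 * t) * (4 * t) ^ b := by rw [co_apply]; exact hy hyb
    refine h5.trans ?_
    have : τ * (4 * t) * (4 * t) ^ b ≤ τ * (4 * t) * 1 := by gcongr
    nlinarith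

end

end Vale.Agent.P214.BINST
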