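import Vale.Agent.P214.BINST.Asm
import Vale.Agent.P214.BINST.RefB
import Vale.Agent.P214.BINST.KerOne
import Vale.Agent.P214.HSW.SupW

/-!
# P214, block BINST: numbers and sup bounds of the windows of the chain of target B
-/

open Set Filter Topology MeasureTheory Metric
open scoped RealInnerProductSpace ContDiff

set_option linter.all false

namespace Vale.Agent.P214.BINST

open WIN FM INST
open WSEQ (th)
open BSEQ (Exps WSeq LocB)

variable {m n Q : ℕ} {E : Type*} [NormedAddCommGroup E] [InnerProductSpace ℝ E]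
  [FiniteDimensional ℝ E] [MeasurableSpace E] [BorelSpace E]
variable {T : Submodule ℝ E} {F : Frame m n T} {ν : Measure E} {P : E → E →L[ℝ] E}
  {X : Exps} {C ε : ℝ}

/-- the basic numbers of window `j` -/
structure NumW (S : WSeq m n Q T F ν X C ε) (j : ℕ) : Prop where
  hpos : 0 < S.h j
  h1 : S.h j ≤ 1 / 2
  rpos : 0 < S.r j
  rle : S.r j ≤ 3 / 16
  th_pos : 0 < th (S.h j)
  th_le : th (S.h j) ≤ 1 / 120
  ten : S.h j ^ (1 / 10 : ℝ) ≤ 1 / 8 * th (S.h j)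
  /-- the tube is thin at all scales of the window -/
  tube_pos : 0 < tube S j
  tube_le : tube S j ≤ 1 / 8 * Tr S (j + 1)
  tube_th : tube S j ≤ 1 / 8 * (S.r j * th (S.h j))
  Tr_pos : 0 < Tr S (j + 1)
  Tr_le : Tr S (j + 1) ≤ S.r (j + 1)
  Tr_lt : Tr S (j + 1) ≤ S.r j * (1 - 12 * th (S.h j))

lemma c₅_le (hX : X.OK m) : X.c₅ ≤ 1 / 160 := by
  have h1 := hX.c₅_small
  have h2 := hX.e_pos
  have h3 := hX.c₅_pos
  have hm : (0:ℝ) ≤ m := Nat.cast_nonneg m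
  nlinarith

/-- all the numbers, for small `ε` -/
theorem exists_numW : ∃ b : ℝ, 0 < b ∧ b ≤ 1 / 2 ∧ ∀ {m n Q : ℕ} {E : Type*}
    [NormedAddCommGroup E] [InnerProductSpace ℝ E] [FiniteDimensional ℝ E] [MeasurableSpace E]
    [BorelSpace E] {T : Submodule ℝ E} {F : Frame m n T} {ν : Measure E} {X : Exps} {C ε : ℝ}
    (S : WSeq m n Q T F ν X C ε), X.OK m → ε ≤ b → ∀ j, NumW S j := by
  obtain ⟨ε₁, hε₁, hε₁1, hth⟩ := INST.exists_th_small (a := 1 / 10) (by norm_num) 1 (η := 1 / 8)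
    (by positivity)
  refine ⟨min ε₁ (1 / 2), by positivity, min_le_right _ _, ?_⟩
  intro m n Q E _ _ _ _ _ T F ν X C ε S hX hε
  have hn : ∀ j, 0 < th (S.h j) ∧ S.h j ^ (1 / 10 : ℝ) ≤ 1 / 8 * th (S.h j) := fun j => by
    obtain ⟨h1, h2⟩ := hth (S.h j) (S.h_pos j) ((S.h_le j).trans (hε.trans (min_le_left _ _)))
    rw [pow_one] at h2
    exact ⟨h1, h2⟩
  have hr : ∀ j, S.r j ≤ 3 / 16 := by
    intro j
    induction j with
    | zero => exact S.r_zero.le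
    | succ j ih =>
      refine (S.nxt j).r_le.trans ((mul_le_of_le_one_right (S.r_pos j).le ?_).trans ih)
      linarith [(hn j).1]
  intro j
  have h0 := S.h_pos j
  have h1 : S.h j ≤ 1 / 2 := (S.h_le j).trans (hε.trans (min_le_right _ _))
  obtain ⟨ht, h10⟩ := hn j
  obtain ⟨ht', -⟩ := hn (j + 1)
  have hrj := S.r_pos j
  have hrj' := S.r_pos (j + 1)
  have hθ := S.th_le j
  have hθ' := S.th_le (j + 1)
  have hp10 : 0 < S.h j ^ (1 / 10 : ℝ) := Real.rpow_pos_of_pos h0 _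
  have h5 : S.h j ^ (1 / 5 : ℝ) = S.h j ^ (1 / 10 : ℝ) * S.h j ^ (1 / 10 : ℝ) := by
    rw [← Real.rpow_add h0]; norm_num
  have hc5 : S.h j ^ (1 / 5 : ℝ) ≤ S.h j ^ (1 / 10 : ℝ) * S.h j ^ X.c₅ := by
    rw [← Real.rpow_add h0]
    exact Real.rpow_le_rpow_of_exponent_ge h0 (by linarith) (by linarith [c₅_le hX])
  have hTr : 11 / 12 * S.r (j + 1) ≤ Tr S (j + 1) := by
    unfold Tr
    nlinarith
  have hge := (S.nxt j).r_ge
  refine ⟨h0, h1, hrj, hr j, ht, hθ, h10, ?_, ?_, ?_, ?_, ?_, ?_⟩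
  · unfold tube; positivity
  · have h6 : S.r j * S.h j ^ (1 / 5 : ℝ) ≤ S.h j ^ (1 / 10 : ℝ) * S.r (j + 1) := by
      calc S.r j * S.h j ^ (1 / 5 : ℝ) ≤ S.r j * (S.h j ^ (1 / 10 : ℝ) * S.h j ^ X.c₅) := by gcongr
        _ = S.h j ^ (1 / 10 : ℝ) * (S.r j * S.h j ^ X.c₅) := by ring
        _ ≤ _ := by gcongr
    unfold tube
    have h7 : S.h j ^ (1 / 10 : ℝ) ≤ 1 / 960 := by linarith
    have h8 : S.h j ^ (1 / 10 : ℝ) * S.r (j + 1) ≤ 1 / 960 * S.r (j + 1) := by gcongr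
    linarith
  · unfold tube
    have h7 : S.h j ^ (1 / 5 : ℝ) ≤ 1 / 8 * th (S.h j) := by
      rw [h5]
      nlinarith
    calc S.r j * S.h j ^ (1 / 5 : ℝ) ≤ S.r j * (1 / 8 * th (S.h j)) := by gcongr
      _ = _ := by ring
  · linarith
  · unfold Tr
    nlinarith
  · refine le_trans ?_ (S.nxt j).r_le
    unfold Tr
    nlinarith

/-- the reference of window `j` in the norms of scale `r_j`, curvature `1/(16 r_j)` -/
lemma ref_win (S : WSeq m n Q T F ν X C ε) {η : ℝ} (h1 : n * ε ≤ η) (h2 : n * ε ≤ (1 / 16) ^ 5)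
    (j : ℕ) : FM.Ref T (wr S j) η (1 / (16 * S.r j)) := by
  have hr := S.r_pos j
  refine ref_of_scaled F (S.nxt j).smooth (S.nxt j).small hr (by positivity) h1
    (h2.trans (by norm_num)) ?_
  have : 1 / (16 * S.r j) * S.r j = 1 / 16 := by field_simp
  rwa [this]

/-- **sup of the heights over the reference of a window** -/
theorem sup_win {η : ℝ} (hη : 0 < η) : Ev E m n Q fun T _ ν P _ _ _ S _ _ => ∀ j,
    FM.Ref T (wr S j) η (1 / (16 * S.r j)) ∧ NumW S j ∧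
    ∀ᵐ y ∂ν, T.starProjection y ∈ ball (0:E) (S.r j * (1 - 17 / 2 * th (S.h j))) →
      ‖FV.co T y - wr S j y‖ ≤ S.r j * S.h j ^ (2 / 5 : ℝ) := by
  obtain ⟨b, hb, hb1, hnum⟩ := exists_numW
  obtain ⟨ε₁, hε₁, hε₁1, hsup⟩ := sup_one E m 1
  intro X C
  refine ⟨1, one_pos, fun _ _ _ => ⟨1, le_rfl, fun _ _ => ?_⟩⟩
  have hn : (0:ℝ) ≤ n := Nat.cast_nonneg n
  set ε₂ : ℝ := min η ((1 / 16) ^ 5) / (n + 1) with hε₂
  have hε₂0 : 0 < ε₂ := div_pos (lt_min hη (by norm_num)) (by linarith)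
  refine ⟨min (min b ε₁) ε₂, by positivity, ?_⟩
  intro T F ν P ε τ S hctx hε j
  have e1 : ε ≤ b := hε.trans ((min_le_left _ _).trans (min_le_left _ _))
  have e2 : ε ≤ ε₁ := hε.trans ((min_le_left _ _).trans (min_le_right _ _))
  have e3 : ε ≤ ε₂ := hε.trans (min_le_right _ _)
  have hnε : n * ε ≤ min η ((1 / 16) ^ 5) := by
    have := hctx.ε_pos
    calc (n:ℝ) * ε ≤ n * ε₂ := by gcongr
      _ ≤ (n + 1) * ε₂ := by nlinarith
      _ = _ := by rw [hε₂]; field_simp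
  have href := ref_win S (hnε.trans (min_le_left _ _)) (hnε.trans (min_le_right _ _)) j
  have href1 := ref_win S (η := 1) ((hnε.trans (min_le_right _ _)).trans (by norm_num))
    (hnε.trans (min_le_right _ _)) j
  have N := hnum S hctx.ok e1 j
  refine ⟨href, N, ?_⟩
  have hr := N.rpos
  have hθ := N.th_pos
  have hθ1 := N.th_le
  have hR0 : 0 < S.r j * (1 - 8 * th (S.h j)) := mul_pos hr (by linarith)
  have hRr : S.r j * (1 - 8 * th (S.h j)) ≤ S.r j := mul_le_of_le_one_right hr.le (by linarith)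
  have hI := hctx.loc.int _ hR0 (by linarith [N.rle])
  have hmin := minimal_of_exact F (S.nxt j).smooth (S.nxt j).exact
  refine hsup T (wr S j) ν P Q (S.r j) (S.h j) (1 / (16 * S.r j)) _ _ X.e' N.hpos
    ((S.h_le j).trans e2) hθ1 hr ?_ hI (COORD.kms_ref_lift F (S.nxt j).smooth) ?_
    (fun y _ => href1.slope y) (fun y _ => href1.norm_D2_le y) (by positivity) ?_ ?_
  · have := hctx.ok.e'_le
    have := hctx.ok.c_le
    linarith
  · intro y hy
    refine hmin y ?_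
    exact ball_subset_ball (by nlinarith) hy
  · have : 1 / (16 * S.r j) * S.r j = 1 / 16 := by field_simp
    rw [this]; norm_num
  · rw [one_mul]
    refine (S.nxt j).top _ ?_ le_rfl
    refine ((S.nxt j).r_ge.trans (S.nxt j).r_le).trans ?_
    gcongr
    linarith

/-- smallness of `ε` as a statement -/
lemma Ev.small {c : ℝ} (hc : 0 < c) :
    Ev E m n Q fun _ _ _ _ _ _ ε _ _ _ => ε ≤ c := by
  intro X C
  exact ⟨1, one_pos, fun _ _ _ => ⟨1, le_rfl, fun _ _ => ⟨c, hc, fun _ _ _ _ _ _ _ _ h => h⟩⟩⟩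

/-- the slab of `LocB` in Fermi coordinates at all scales above the tube -/
lemma slab_loc {β τ η κ h₁ t : ℝ} {w : E → E} (hL : LocB m Q T ν P β τ) (hβ : 0 ≤ β)
    (hτ : 0 ≤ τ) (H : Adm T w η κ h₁) (ht : 0 < t) (hh : h₁ ≤ t) (h38 : 2 * t + 2 * η * h₁ ≤ 3 / 8)
    {a : ℝ} (hw : ∀ Y, ‖T.starProjection Y‖ ≤ 2 * t → ‖w Y‖ ≤ a) :
    ∀ᵐ Y ∂(fmeas T w h₁ ν), ‖T.starProjection Y‖ < 2 * t → ‖FV.co T Y‖ ≤ 3 * τ * t + a := by
  have h1 : 2 * η * h₁ ≤ t := by
    have := H.eps_le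
    have := H.ref.eps_nonneg
    have := H.hpos
    nlinarith
  have hR0 : 0 < 2 * t + 2 * η * h₁ := by
    have := H.ref.eps_nonneg
    have := H.hpos
    positivity
  have hI := hL.int _ hR0 h38
  filter_upwards [H.ae_fmeas hI.cyl.slab] with Y hY hlt
  have h2 := H.ref.norm_star_Psi_sub_le H.hpos Y
  have h3 : T.starProjection (Psi T w h₁ Y) ∈ ball (0:E) (2 * t + 2 * η * h₁) := by
    rw [mem_ball_zero_iff]
    have : ‖T.starProjection (Psi T w h₁ Y)‖ ≤ ‖T.starProjection Y‖ +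
        ‖T.starProjection (Psi T w h₁ Y) - T.starProjection Y‖ := by
      calc _ = ‖T.starProjection Y + (T.starProjection (Psi T w h₁ Y) - T.starProjection Y)‖ := by
            congr 1; abel
        _ ≤ _ := norm_add_le _ _
    linarith
  have h4 := hY h3
  rw [← FV.co_apply, H.ref.co_Psi] at h4
  have h5 : ‖FV.co T Y‖ ≤ ‖FV.co T Y + w Y‖ + ‖w Y‖ := by
    calc ‖FV.co T Y‖ = ‖(FV.co T Y + w Y) - w Y‖ := by congr 1; abel
      _ ≤ _ := norm_sub_le _ _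
  have h6 := hw Y hlt.le
  have h7 : τ * (2 * t + 2 * η * h₁) * (2 * t + 2 * η * h₁) ^ β ≤ 3 * τ * t := by
    have h8 : (2 * t + 2 * η * h₁) ^ β ≤ 1 := Real.rpow_le_one hR0.le (by linarith) hβ
    calc τ * (2 * t + 2 * η * h₁) * (2 * t + 2 * η * h₁) ^ β
        ≤ τ * (3 * t) * 1 := by gcongr; linarith
      _ = _ := by ring
  linarith

end Vale.Agent.P214.BINST
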