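import Vale.Agent.P214.BINST.Cyl
import Vale.Agent.P214.BINST.Win
import Vale.Agent.P214.BINST.Rad
import Vale.Agent.P214.INST.TubeW

/-!
# P214, target B, block BINST: change of the tube at the switches

`ev_tube` : for the reference of window `j+1`, the kernel height and the area excess at the switch
radius `Tr S (j+1)` with the tubes of the windows `j+1` and `j` differ by `≤ T² h_j^{3/2}`.
The heights may increase from a long window to the next one: both orders of the two tubes occur.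
-/

open Set Filter Topology MeasureTheory Metric
open scoped RealInnerProductSpace ContDiff

set_option linter.all false

namespace Vale.Agent.P214.BINST

open WIN FM INST
open WSEQ (th)
open BSEQ (Exps WSeq LocB)

variable {m n Q : ℕ} {E : Type*} [NormedAddCommGroup E] [InnerProductSpace ℝ E]
  [FiniteDimensional ℝ E] [MeasurableSpace E] [BorelSpace E]

section

variable {T : Submodule ℝ E} {F : Frame m n T} {ν : Measure E} {P : E → E →L[ℝ] E}
  {X : Exps} {C ε τ : ℝ}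

/-- mass of small cylinders -/
lemma mass_small (S : WSeq m n Q T F ν X C ε) (hctx : Ctx P τ S) (hτ1 : τ ≤ 1) {t : ℝ}
    (ht : 0 < t) (h2t : 2 * t ≤ 3 / 8) :
    ν.real {y : E | ‖T.starProjection y - T.starProjection (0:E)‖ < 2 * t} / t ^ m ≤
      (|Q * Skel.om m| + 1) * 2 ^ m := by
  have hI2 := (hctx.loc.int (2 * t) (by positivity) h2t).mass
  have e1 : {y : E | ‖T.starProjection y - T.starProjection (0:E)‖ < 2 * t} =
      Skel.cylSet T 0 (2 * t) := by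
    ext y
    simp [Skel.cylSet, map_zero, sub_zero]
  rw [e1, div_le_iff₀ (by positivity)]
  have e2 := (abs_le.1 hI2).2
  have e3 : (0:ℝ) ≤ (2 * t) ^ m := by positivity
  have e4 : ↑Q * Skel.om m * (2 * t) ^ m ≤ |↑Q * Skel.om m| * (2 * t) ^ m := by
    gcongr; exact le_abs_self _
  have e6 : (2 * t) ^ X.β ≤ 1 :=
    Real.rpow_le_one (by positivity) (by linarith) hctx.ok.β_pos.le
  have e7 : 0 ≤ (2 * t) ^ X.β := by positivity
  have hτ0 := hctx.τ_pos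
  have e5 : τ * (2 * t) ^ X.β * (2 * t) ^ m ≤ 1 * 1 * (2 * t) ^ m := by gcongr
  calc ν.real (Skel.cylSet T 0 (2 * t)) ≤ |↑Q * Skel.om m| * (2 * t) ^ m + 1 * (2 * t) ^ m := by
        linarith
    _ = _ := by rw [mul_pow]; ring

/-- the references of two consecutive windows are uniformly close -/
lemma norm_wr_sub (S : WSeq m n Q T F ν X C ε) (j : ℕ) (y : E) :
    ‖wr S (j + 1) y - wr S j y‖ ≤ n * (S.r (j + 1) * S.h (j + 1) ^ (1 / 2 - X.e)) := by
  have h1 : wr S (j + 1) y - wr S j y =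
      F.lift (fun a x => S.u (j + 1 + 1) a x - S.u (j + 1) a x) y := by
    rw [lift_sub']
    rfl
  have hsm : ∀ a, ContDiff ℝ (0 : ℕ) (fun x => S.u (j + 1 + 1) a x - S.u (j + 1) a x) := fun a =>
    (((S.refe (j + 1 + 1)).smooth a).sub ((S.refe (j + 1)).smooth a)).of_le
      (WithTop.coe_le_coe.2 le_top)
  have h2 := COORD.norm_iteratedFDeriv_lift F hsm y
  rw [norm_iteratedFDeriv_zero] at h2
  rw [h1]
  refine h2.trans ?_
  calc _ ≤ ∑ _a : Fin n, S.r (j + 1) * S.h (j + 1) ^ (1 / 2 - X.e) := by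
        refine Finset.sum_le_sum fun a _ => ?_
        have h3 := (S.nxt (j + 1)).size a 0 (Nat.zero_le _) (F.xc y)
        rw [pow_zero, mul_one] at h3
        exact h3
    _ = _ := by simp

/-- the next height (it may be larger) -/
lemma h_succ_le (S : WSeq m n Q T F ν X C ε) (j : ℕ) (hθ : 0 < th (S.h j)) :
    S.h (j + 1) ≤ S.h j ^ (1 - X.e') := by
  rw [S.h_eq (j + 1)]
  have hr := S.r_pos j
  refine (S.nxt j).top _ (S.nxt j).r_ge ((S.nxt j).r_le.trans ?_)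
  gcongr
  linarith

/-- the sup of the relative heights over the next reference -/
lemma sup_next (S : WSeq m n Q T F ν X C ε) (hctx : Ctx P τ S) {D : ℝ} (j : ℕ)
    (N : TubeNum n D (S.h j)) (hs : ∀ᵐ y ∂ν,
      T.starProjection y ∈ ball (0:E) (S.r j * (1 - 17 / 2 * th (S.h j))) →
      ‖FV.co T y - wr S j y‖ ≤ S.r j * S.h j ^ (2 / 5 : ℝ)) :
    ∀ᵐ y ∂ν, T.starProjection y ∈ ball (0:E) (S.r j * (1 - 17 / 2 * th (S.h j))) →
      ‖FV.co T y - wr S (j + 1) y‖ ≤ 2 * (S.r j * S.h j ^ (2 / 5 : ℝ)) := by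
  have hr := S.r_pos j
  have hr' := S.r_pos (j + 1)
  have hh' := S.h_pos (j + 1)
  have hc := hctx.ok.c_pos
  have he' : X.e' ≤ 1 / 800 := by
    have := hctx.ok.e'_le
    have := hctx.ok.c_le
    linarith
  have he0 := hctx.ok.e_pos
  have he : X.e ≤ X.e' := by
    rw [hctx.ok.e'_eq]
    have := hctx.ok.c₅_pos
    have : 0 ≤ ((m:ℝ) + 3) * X.c₅ := by positivity
    linarith
  have hle := h_succ_le S j N.th_pos
  have hrr : S.r (j + 1) ≤ S.r j :=
    (S.nxt j).r_le.trans (mul_le_of_le_one_right hr.le (by linarith [N.th_pos]))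
  have h1 : (n : ℝ) * (S.r (j + 1) * S.h (j + 1) ^ (1 / 2 - X.e)) ≤
      S.r j * S.h j ^ (2 / 5 : ℝ) := by
    have e1 : S.h (j + 1) ^ (1 / 2 - X.e) ≤ (S.h j ^ (1 - X.e')) ^ (1 / 2 - X.e) :=
      Real.rpow_le_rpow hh'.le hle (by linarith)
    rw [← Real.rpow_mul N.pos.le] at e1
    have e2 : S.h j ^ ((1 - X.e') * (1 / 2 - X.e)) ≤ S.h j ^ (1 / 20 + 2 / 5 : ℝ) :=
      Real.rpow_le_rpow_of_exponent_ge N.pos (N.le.trans (by norm_num)) (by nlinarith)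
    rw [Real.rpow_add N.pos] at e2
    have hn : (0:ℝ) ≤ n := Nat.cast_nonneg n
    have hp := Real.rpow_nonneg N.pos.le (2 / 5 : ℝ)
    calc (n : ℝ) * (S.r (j + 1) * S.h (j + 1) ^ (1 / 2 - X.e))
        ≤ n * (S.r j * (S.h j ^ (1 / 20 : ℝ) * S.h j ^ (2 / 5 : ℝ))) := by
          gcongr
          exact e1.trans e2
      _ = (n * S.h j ^ (1 / 20 : ℝ)) * (S.r j * S.h j ^ (2 / 5 : ℝ)) := by ring
      _ ≤ 1 * (S.r j * S.h j ^ (2 / 5 : ℝ)) := by gcongr; exact N.s2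
      _ = _ := one_mul _
  filter_upwards [hs] with y hy hyb
  have h2 := hy hyb
  have h3 := (norm_wr_sub S j y).trans h1
  calc ‖FV.co T y - wr S (j + 1) y‖ = ‖(FV.co T y - wr S j y) - (wr S (j + 1) y - wr S j y)‖ := by
        congr 1; abel
    _ ≤ _ := (norm_sub_le _ _).trans (by linarith)

/-- the tube of window `j` against the next radius -/
lemma tube_le_next (S : WSeq m n Q T F ν X C ε) (hctx : Ctx P τ S) {j : ℕ} (W : NumW S j) :
    tube S j ≤ S.r (j + 1) * S.h j ^ (1 / 10 : ℝ) := by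
  have hc₅ := c₅_le hctx.ok
  unfold tube
  have e1 : S.h j ^ (1 / 5 : ℝ) ≤ S.h j ^ (X.c₅ + 1 / 10) :=
    Real.rpow_le_rpow_of_exponent_ge W.hpos (W.h1.trans (by norm_num)) (by linarith)
  rw [Real.rpow_add W.hpos] at e1
  have hp := Real.rpow_pos_of_pos W.hpos (1 / 10 : ℝ)
  have hr := W.rpos
  calc S.r j * S.h j ^ (1 / 5 : ℝ) ≤ S.r j * (S.h j ^ X.c₅ * S.h j ^ (1 / 10 : ℝ)) := by gcongr
    _ = (S.r j * S.h j ^ X.c₅) * S.h j ^ (1 / 10 : ℝ) := by ring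
    _ ≤ _ := by
      have := (S.nxt j).r_ge
      gcongr

lemma tube_le_self (S : WSeq m n Q T F ν X C ε) {j : ℕ} (W : NumW S j) :
    tube S j ≤ S.r j * S.h j ^ (1 / 10 : ℝ) := by
  unfold tube
  have e1 : S.h j ^ (1 / 5 : ℝ) ≤ S.h j ^ (1 / 10 : ℝ) :=
    Real.rpow_le_rpow_of_exponent_ge W.hpos (W.h1.trans (by norm_num)) (by norm_num)
  have hr := W.rpos
  gcongr

/-- the curvature against a tube -/
lemma kappa_mul_tube {Λ r b x y : ℝ} (hr : 0 < r) (hr1 : r ≤ 1) (hb : 0 < b) (hΛ : 1 ≤ Λ)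
    (hx0 : 0 ≤ x) (hx : x ≤ r * y) (hy : y ≤ 1 / (16 * Λ)) (hy0 : 0 ≤ y) :
    Λ * r ^ (b - 1) * x ≤ 1 / 16 := by
  have e1 : r ^ (b - 1) * r = r ^ b := by
    rw [← Real.rpow_add_one hr.ne']; congr 1; ring
  have e2 : r ^ b ≤ 1 := Real.rpow_le_one hr.le hr1 hb.le
  have e3 : 0 ≤ r ^ b := by positivity
  have e4 : 0 ≤ r ^ (b - 1) := by positivity
  calc Λ * r ^ (b - 1) * x ≤ Λ * r ^ (b - 1) * (r * y) := by gcongr
    _ = Λ * (r ^ (b - 1) * r) * y := by ring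
    _ = Λ * r ^ b * y := by rw [e1]
    _ ≤ Λ * 1 * (1 / (16 * Λ)) := by gcongr
    _ = 1 / 16 := by field_simp

/-- the sup of the heights is small against the tube -/
lemma sup_le_tube (S : WSeq m n Q T F ν X C ε) {j : ℕ} (W : NumW S j) :
    S.r j * S.h j ^ (2 / 5 : ℝ) ≤ 1 / 8 * tube S j := by
  have e1 : S.h j ^ (2 / 5 : ℝ) = S.h j ^ (1 / 5 : ℝ) * S.h j ^ (1 / 5 : ℝ) := by
    rw [← Real.rpow_add W.hpos]; norm_num
  have e2 : S.h j ^ (1 / 5 : ℝ) ≤ S.h j ^ (1 / 10 : ℝ) :=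
    Real.rpow_le_rpow_of_exponent_ge W.hpos (W.h1.trans (by norm_num)) (by norm_num)
  have e3 := W.ten
  have e0 := W.th_le
  have e4 : S.h j ^ (1 / 5 : ℝ) ≤ 1 / 8 := by linarith
  have e5 := Real.rpow_pos_of_pos W.hpos (1 / 5 : ℝ)
  have hr := W.rpos
  rw [e1]
  unfold tube
  calc S.r j * (S.h j ^ (1 / 5 : ℝ) * S.h j ^ (1 / 5 : ℝ))
      ≤ S.r j * (S.h j ^ (1 / 5 : ℝ) * (1 / 8)) := by gcongr
    _ = _ := by ring

/-- the sup of the heights against the scale of the switch -/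
lemma sup_le_scale (S : WSeq m n Q T F ν X C ε) (hctx : Ctx P τ S) {j : ℕ} {D : ℝ}
    (W : NumW S j) (N : TubeNum n D (S.h j)) :
    2 * (S.r j * S.h j ^ (2 / 5 : ℝ)) ≤ Tr S (j + 1) * (4 * S.h j ^ (39 / 100 : ℝ)) ∧
    2 * (2 * (S.r j * S.h j ^ (2 / 5 : ℝ))) ≤ Tr S (j + 1) := by
  have hr := W.rpos
  have hr' := S.r_pos (j + 1)
  have hc₅ := c₅_le hctx.ok
  have hθ1' := S.th_le (j + 1)
  have ht := W.Tr_pos
  have htge : 11 / 12 * S.r (j + 1) ≤ Tr S (j + 1) := by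
    unfold Tr; nlinarith
  have key : 2 * (S.r j * S.h j ^ (2 / 5 : ℝ)) ≤ Tr S (j + 1) * (4 * S.h j ^ (39 / 100 : ℝ)) := by
    have e1 : S.h j ^ (2 / 5 : ℝ) ≤ S.h j ^ (X.c₅ + 39 / 100 : ℝ) :=
      Real.rpow_le_rpow_of_exponent_ge N.pos (N.le.trans (by norm_num)) (by linarith)
    rw [Real.rpow_add N.pos] at e1
    have e2 := (S.nxt j).r_ge
    have e3 := Real.rpow_nonneg N.pos.le (39 / 100 : ℝ)
    calc 2 * (S.r j * S.h j ^ (2 / 5 : ℝ)) ≤
          2 * (S.r j * (S.h j ^ X.c₅ * S.h j ^ (39 / 100 : ℝ))) := by gcongr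
      _ = 2 * ((S.r j * S.h j ^ X.c₅) * S.h j ^ (39 / 100 : ℝ)) := by ring
      _ ≤ 2 * (S.r (j + 1) * S.h j ^ (39 / 100 : ℝ)) := by gcongr
      _ ≤ 2 * ((2 * Tr S (j + 1)) * S.h j ^ (39 / 100 : ℝ)) := by gcongr; linarith
      _ = _ := by ring
  refine ⟨key, ?_⟩
  have e1 : Tr S (j + 1) * (4 * S.h j ^ (39 / 100 : ℝ)) ≤ Tr S (j + 1) * (4 * (1 / 8)) := by
    gcongr; exact N.s4
  linarith

/-- radii of the tube lemma -/
lemma tube_rad (S : WSeq m n Q T F ν X C ε) {j : ℕ} (W : NumW S j) (W' : NumW S (j + 1)) :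
    Tr S (j + 1) + 2 * eps0 * tube S (j + 1) ≤
      S.r (j + 1) * (1 - 17 / 2 * th (S.h (j + 1))) ∧
    Tr S (j + 1) + 2 * eps0 * tube S j ≤ S.r j * (1 - 17 / 2 * th (S.h j)) ∧
    Tr S (j + 1) + 2 * eps0 * tube S (j + 1) ≤ S.r j * (1 - 17 / 2 * th (S.h j)) := by
  have hη1 : eps0 ≤ 1 / 16 := eps0_le
  have h0 := W.tube_pos
  have h0' := W'.tube_pos
  have h1 : 2 * eps0 * tube S j ≤ 1 / 2 * tube S j := by gcongr; linarith
  have h1' : 2 * eps0 * tube S (j + 1) ≤ 1 / 2 * tube S (j + 1) := by gcongr; linarith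
  have h2 := W.tube_th
  have h2' := W'.tube_th
  have h3 : 0 < S.r j * th (S.h j) := mul_pos W.rpos W.th_pos
  have h3' : 0 < S.r (j + 1) * th (S.h (j + 1)) := mul_pos W'.rpos W'.th_pos
  have h4 : S.r (j + 1) ≤ S.r j * (1 - 12 * th (S.h j)) := (S.nxt j).r_le
  have hTr : Tr S (j + 1) = S.r (j + 1) - 10 * (S.r (j + 1) * th (S.h (j + 1))) := by
    unfold Tr; ring
  refine ⟨?_, ?_, ?_⟩
  · rw [hTr]; linarith
  · rw [hTr]; linarith
  · rw [hTr]; linarith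

/-- the reference of window `j + 1` with the tube of window `j` -/
lemma cylF_next (S : WSeq m n Q T F ν X C ε) {j : ℕ} {κ : ℝ} (W : NumW S j) {Q' : ℕ} {H' δ' : ℝ}
    (hI : Skel.IntCyl m Q' T 0 (3 / 8) H' δ' ν P) (H : Adm T (wr S (j + 1)) eps0 κ (tube S j))
    (hsup : ∀ᵐ y ∂ν, T.starProjection y ∈ ball (0:E) (S.r j * (1 - 17 / 2 * th (S.h j))) →
      ‖FV.co T y - wr S (j + 1) y‖ ≤ 2 * (S.r j * S.h j ^ (2 / 5 : ℝ))) :
    CylF m T (wr S (j + 1)) (tube S j) (ball (0:E) (S.r j * (1 - 23 / 2 * th (S.h j))))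
      (4 * (S.r j * S.h j ^ (2 / 5 : ℝ))) (fmeas T (wr S (j + 1)) (tube S j) ν)
      (fP T (wr S (j + 1)) (tube S j) P) := by
  have hη1 : eps0 ≤ 1 / 16 := eps0_le
  have h0 := W.tube_pos
  have hr := W.rpos
  have hθ := W.th_pos
  have h1 := sup_le_tube S W
  have hp := Real.rpow_pos_of_pos W.hpos (2 / 5 : ℝ)
  have hA0 : 0 < S.r j * S.h j ^ (2 / 5 : ℝ) := by positivity
  have hrr := W.rle
  have hrθ : 0 < S.r j * th (S.h j) := by positivity
  have key := cylF_of_sup (m := m) (T := T) (w := wr S (j + 1)) (ν := ν) (P := P)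
    (R := S.r j * (1 - 11 * th (S.h j)))
    (R' := S.r j * (1 - 23 / 2 * th (S.h j))) (h' := 2 * (S.r j * S.h j ^ (2 / 5 : ℝ))) hI.cyl H
    (ball_subset_ball (by linarith)) ?_ ?_ (by linarith) (by linarith)
  · refine key.mono_slab (le_of_eq (by ring)) (by linarith)
  · have h2 : 2 * eps0 * tube S j ≤ 1 / 2 * tube S j := by gcongr; linarith
    have h3 := W.tube_th
    linarith
  · filter_upwards [hsup] with y hy hyb
    exact hy (ball_subset_ball (by linarith) hyb)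

/-- the change of the tube at one switch -/
lemma tube_change {k k' K : ℝ → ℝ} {B : ℝ} (hk : ODE.Kern k k' K) (hB : 0 ≤ B)
    (hkB : ∀ s, 0 ≤ s → k s ≤ B * (max (1 - s) 0) ^ 3)
    (hKB : ∀ s, 0 ≤ s → K s ≤ B * (max (1 - s) 0) ^ 4) (S : WSeq m n Q T F ν X C ε)
    (hctx : Ctx P τ S) (hτ1 : τ ≤ 1) {j : ℕ} (W : NumW S j) (W' : NumW S (j + 1))
    (N : TubeNum n (256 * (B * ((|Q * Skel.om m| + 1) * 2 ^ m))) (S.h j)) {κ : ℝ}
    (H : Adm T (wr S (j + 1)) eps0 κ (tube S (j + 1)))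
    (H' : Adm T (wr S (j + 1)) eps0 κ (tube S j))
    (hs1 : ∀ᵐ y ∂ν,
      T.starProjection y ∈ ball (0:E) (S.r (j + 1) * (1 - 17 / 2 * th (S.h (j + 1)))) →
      ‖FV.co T y - wr S (j + 1) y‖ ≤ S.r (j + 1) * S.h (j + 1) ^ (2 / 5 : ℝ))
    (hcf1 : CylF m T (wr S (j + 1)) (tube S (j + 1)) (Gr S (j + 1))
      (2 * (S.r (j + 1) * S.h (j + 1) ^ (2 / 5 : ℝ)))
      (fmeas T (wr S (j + 1)) (tube S (j + 1)) ν) (fP T (wr S (j + 1)) (tube S (j + 1)) P))
    (hsup : ∀ᵐ y ∂ν, T.starProjection y ∈ ball (0:E) (S.r j * (1 - 17 / 2 * th (S.h j))) →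
      ‖FV.co T y - wr S (j + 1) y‖ ≤ 2 * (S.r j * S.h j ^ (2 / 5 : ℝ)))
    (hcf : CylF m T (wr S (j + 1)) (tube S j) (ball (0:E) (S.r j * (1 - 23 / 2 * th (S.h j))))
      (4 * (S.r j * S.h j ^ (2 / 5 : ℝ))) (fmeas T (wr S (j + 1)) (tube S j) ν)
      (fP T (wr S (j + 1)) (tube S j) P)) :
    |Hw m T ν k (tube S (j + 1)) (wr S (j + 1)) (Tr S (j + 1)) -
        Hw m T ν k (tube S j) (wr S (j + 1)) (Tr S (j + 1))| ≤
      Tr S (j + 1) ^ 2 * S.h j ^ (3 / 2 : ℝ) ∧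
    |aw m Q T ν K (tube S (j + 1)) (wr S (j + 1)) (Tr S (j + 1)) -
        aw m Q T ν K (tube S j) (wr S (j + 1)) (Tr S (j + 1))| ≤
      Tr S (j + 1) ^ 2 * S.h j ^ (3 / 2 : ℝ) := by
  have hI := hctx.loc.int (3 / 8) (by norm_num) le_rfl
  haveI : IsFiniteMeasure ν := hI.cyl.fin
  have ht := W.Tr_pos
  have hr := W.rpos
  have hr' := W'.rpos
  have hθ := W.th_pos
  have hθ' := W'.th_pos
  obtain ⟨hρ, hρ', hρ''⟩ := tube_rad S W W'
  obtain ⟨hAt, hA2⟩ := sup_le_scale S hctx W N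
  have hp := Real.rpow_pos_of_pos W.hpos (2 / 5 : ℝ)
  have hA0 : 0 ≤ 2 * (S.r j * S.h j ^ (2 / 5 : ℝ)) := by positivity
  have hG : ODE.BallIn T (Gr S (j + 1)) 0 (Tr S (j + 1)) := by
    intro x hx hx2
    rw [map_zero, sub_zero] at hx2
    unfold Gr
    rw [mem_ball, dist_zero_right]
    refine hx2.trans_lt ?_
    unfold Tr
    gcongr
    linarith
  have hG' : ODE.BallIn T (ball (0:E) (S.r j * (1 - 23 / 2 * th (S.h j)))) 0 (Tr S (j + 1)) := by
    intro x hx hx2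
    rw [map_zero, sub_zero] at hx2
    rw [mem_ball, dist_zero_right]
    refine hx2.trans_lt (W.Tr_lt.trans_lt ?_)
    gcongr
    linarith
  have hin : ∀ᵐ y ∂ν, ‖T.starProjection y - T.starProjection (0:E)‖ <
      S.r (j + 1) * (1 - 17 / 2 * th (S.h (j + 1))) →
      ‖FV.co T y - wr S (j + 1) y‖ ≤ tube S (j + 1) / 2 := by
    have e1 := sup_le_tube S W'
    have e2 := W'.tube_pos
    filter_upwards [hs1] with y hy hyb
    rw [map_zero, sub_zero] at hyb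
    refine (hy (by rw [mem_ball, dist_zero_right]; exact hyb)).trans ?_
    linarith
  have hout : ∀ᵐ y ∂ν, ‖T.starProjection y - T.starProjection (0:E)‖ <
      S.r j * (1 - 17 / 2 * th (S.h j)) →
      ‖FV.co T y - wr S (j + 1) y‖ ≤ 2 * (S.r j * S.h j ^ (2 / 5 : ℝ)) := by
    filter_upwards [hsup] with y hy hyb
    rw [map_zero, sub_zero] at hyb
    exact hy (by rw [mem_ball, dist_zero_right]; exact hyb)
  have hin' : ∀ᵐ y ∂ν, ‖T.starProjection y - T.starProjection (0:E)‖ <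
      S.r j * (1 - 17 / 2 * th (S.h j)) → ‖FV.co T y - wr S (j + 1) y‖ ≤ tube S j / 2 := by
    have e1 := sup_le_tube S W
    have e2 := W.tube_pos
    filter_upwards [hout] with y hy hyb
    exact (hy hyb).trans (by linarith)
  have hmass := mass_small S hctx hτ1 ht (by
    have h1 := W.Tr_lt
    have h2 := W.rle
    have h3 : 0 < S.r j * th (S.h j) := by positivity
    linarith)
  obtain ⟨hu5, hfin⟩ := N.fin hB hmass ht hA0 hA2 hAt
  have e0 : 0 ≤ B * (ν.real {y : E | ‖T.starProjection y - T.starProjection (0:E)‖ <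
      2 * Tr S (j + 1)} / Tr S (j + 1) ^ m) * Tr S (j + 1) ^ 2 := by positivity
  have hfin' := (mul_le_mul_of_nonneg_left hu5 e0).trans hfin
  constructor
  · rcases le_total (tube S (j + 1)) (tube S j) with htube | htube
    · unfold INST.Hw
      rw [abs_sub_comm]
      exact (tube_HF H H' htube hcf1 hcf hG hG' hk hB hkB ht hA0 hA2 hρ hρ' hin hout).trans hfin'
    · unfold INST.Hw
      exact (tube_HF H' H htube hcf hcf1 hG' hG hk hB hkB ht hA0 hA2 hρ' hρ'' hin' hout).trans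
        hfin'
  · rcases le_total (tube S (j + 1)) (tube S j) with htube | htube
    · unfold INST.aw
      rw [abs_sub_comm]
      exact (tube_aF (m := m) (Q := Q) H H' htube hk hB hKB ht hA0 hA2 hρ hρ' hin hout).trans hfin
    · unfold INST.aw
      exact (tube_aF (m := m) (Q := Q) H' H htube hk hB hKB ht hA0 hA2 hρ' hρ'' hin' hout).trans
        hfin

end

/-- **the change of the tube at the switches** -/
theorem ev_tube {k k' K : ℝ → ℝ} {B : ℝ} (hk : ODE.Kern k k' K) (hB : 0 ≤ B)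
    (hkB : ∀ s, 0 ≤ s → k s ≤ B * (max (1 - s) 0) ^ 3)
    (hKB : ∀ s, 0 ≤ s → K s ≤ B * (max (1 - s) 0) ^ 4)
    (hR : RefsStmt E m n Q) (hC : CylStmt E m n Q) :
    Ev E m n Q fun T _ ν P _ _ _ S _ _ => ∀ j,
      CylF m T (wr S (j + 1)) (tube S j) (ball (0:E) (S.r j * (1 - 23 / 2 * th (S.h j))))
        (4 * (S.r j * S.h j ^ (2 / 5 : ℝ))) (fmeas T (wr S (j + 1)) (tube S j) ν)
        (fP T (wr S (j + 1)) (tube S j) P) ∧
      |Hw m T ν k (tube S (j + 1)) (wr S (j + 1)) (Tr S (j + 1)) -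
          Hw m T ν k (tube S j) (wr S (j + 1)) (Tr S (j + 1))| ≤
        Tr S (j + 1) ^ 2 * S.h j ^ (3 / 2 : ℝ) ∧
      |aw m Q T ν K (tube S (j + 1)) (wr S (j + 1)) (Tr S (j + 1)) -
          aw m Q T ν K (tube S j) (wr S (j + 1)) (Tr S (j + 1))| ≤
        Tr S (j + 1) ^ 2 * S.h j ^ (3 / 2 : ℝ) := by
  intro X C
  have hη := eps0_pos
  obtain ⟨b₁, hb₁, href⟩ := hR eps0 hη le_rfl X C
  obtain ⟨b₂, hb₂, hcyl⟩ := hC eps0 hη le_rfl X C
  refine ⟨min b₁ b₂, by positivity, fun b hb hbb => ?_⟩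
  obtain ⟨A₁, hA₁, href⟩ := href b hb (hbb.trans (min_le_left _ _))
  obtain ⟨A₂, hA₂, hcyl⟩ := hcyl b hb (hbb.trans (min_le_right _ _))
  refine ⟨max A₁ A₂, hA₁.trans (le_max_left _ _), fun Λ hΛ => ?_⟩
  obtain ⟨ε₁, hε₁, href⟩ := href Λ ((le_max_left _ _).trans hΛ)
  obtain ⟨ε₂, hε₂, hcyl⟩ := hcyl Λ ((le_max_right _ _).trans hΛ)
  have hΛ1 : 1 ≤ Λ := hA₁.trans ((le_max_left _ _).trans hΛ)
  obtain ⟨ε₃, hε₃, hε₃1, hnum⟩ := exists_tubeNum n
    (D := 256 * (B * ((|Q * Skel.om m| + 1) * 2 ^ m))) (by positivity)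
  obtain ⟨ε₄, hε₄, hε₄1, hnumW⟩ := exists_numW
  obtain ⟨ε₅, hε₅, hsm⟩ := exists_rpow_small (a := 1 / 10) (η := 1 / (16 * Λ)) (by norm_num)
    (by positivity)
  refine ⟨min (min (min ε₁ ε₂) (min ε₃ ε₄)) ε₅, by positivity, ?_⟩
  intro T F ν P ε τ S hctx hε j
  have hεa : ε ≤ min (min ε₁ ε₂) (min ε₃ ε₄) := hε.trans (min_le_left _ _)
  have hε5 : ε ≤ ε₅ := hε.trans (min_le_right _ _)
  have hε1 : ε ≤ ε₁ := hεa.trans ((min_le_left _ _).trans (min_le_left _ _))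
  have hε2 : ε ≤ ε₂ := hεa.trans ((min_le_left _ _).trans (min_le_right _ _))
  have hε3 : ε ≤ ε₃ := hεa.trans ((min_le_right _ _).trans (min_le_left _ _))
  have hε4 : ε ≤ ε₄ := hεa.trans ((min_le_right _ _).trans (min_le_right _ _))
  have N := hnum _ (S.h_pos j) ((S.h_le j).trans hε3)
  have W := hnumW S hctx.ok hε4 j
  have W' := hnumW S hctx.ok hε4 (j + 1)
  obtain ⟨hs0, -, -⟩ := hcyl T F ν P ε τ S hctx hε2 j
  obtain ⟨hs1, hcf1, -⟩ := hcyl T F ν P ε τ S hctx hε2 (j + 1)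
  obtain ⟨hadm, -, -, -, -, -⟩ := href T F ν P ε τ S hctx hε1 (j + 1)
  have hsup := sup_next S hctx j N hs0
  have hr1 : S.r (j + 1) ≤ 1 := W'.rle.trans (by norm_num)
  have H' := hadm _ (tube S j) le_rfl W.tube_pos (kappa_mul_tube W'.rpos hr1 hb hΛ1
    W.tube_pos.le (tube_le_next S hctx W) (hsm _ (S.h_pos j) ((S.h_le j).trans hε5))
    (Real.rpow_nonneg (S.h_pos j).le _))
  have H := hadm _ (tube S (j + 1)) le_rfl W'.tube_pos (kappa_mul_tube W'.rpos hr1 hb hΛ1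
    W'.tube_pos.le (tube_le_self S W') (hsm _ (S.h_pos _) ((S.h_le _).trans hε5))
    (Real.rpow_nonneg (S.h_pos _).le _))
  have hcf := cylF_next S W (hctx.loc.int (3 / 8) (by norm_num) le_rfl) H' hsup
  exact ⟨hcf, tube_change hk hB hkB hKB S hctx
    (hctx.τ_le.trans (hε3.trans (hε₃1.trans (by norm_num)))) W W' N H H' hs1 hcf1 hsup hcf⟩

end Vale.Agent.P214.BINST
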