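import Vale.Agent.P214.BINST.Jump
import Vale.Agent.P214.BINST.TubeW

/-!
# P214, target B, block BINST: the jump of the kernel height and of the area excess at the switches

Combination of `jumpH`, `jumpA` (change of the reference, tube of window `j`) with `ev_tube`
(change of the tube).
-/

open Set Filter Topology MeasureTheory Metric
open scoped RealInnerProductSpace ContDiff

set_option linter.all false

namespace Vale.Agent.P214.BINST

open WIN FM INST
open WSEQ (th)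
open BSEQ (Exps WSeq LocB)

/-- the jump of the kernel height and of the area excess at the switch radii -/
def JumpStmt (E : Type*) [NormedAddCommGroup E] [InnerProductSpace ℝ E] [FiniteDimensional ℝ E]
    [MeasurableSpace E] [BorelSpace E] (m n Q : ℕ) (k K : ℝ → ℝ) : Prop :=
  ∃ C' : ℝ, 0 < C' ∧ Ev E m n Q fun T _ ν _ X _ _ S _ _ => ∀ j,
    |INST.Hw m T ν k (tube S (j + 1)) (wr S (j + 1)) (Tr S (j + 1)) -
        INST.Hw m T ν k (tube S j) (wr S j) (Tr S (j + 1))| ≤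
      Tr S (j + 1) ^ 2 * (C' * S.h j ^ (1 + 9 / 5 * X.c)) ∧
    |INST.aw m Q T ν K (tube S (j + 1)) (wr S (j + 1)) (Tr S (j + 1)) -
        INST.aw m Q T ν K (tube S j) (wr S j) (Tr S (j + 1))| ≤
      Tr S (j + 1) ^ 2 * (C' * S.h j ^ (1 + 9 / 5 * X.c))

theorem jumpStmt (E : Type*) [NormedAddCommGroup E] [InnerProductSpace ℝ E]
    [FiniteDimensional ℝ E] [MeasurableSpace E] [BorelSpace E] (m n Q : ℕ)
    {k k' K : ℝ → ℝ} {B : ℝ} (hk : INST.Ker k k' K B) (hR : RefsStmt E m n Q)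
    (hC : CylStmt E m n Q) : JumpStmt E m n Q k K := by
  have hP : SwPairStmt E m n Q := swPairStmt hC
  obtain ⟨C₁, hC₁, H₁⟩ := jumpH hP hk
  obtain ⟨C₂, hC₂, H₂⟩ := jumpA E m n Q hk.kb.kern hP
  have H₃ := ev_tube hk.kb.kern (zero_le_one.trans hk.kb.one) hk.up hk.upK hR hC
  refine ⟨C₁ + C₂ + 1, by positivity, ?_⟩
  refine Ev.mono (((H₁.and H₂).and H₃).and
    (Ev.small (E := E) (m := m) (n := n) (Q := Q) one_pos))
    fun T F ν P X C ε τ S b A hctx hb hA h j => ?_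
  obtain ⟨⟨⟨h1, h2⟩, h3⟩, hε1⟩ := h
  have e1 := h1 j
  have e2 := h2 j
  obtain ⟨-, e3, e4⟩ := h3 j
  have hh := S.h_pos j
  have hh1 : S.h j ≤ 1 := (S.h_le j).trans hε1
  have hc := hctx.ok.c_le
  have hp : S.h j ^ (3 / 2 : ℝ) ≤ S.h j ^ (1 + 9 / 5 * X.c) :=
    Real.rpow_le_rpow_of_exponent_ge hh hh1 (by linarith)
  have hp0 : 0 < S.h j ^ (1 + 9 / 5 * X.c) := Real.rpow_pos_of_pos hh _
  have hT2 : 0 ≤ Tr S (j + 1) ^ 2 := sq_nonneg _
  have e3' := e3.trans (mul_le_mul_of_nonneg_left hp hT2)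
  have e4' := e4.trans (mul_le_mul_of_nonneg_left hp hT2)
  constructor
  · refine (abs_sub_le _ (INST.Hw m T ν k (tube S j) (wr S (j + 1)) (Tr S (j + 1))) _).trans ?_
    refine (add_le_add e3' e1).trans ?_
    have : 0 ≤ Tr S (j + 1) ^ 2 * (C₂ * S.h j ^ (1 + 9 / 5 * X.c)) := by positivity
    nlinarith
  · refine (abs_sub_le _ (INST.aw m Q T ν K (tube S j) (wr S (j + 1)) (Tr S (j + 1))) _).trans ?_
    refine (add_le_add e4' e2).trans ?_
    have : 0 ≤ Tr S (j + 1) ^ 2 * (C₁ * S.h j ^ (1 + 9 / 5 * X.c)) := by positivity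
    nlinarith

end Vale.Agent.P214.BINST
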