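import Vale.Agent.P214.BINST.SwMain
import Vale.Agent.P214.BINST.JumpMain

/-!
# P214, target B, block BINST: the switches, final form (helper874)
-/

namespace Vale.Agent.P214.BINST

open WIN FM INST

variable {m n Q : ℕ} {E : Type*} [NormedAddCommGroup E] [InnerProductSpace ℝ E]
  [FiniteDimensional ℝ E] [MeasurableSpace E] [BorelSpace E]

/-- **[B-SWITCH]**, from the references and the cylindrical facts -/
theorem switchStmt {k k' K : ℝ → ℝ} {B : ℝ} (hk : Ker k k' K B) (hR : RefsStmt E m n Q)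
    (hC : CylStmt E m n Q) (hSoft : SoftStmt E m n Q k K) : SwitchStmt E m n Q k K := by
  obtain ⟨C', -, hJ⟩ := jumpStmt E m n Q hk hR hC
  exact switchStmt_of hk hR hSoft hJ

/-- the numerical data of the switches, as a statement about the chain -/
theorem ev_swB' {k k' K : ℝ → ℝ} {B : ℝ} (hk : Ker k k' K B) (hR : RefsStmt E m n Q)
    (hC : CylStmt E m n Q) (hSoft : SoftStmt E m n Q k K) :
    ∃ C₁ : ℝ, 1 ≤ C₁ ∧ Ev E m n Q fun _ _ _ P X _ _ S b A =>
      ∀ (k₀ : ℕ) (e : ℕ → ℝ), Fat S k₀ →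
        SwB (chain k K b A e P S k₀) (fun i => S.r (k₀ + i)) (fun i => S.h (k₀ + i)) (cSw m)
          X.c X.c₅ X.e' X.β C₁ := by
  obtain ⟨C', -, hJ⟩ := jumpStmt E m n Q hk hR hC
  exact ev_swB hk hR hSoft hJ

end Vale.Agent.P214.BINST
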