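import Vale.Agent.P214.BINST.Asm
import Vale.Agent.P214.BINST.Refs
import Vale.Agent.P214.BINST.Cyl
import Vale.Agent.P214.BINST.Soft
import Vale.Agent.P214.BINST.PowLim
import Vale.Agent.P214.BINST.Dich
import Vale.Agent.P214.BINST.OdeWin
import Vale.Agent.P214.BINST.Fat
import Vale.Agent.P214.BINST.SwFin

/-!
# P214, target B, block BINST: the chain of a point with power decay is good
-/

namespace Vale.Agent.P214.BINST

open INST

variable {m n Q : ℕ} {E : Type*} [NormedAddCommGroup E] [InnerProductSpace ℝ E]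
  [FiniteDimensional ℝ E] [MeasurableSpace E] [BorelSpace E]

/-- **[B-GOOD]**, from the curved rate lemma -/
theorem goodStmt_of {k k' K : ℝ → ℝ} {B : ℝ} (hRC : LOCF.RateCurved E m Q) (hk : Ker k k' K B) :
    GoodStmt E m n Q k K := by
  have hR : RefsStmt E m n Q := refsStmt E m n Q
  have hC : CylStmt E m n Q := cylStmt hR
  have hS : SoftStmt E m n Q k K := softStmt E m n Q hk hR hC
  exact good_of_stmts (fatStmt E m n Q) (odeStmt hRC hk hR hC (dichStmt hk hR hS) hS)
    (powerStmt E m n Q hk hR) (limStmt E m n Q hk hR) hS (switchStmt hk hR hC hS)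

end Vale.Agent.P214.BINST
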