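import Vale.Agent.P214.BINST.Good
import Vale.Agent.P214.LOCF.Main
import Vale.Agent.P214.PATHG.Main

/-!
# P214, target B, block BINST: the chain of a point with power decay is good, unconditionally
-/

namespace Vale.Agent.P214.BINST

open INST

/-- **[B-GOOD]** -/
theorem goodStmt {m : ℕ} (E : Type*) [NormedAddCommGroup E] [InnerProductSpace ℝ E]
    [FiniteDimensional ℝ E] [MeasurableSpace E] [BorelSpace E] (n Q : ℕ) (hm : 1 ≤ m)
    {k k' K : ℝ → ℝ} {B : ℝ} (hk : Ker k k' K B) : GoodStmt E m n Q k K :=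
  goodStmt_of (LOCF.rateCurved E hm (PATHG.rateFlat E hm)) hk

end Vale.Agent.P214.BINST
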