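import Vale.Agent.P214.RC2X.Fine

/-!
# P214, block BINST: the input `RC2X.Inp` at one scale from coarse bounds

No sequence of windows here: one reference `w`, one scale `t`, a centre `z ∈ T`.
-/

open Set Filter Topology MeasureTheory Metric
open scoped RealInnerProductSpace ContDiff

set_option linter.all false

namespace Vale.Agent.P214.BINST

open FM FV ODE

variable {E : Type*} [NormedAddCommGroup E] [InnerProductSpace ℝ E] [FiniteDimensional ℝ E]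
  [MeasurableSpace E] [BorelSpace E]
variable {m Q : ℕ} {T : Submodule ℝ E} {w : E → E} {ε κ h₁ : ℝ} {z : E} {t d S h δ δ₀ h' : ℝ}
  {k : ℝ → ℝ} {G : Set E} {ν : Measure E} {P : E → E →L[ℝ] E}

/-- coarse data at the scale `t`: `δ₀` is the final smallness -/
structure Crs (m Q : ℕ) (T : Submodule ℝ E) (w : E → E) (z : E) (t h δ₀ : ℝ) (ν : Measure E)
    (P : E → E →L[ℝ] E) : Prop where
  pos : 0 < t
  int : Skel.IntCyl m Q T z (4 * t) h δ₀ ν P
  exc : Skel.exc T ν P z (4 * t) ≤ δ₀ * t ^ m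
  ht : ∀ᵐ y ∂ν, T.starProjection y ∈ ball z (4 * t) → ‖co T y‖ ≤ δ₀ / 2 * t
  ref : ∀ y, T.starProjection y ∈ ball z (4 * t) → ‖w y‖ ≤ δ₀ / 2 * t

/-- the configuration at the scale `t` -/
theorem Crs.conf (C : Crs m Q T w z t h δ₀ ν P) (H : Adm T w ε κ h₁) (hε : ε ≤ δ₀)
    (hκ : κ * t ≤ δ₀) : LOCF.Conf m Q T w ε κ h₁ z t h δ₀ ν P := by
  refine ⟨H, C.pos, C.int, C.exc, hε, hκ, ?_⟩
  filter_upwards [C.ht] with y hy hyb
  calc ‖co T y - w y‖ ≤ ‖co T y‖ + ‖w y‖ := norm_sub_le _ _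
    _ ≤ δ₀ / 2 * t + δ₀ / 2 * t := add_le_add (hy hyb) (C.ref y hyb)
    _ = δ₀ * t := by ring

/-- the slab in Fermi coordinates -/
theorem Crs.slabF (C : Crs m Q T w z t h δ₀ ν P) (H : Adm T w ε κ h₁) (hδ₀ : δ₀ ≤ 1)
    (hh : h₁ ≤ 8 * t) :
    ∀ᵐ Y ∂(fmeas T w h₁ ν), aX T w z Y < (2 * t) ^ 2 → ‖co T Y‖ ≤ t := by
  have ht := C.pos
  filter_upwards [H.ae_fmeas C.ht] with Y hY h5
  have h6 : ‖bx T z Y‖ < 2 * t := RC2X.lt_of_aX (w := w) (by positivity) h5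
  rw [bx_eq, Submodule.starProjection_eq_self_iff.2 C.int.mem] at h6
  have h7 := H.ref.norm_star_Psi_sub_le H.hpos Y
  have h8 : 2 * ε * h₁ ≤ t := by
    have h9 := H.eps_le
    have h10 := H.ref.eps_nonneg
    have h11 := H.hpos
    nlinarith
  have h9 : T.starProjection (Psi T w h₁ Y) ∈ ball z (4 * t) := by
    rw [mem_ball, dist_eq_norm]
    have e : T.starProjection (Psi T w h₁ Y) - z = (T.starProjection Y - z) +
        (T.starProjection (Psi T w h₁ Y) - T.starProjection Y) := by abel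
    rw [e]
    have := norm_add_le (T.starProjection Y - z)
      (T.starProjection (Psi T w h₁ Y) - T.starProjection Y)
    linarith
  have h10 := hY h9
  rw [H.ref.co_Psi] at h10
  have h11 : ‖w Y‖ ≤ δ₀ / 2 * t := by
    refine C.ref Y ?_
    rw [mem_ball, dist_eq_norm]
    linarith
  have h12 : ‖co T Y‖ ≤ ‖co T Y + w Y‖ + ‖w Y‖ := by
    calc ‖co T Y‖ = ‖(co T Y + w Y) - w Y‖ := by congr 1; abel
      _ ≤ _ := norm_sub_le _ _
  nlinarith

/-- **the input of the one-scale lemmas** -/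
theorem Crs.inp (C : Crs m Q T w z t h δ₀ ν P) (H : Adm T w ε κ h₁)
    (hC : CylF m T w h₁ G h' (fmeas T w h₁ ν) (fP T w h₁ P)) (hG : BallIn T G z ((1 + 2 * d) * t))
    (hmin : MinimalOver T w G) (hδ₀ : δ₀ ≤ 1) (hh : h₁ ≤ 8 * t) (hε : ε ≤ δ₀) (hκ : κ * t ≤ δ₀)
    (hd : 0 < d) (hd2 : d ≤ 1 / 2) (hS : 0 < S)
    (hH : HF m T w z k (fmeas T w h₁ ν) ((1 + 2 * d) * t) ≤ S * t ^ 2)
    (ht : S ^ (1 / 4 : ℝ) * t ≤ h₁) :
    RC2X.Inp m Q T w ε κ h₁ z t d S k h δ₀ G h' ν P :=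
  ⟨C.conf H hε hκ, hC, hG, hmin, C.slabF H hδ₀ hh, hκ.trans hδ₀, hS, hd, hd2, hH, ht⟩

/-- bound of the reference over a ball from the value and the slope at the centre -/
lemma norm_ref_le (hw : Ref T w ε κ) {a p R : ℝ} (hz : z ∈ T) (h0 : ‖w z‖ ≤ a)
    (h1 : ‖fderiv ℝ w z‖ ≤ p) (y : E) (hy : T.starProjection y ∈ ball z R) :
    ‖w y‖ ≤ a + (p + κ * R) * R := by
  rw [mem_ball, dist_eq_norm] at hy
  have hR : 0 ≤ R := (norm_nonneg _).trans hy.le
  have hκ := hw.knn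
  have hy' : ‖T.starProjection y - z‖ < R := hy
  -- slope on the segment
  have h2 : ∀ x ∈ ball z R, ‖fderiv ℝ w x‖ ≤ p + κ * R := by
    intro x hx
    rw [mem_ball, dist_eq_norm] at hx
    have h3 : ‖fderiv ℝ w x - fderiv ℝ w z‖ ≤ κ * ‖x - z‖ := by
      exact (convex_univ (𝕜 := ℝ) (E := E)).norm_image_sub_le_of_norm_hasFDerivWithin_le
        (fun x _ => (hw.diff1 x).hasFDerivAt.hasFDerivWithinAt) (fun x _ => hw.norm_D2_le x)
        (mem_univ _) (mem_univ _)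
    have h4 : ‖fderiv ℝ w x‖ ≤ ‖fderiv ℝ w z‖ + ‖fderiv ℝ w x - fderiv ℝ w z‖ := by
      calc ‖fderiv ℝ w x‖ = ‖fderiv ℝ w z + (fderiv ℝ w x - fderiv ℝ w z)‖ := by congr 1; abel
        _ ≤ _ := norm_add_le _ _
    have h5 : κ * ‖x - z‖ ≤ κ * R := by gcongr
    linarith
  have h6 : w y = w (T.starProjection y) := (hw.base y).symm
  rw [h6]
  have h7 : ‖w (T.starProjection y) - w z‖ ≤ (p + κ * R) * ‖T.starProjection y - z‖ := by
    refine (convex_ball z R).norm_image_sub_le_of_norm_hasFDerivWithin_le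
      (fun x _ => (hw.diff x).hasFDerivAt.hasFDerivWithinAt) h2 ?_ ?_
    · exact mem_ball_self ((norm_nonneg _).trans_lt hy)
    · rw [mem_ball, dist_eq_norm]; exact hy
  have hp : 0 ≤ p := (norm_nonneg _).trans h1
  have h8 : ‖w (T.starProjection y)‖ ≤ ‖w z‖ + ‖w (T.starProjection y) - w z‖ := by
    calc ‖w (T.starProjection y)‖ = ‖w z + (w (T.starProjection y) - w z)‖ := by congr 1; abel
      _ ≤ _ := norm_add_le _ _
  have h9 : (p + κ * R) * ‖T.starProjection y - z‖ ≤ (p + κ * R) * R := by gcongr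
  linarith

end Vale.Agent.P214.BINST
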