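import Vale.Agent.P214.BINST.SwPair
import Vale.Agent.P214.INST.JumpA

/-!
# P214, block BINST (target B): the jumps of the height and of the area excess at the switch radii

Both references with the tube of window `j`.
-/

open Set Filter Topology MeasureTheory Metric
open scoped RealInnerProductSpace ContDiff

set_option linter.all false

namespace Vale.Agent.P214.BINST

open WIN FM INST CMP
open WSEQ (th)
open BSEQ (Exps WSeq LocB)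

noncomputable section

/-! ### numbers -/

section arith

variable {m n Q : ℕ} {h h' τ c c₅ e e' r t N W V : ℝ}

/-- the jump of the area excess -/
lemma jumpA_arith (hh : 0 < h) (h1 : h ≤ 1) (hh' : 0 < h') (hh1 : h' ≤ 1)
    (hle : h' ≤ h ^ (1 - e')) (hc : 0 < c) (hc1 : c ≤ 1 / 100) (he : 0 < e) (hec : e ≤ c / 100)
    (he0' : 0 ≤ e') (he' : e' ≤ c / 8) (ht : 0 < t) (hr : 0 < r) (hrt : r ≤ 2 * t)
    (hN : N = Q * Skel.om m + 1) (hW : W = r ^ m * h' ^ (1 / 2 - e))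
    (hcase : (τ = 4 * (n + 1) * h ^ (1 / 2 + 2 * c) ∧ V ≤ 3 * (r ^ (m + 1) * √(N * h'))) ∨
      (h' < h ^ 4 ∧ τ = 4 * (n + 1) * h' ^ (1 / 2 - e) ∧
        V ≤ r ^ (m + 1) * √(N * h') + t / 2 * (N * (2 * t) ^ m))) :
    τ * ((t ^ m)⁻¹ * W + (t ^ (m + 1))⁻¹ * V + Q * τ) ≤ cJ m n Q * h ^ (1 + 9 / 5 * c) := by
  rcases hcase with ⟨hτ, hV⟩ | hb
  swap
  · have hle2 : h' ≤ h := by
      have h3 : h ^ 4 ≤ h := pow_le_of_le_one hh.le h1 (by norm_num)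
      exact hb.1.le.trans h3
    exact jump_arith (n := n) (Q := Q) (m := m) hh h1 hh' hle2 hc hc1 he hec ht hr hrt hN hW
      (Or.inr hb)
  have hom : 0 ≤ Skel.om m := ENNReal.toReal_nonneg
  have hN1 : 1 ≤ N := by rw [hN]; have : (0:ℝ) ≤ Q * Skel.om m := by positivity
                         linarith
  set p : ℝ := 1 / 2 - e - e' / 2 with hp
  have hpw : h' ^ (1 / 2 - e) ≤ h ^ p := by
    calc h' ^ (1 / 2 - e) ≤ (h ^ (1 - e')) ^ (1 / 2 - e) :=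
          Real.rpow_le_rpow hh'.le hle (by linarith)
      _ = h ^ ((1 - e') * (1 / 2 - e)) := by rw [← Real.rpow_mul hh.le]
      _ ≤ h ^ p := Real.rpow_le_rpow_of_exponent_ge hh h1 (by rw [hp]; nlinarith)
  have hsq : √(N * h') ≤ N * h' ^ (1 / 2 - e) := by
    rw [Real.sqrt_mul (by linarith)]
    have a1 : √N ≤ N := by
      rw [Real.sqrt_le_left (by linarith)]
      nlinarith
    have a2 : √h' ≤ h' ^ (1 / 2 - e) := by
      rw [Real.sqrt_eq_rpow]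
      exact Real.rpow_le_rpow_of_exponent_ge hh' hh1 (by linarith)
    gcongr
  have hW1 : (t ^ m)⁻¹ * W ≤ 2 ^ m * h' ^ (1 / 2 - e) := by
    rw [hW]
    have : r ^ m ≤ (2 * t) ^ m := by gcongr
    calc (t ^ m)⁻¹ * (r ^ m * h' ^ (1 / 2 - e)) ≤ (t ^ m)⁻¹ * ((2 * t) ^ m * h' ^ (1 / 2 - e)) := by
          gcongr
      _ = _ := by rw [mul_pow]; field_simp
  have hr1 : (t ^ (m + 1))⁻¹ * r ^ (m + 1) ≤ 2 ^ (m + 1) := by
    have : r ^ (m + 1) ≤ (2 * t) ^ (m + 1) := by gcongr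
    calc (t ^ (m + 1))⁻¹ * r ^ (m + 1) ≤ (t ^ (m + 1))⁻¹ * (2 * t) ^ (m + 1) := by gcongr
      _ = _ := by rw [mul_pow]; field_simp
  have hti : 0 < (t ^ (m + 1))⁻¹ := by positivity
  have hp0 : 0 ≤ h' ^ (1 / 2 - e) := Real.rpow_nonneg hh'.le _
  have hp1 : 0 ≤ h ^ p := Real.rpow_nonneg hh.le _
  have hV0 : (t ^ (m + 1))⁻¹ * (r ^ (m + 1) * √(N * h')) ≤
      2 ^ (m + 1) * (N * h' ^ (1 / 2 - e)) := by
    calc (t ^ (m + 1))⁻¹ * (r ^ (m + 1) * √(N * h')) =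
          ((t ^ (m + 1))⁻¹ * r ^ (m + 1)) * √(N * h') := by ring
      _ ≤ 2 ^ (m + 1) * (N * h' ^ (1 / 2 - e)) := by gcongr
  set D : ℝ := 2 ^ m + 3 * 2 ^ (m + 1) * N + 4 * (n + 1) * Q with hD
  have hD0 : 0 ≤ D := by positivity
  have hcJ : cJ m n Q = 4 * (n + 1) * D := by
    unfold cJ; rw [hD, hN]
  have hτ0 : 0 ≤ τ := by rw [hτ]; positivity
  have b1 : (t ^ (m + 1))⁻¹ * V ≤ 3 * (2 ^ (m + 1) * (N * h' ^ (1 / 2 - e))) := by
    calc _ ≤ (t ^ (m + 1))⁻¹ * (3 * (r ^ (m + 1) * √(N * h'))) := by gcongr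
      _ = 3 * ((t ^ (m + 1))⁻¹ * (r ^ (m + 1) * √(N * h'))) := by ring
      _ ≤ _ := by gcongr
  have b2 : τ ≤ 4 * (n + 1) * h ^ p := by
    rw [hτ]
    gcongr 4 * (n + 1) * ?_
    exact Real.rpow_le_rpow_of_exponent_ge hh h1 (by rw [hp]; linarith)
  have b3 : (t ^ m)⁻¹ * W + (t ^ (m + 1))⁻¹ * V + Q * τ ≤ D * h ^ p := by
    have c1 : (2:ℝ) ^ m * h' ^ (1 / 2 - e) ≤ 2 ^ m * h ^ p := by gcongr
    have c2 : 3 * (2 ^ (m + 1) * (N * h' ^ (1 / 2 - e))) ≤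
        3 * (2 ^ (m + 1) * (N * h ^ p)) := by gcongr
    have c3 : (Q:ℝ) * τ ≤ Q * (4 * (n + 1) * h ^ p) := by gcongr
    calc _ ≤ 2 ^ m * h ^ p + 3 * (2 ^ (m + 1) * (N * h ^ p)) +
          Q * (4 * (n + 1) * h ^ p) := by linarith
      _ = _ := by rw [hD]; ring
  calc _ ≤ τ * (D * h ^ p) := by gcongr
    _ = 4 * (n + 1) * D * (h ^ (1 / 2 + 2 * c) * h ^ p) := by rw [hτ]; ring
    _ = 4 * (n + 1) * D * h ^ ((1 / 2 + 2 * c) + p) := by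
        rw [Real.rpow_add hh (1 / 2 + 2 * c) p]
    _ ≤ 4 * (n + 1) * D * h ^ (1 + 9 / 5 * c) := by
      gcongr 4 * (n + 1) * D * ?_
      exact Real.rpow_le_rpow_of_exponent_ge hh h1 (by rw [hp]; linarith)
    _ = _ := by rw [hcJ]

/-- the constant of the jump of the height -/
noncomputable def cHJ (m n : ℕ) (N : ℝ) : ℝ :=
  4 * (n + 1) * (32 * 2 ^ m + 576 * (2 ^ m * N)) +
    4 * (n + 1) * (32 * 2 ^ m + 24) * (1 + 2 ^ m * N) + (4 * (n + 1)) ^ 2 * (2 ^ m * N) +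
    12 * (4 * (n + 1)) * (32 * 2 ^ m + 576 * (2 ^ m * N)) +
    4 * N * (144 * (4 * (n + 1)) + 1728)

lemma hb4 (hh : 0 < h) (hh' : 0 < h') (he : 0 < e) (hec : e ≤ 1 / 1000) (h4 : h' < h ^ 4) :
    h' ^ (1 / 2 - e) ≤ h ^ (2 - 4 * e) := by
  calc h' ^ (1 / 2 - e) ≤ (h ^ 4) ^ (1 / 2 - e) :=
        Real.rpow_le_rpow hh'.le h4.le (by linarith)
    _ = h ^ (2 - 4 * e) := by
        rw [show h ^ 4 = h ^ (4:ℝ) by norm_cast, ← Real.rpow_mul hh.le]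
        ring_nf

/-- size of the closeness -/
lemma tau_arith {K₁ : ℝ} (hK : 1 ≤ K₁) (hh : 0 < h) (h1 : h ≤ 1) (hh' : 0 < h') (hc : 0 < c)
    (hc1 : c ≤ 1 / 100) (he : 0 < e) (hec : e ≤ 1 / 1000)
    (hcase : τ = K₁ * h ^ (1 / 2 + 2 * c) ∨ (h' < h ^ 4 ∧ τ = K₁ * h' ^ (1 / 2 - e))) :
    0 ≤ τ ∧ τ ≤ K₁ * h ^ (1 / 2 + 2 * c) ∧ √τ ≤ K₁ * h ^ (1 / 4 + c) := by
  have p0 : ∀ a : ℝ, 0 ≤ h ^ a := fun a => Real.rpow_nonneg hh.le a
  have hτ0 : 0 ≤ τ := by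
    rcases hcase with hτ | ⟨-, hτ⟩
    · rw [hτ]; have := p0 (1 / 2 + 2 * c); positivity
    · rw [hτ]; have := Real.rpow_nonneg hh'.le (1 / 2 - e); positivity
  have hτ1 : τ ≤ K₁ * h ^ (1 / 2 + 2 * c) := by
    rcases hcase with hτ | ⟨h4, hτ⟩
    · exact hτ.le
    · rw [hτ]
      gcongr
      exact (hb4 hh hh' he hec h4).trans
        (Real.rpow_le_rpow_of_exponent_ge hh h1 (by linarith))
  refine ⟨hτ0, hτ1, ?_⟩
  rw [Real.sqrt_le_left (by have := p0 (1 / 4 + c); positivity)]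
  refine hτ1.trans ?_
  have e1 : (K₁ * h ^ (1 / 4 + c)) ^ 2 = K₁ * (K₁ * h ^ (1 / 2 + 2 * c)) := by
    rw [mul_pow, ← Real.rpow_natCast (h ^ (1 / 4 + c)), ← Real.rpow_mul hh.le]
    have : (1 / 4 + c) * ((2:ℕ):ℝ) = 1 / 2 + 2 * c := by push_cast; ring
    rw [this]; ring
  rw [e1]
  have := p0 (1 / 2 + 2 * c)
  have h3 : 0 ≤ K₁ * h ^ (1 / 2 + 2 * c) := by positivity
  exact le_mul_of_one_le_left h3 hK

/-- square of the relative slab -/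
lemma x_arith {x : ℝ} (hh : 0 < h) (hx0 : 0 ≤ x) (hx : x ≤ 12 * h ^ (2 / 5 - c₅)) :
    x ^ 2 ≤ 144 * h ^ (4 / 5 - 2 * c₅) := by
  calc x ^ 2 ≤ (12 * h ^ (2 / 5 - c₅)) ^ 2 := by gcongr
    _ = 144 * h ^ (4 / 5 - 2 * c₅) := by
      rw [mul_pow, ← Real.rpow_natCast (h ^ (2 / 5 - c₅)), ← Real.rpow_mul hh.le]
      have : (2 / 5 - c₅) * ((2:ℕ):ℝ) = 4 / 5 - 2 * c₅ := by push_cast; ring
      rw [this]; norm_num

lemma sqrt_mul_arith {M y : ℝ} (hM0 : 0 ≤ M) (hy : 0 ≤ y) : √(M * y) ≤ (1 + M) * √y := by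
  rw [Real.sqrt_mul hM0]
  gcongr
  rw [Real.sqrt_le_left (by linarith)]
  nlinarith

/-- the mixed term, first case -/
lemma mix_arith {K₁ M H₁ : ℝ} (hK : 1 ≤ K₁) (hM0 : 0 ≤ M) (hh : 0 < h) (h1 : h ≤ 1)
    (hle : h' ≤ h ^ (1 - e')) (hc : 0 < c) (he' : e' ≤ c / 8) (hH0 : 0 ≤ H₁)
    (hτ : τ = K₁ * h ^ (1 / 2 + 2 * c)) (hH : H₁ ≤ 8 * 2 ^ (m + 2) * h') :
    τ * √(M * H₁) ≤ K₁ * (32 * 2 ^ m) * (1 + M) * h ^ (1 + 9 / 5 * c) := by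
  have p0 : ∀ a : ℝ, 0 ≤ h ^ a := fun a => Real.rpow_nonneg hh.le a
  have h2m : (1:ℝ) ≤ 32 * 2 ^ m := by
    have : (1:ℝ) ≤ 2 ^ m := one_le_pow₀ (by norm_num)
    linarith
  have a1 : √(M * H₁) ≤ (1 + M) * (32 * 2 ^ m * h ^ (1 / 2 - e' / 2)) := by
    refine (sqrt_mul_arith hM0 hH0).trans ?_
    gcongr
    rw [Real.sqrt_le_left (by have := p0 (1 / 2 - e' / 2); positivity)]
    have e1 : (32 * 2 ^ m * h ^ (1 / 2 - e' / 2)) ^ 2 =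
        (32 * 2 ^ m) * ((32 * 2 ^ m) * h ^ (1 - e')) := by
      rw [mul_pow, ← Real.rpow_natCast (h ^ (1 / 2 - e' / 2)), ← Real.rpow_mul hh.le]
      have : (1 / 2 - e' / 2) * ((2:ℕ):ℝ) = 1 - e' := by push_cast; ring
      rw [this]; ring
    rw [e1]
    have h3 : H₁ ≤ 32 * 2 ^ m * h ^ (1 - e') := by
      calc H₁ ≤ 8 * 2 ^ (m + 2) * h ^ (1 - e') := hH.trans (by gcongr)
        _ = _ := by ring
    have h4 : 0 ≤ 32 * 2 ^ m * h ^ (1 - e') := by have := p0 (1 - e'); positivity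
    exact h3.trans (le_mul_of_one_le_left h4 h2m)
  have hτ0 : 0 ≤ τ := by rw [hτ]; have := p0 (1 / 2 + 2 * c); positivity
  calc τ * √(M * H₁) ≤ τ * ((1 + M) * (32 * 2 ^ m * h ^ (1 / 2 - e' / 2))) := by gcongr
    _ = K₁ * (32 * 2 ^ m) * (1 + M) * (h ^ (1 / 2 + 2 * c) * h ^ (1 / 2 - e' / 2)) := by
        rw [hτ]; ring
    _ ≤ _ := by
        gcongr
        rw [← Real.rpow_add hh]
        exact Real.rpow_le_rpow_of_exponent_ge hh h1 (by linarith)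

/-- the mixed term, second case -/
lemma mix_arith' {K₁ M H₁ x : ℝ} (hK : 1 ≤ K₁) (hM0 : 0 ≤ M) (hh : 0 < h) (h1 : h ≤ 1)
    (hh' : 0 < h') (hc : 0 < c) (hc1 : c ≤ 1 / 100) (he : 0 < e) (hec : e ≤ 1 / 1000)
    (h4 : h' < h ^ 4) (hτ : τ = K₁ * h' ^ (1 / 2 - e)) (hx2 : x ^ 2 ≤ 144)
    (hH : H₁ ≤ 4 * x ^ 2 * M) :
    τ * √(M * H₁) ≤ K₁ * 24 * (1 + M) * h ^ (1 + 9 / 5 * c) := by
  have a1 : √(M * H₁) ≤ 24 * (1 + M) := by
    rw [Real.sqrt_le_left (by positivity)]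
    have h5 : H₁ ≤ 576 * M := by
      calc H₁ ≤ 4 * 144 * M := hH.trans (by gcongr)
        _ = _ := by ring
    calc M * H₁ ≤ M * (576 * M) := by gcongr
      _ ≤ (24 * (1 + M)) ^ 2 := by nlinarith
  have z1 := hb4 hh hh' he hec h4
  have z2 : h ^ (2 - 4 * e) ≤ h ^ (1 + 9 / 5 * c) :=
    Real.rpow_le_rpow_of_exponent_ge hh h1 (by linarith)
  have z3 := Real.rpow_nonneg hh'.le (1 / 2 - e)
  calc τ * √(M * H₁) ≤ τ * (24 * (1 + M)) := by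
        have : 0 ≤ τ := by rw [hτ]; positivity
        gcongr
    _ = K₁ * 24 * (1 + M) * h' ^ (1 / 2 - e) := by rw [hτ]; ring
    _ ≤ _ := by gcongr; exact z1.trans z2

/-- sum of the terms, given the closeness and the heights -/
lemma sum_arith {K₁ M A B H₁ H₂ x : ℝ} (hK : 1 ≤ K₁) (hM0 : 0 ≤ M) (hA : 0 ≤ A)
    (hh : 0 < h) (h1 : h ≤ 1)
    (hc : 0 < c) (hc1 : c ≤ 1 / 100) (hc5 : 0 < c₅) (hc5' : c₅ ≤ 1 / 160) (hN : 0 ≤ N)
    (hx0 : 0 ≤ x) (hx : x ≤ 12 * h ^ (2 / 5 - c₅)) (hH0 : 0 ≤ H₁)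
    (hτ0 : 0 ≤ τ) (hτ1 : τ ≤ K₁ * h ^ (1 / 2 + 2 * c)) (hsτ : √τ ≤ K₁ * h ^ (1 / 4 + c))
    (hH1 : H₁ ≤ A * h ^ (4 / 5 - 2 * c₅)) (hH2 : H₂ ≤ 4 * x ^ 2 * (N * (√τ + x)))
    (hmix : τ * √(M * H₁) ≤ B * h ^ (1 + 9 / 5 * c)) :
    τ * (H₁ + √(M * H₁) + τ * M) + (12 * √τ * H₁ + H₂) ≤
      (K₁ * A + B + K₁ ^ 2 * M + 12 * K₁ * A + 4 * N * (144 * K₁ + 1728)) *
        h ^ (1 + 9 / 5 * c) := by
  set q : ℝ := h ^ (1 + 9 / 5 * c) with hq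
  have hq0 : 0 ≤ q := Real.rpow_nonneg hh.le _
  have pq : ∀ a b : ℝ, 1 + 9 / 5 * c ≤ a + b → h ^ a * h ^ b ≤ q := fun a b hab => by
    rw [← Real.rpow_add hh]; exact Real.rpow_le_rpow_of_exponent_ge hh h1 hab
  have p0 : ∀ a : ℝ, 0 ≤ h ^ a := fun a => Real.rpow_nonneg hh.le a
  have hx2 := x_arith hh hx0 hx
  have P1 : τ * H₁ ≤ K₁ * A * q := by
    calc τ * H₁ ≤ (K₁ * h ^ (1 / 2 + 2 * c)) * (A * h ^ (4 / 5 - 2 * c₅)) := by
            have := p0 (1 / 2 + 2 * c)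
            gcongr
      _ = K₁ * A * (h ^ (1 / 2 + 2 * c) * h ^ (4 / 5 - 2 * c₅)) := by ring
      _ ≤ _ := by gcongr; exact pq _ _ (by linarith)
  have P3 : τ * (τ * M) ≤ K₁ ^ 2 * M * q := by
    calc τ * (τ * M) ≤ (K₁ * h ^ (1 / 2 + 2 * c)) * ((K₁ * h ^ (1 / 2 + 2 * c)) * M) := by
          have := p0 (1 / 2 + 2 * c)
          gcongr
      _ = K₁ ^ 2 * M * (h ^ (1 / 2 + 2 * c) * h ^ (1 / 2 + 2 * c)) := by ring
      _ ≤ _ := by gcongr; exact pq _ _ (by linarith)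
  have P4 : 12 * √τ * H₁ ≤ 12 * K₁ * A * q := by
    calc 12 * √τ * H₁ ≤ 12 * (K₁ * h ^ (1 / 4 + c)) * (A * h ^ (4 / 5 - 2 * c₅)) := by
            have := p0 (1 / 4 + c)
            gcongr
      _ = 12 * K₁ * A * (h ^ (1 / 4 + c) * h ^ (4 / 5 - 2 * c₅)) := by ring
      _ ≤ _ := by gcongr; exact pq _ _ (by linarith)
  have a1 : x ^ 2 * √τ ≤ 144 * K₁ * q := by
    calc x ^ 2 * √τ ≤ (144 * h ^ (4 / 5 - 2 * c₅)) * (K₁ * h ^ (1 / 4 + c)) := by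
          have := p0 (4 / 5 - 2 * c₅)
          gcongr
      _ = 144 * K₁ * (h ^ (4 / 5 - 2 * c₅) * h ^ (1 / 4 + c)) := by ring
      _ ≤ _ := by gcongr; exact pq _ _ (by linarith)
  have a2 : x ^ 2 * x ≤ 1728 * q := by
    calc x ^ 2 * x ≤ (144 * h ^ (4 / 5 - 2 * c₅)) * (12 * h ^ (2 / 5 - c₅)) := by
          have := p0 (4 / 5 - 2 * c₅)
          gcongr
      _ = 1728 * (h ^ (4 / 5 - 2 * c₅) * h ^ (2 / 5 - c₅)) := by ring
      _ ≤ _ := by gcongr; exact pq _ _ (by linarith)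
  have P5 : H₂ ≤ 4 * N * (144 * K₁ + 1728) * q := by
    calc H₂ ≤ 4 * N * (x ^ 2 * √τ + x ^ 2 * x) := hH2.trans (le_of_eq (by ring))
      _ ≤ 4 * N * (144 * K₁ * q + 1728 * q) := by gcongr
      _ = _ := by ring
  linarith

/-- the jump of the height -/
lemma jumpH_arith {H₁ H₂ x : ℝ} (hh : 0 < h) (h1 : h ≤ 1) (hh' : 0 < h')
    (hle : h' ≤ h ^ (1 - e')) (hc : 0 < c) (hc1 : c ≤ 1 / 100) (he : 0 < e) (hec : e ≤ 1 / 1000)
    (he' : e' ≤ c / 8) (hc5 : 0 < c₅) (hc5' : c₅ ≤ 1 / 160)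
    (hN : 0 ≤ N) (hx0 : 0 ≤ x) (hx : x ≤ 12 * h ^ (2 / 5 - c₅))
    (hH0 : 0 ≤ H₁) (hH2 : H₂ ≤ 4 * x ^ 2 * (N * (√τ + x)))
    (hcase : (τ = 4 * (n + 1) * h ^ (1 / 2 + 2 * c) ∧ H₁ ≤ 8 * 2 ^ (m + 2) * h') ∨
      (h' < h ^ 4 ∧ τ = 4 * (n + 1) * h' ^ (1 / 2 - e) ∧ H₁ ≤ 4 * x ^ 2 * (2 ^ m * N))) :
    τ * (H₁ + √(2 ^ m * N * H₁) + τ * (2 ^ m * N)) + (12 * √τ * H₁ + H₂) ≤
      cHJ m n N * h ^ (1 + 9 / 5 * c) := by
  have hn : (0:ℝ) ≤ n := Nat.cast_nonneg n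
  have hK : (1:ℝ) ≤ 4 * (n + 1) := by linarith
  have hM0 : 0 ≤ 2 ^ m * N := by positivity
  have p0 : ∀ a : ℝ, 0 ≤ h ^ a := fun a => Real.rpow_nonneg hh.le a
  have hx2 := x_arith hh hx0 hx
  obtain ⟨t0, t1, t2⟩ := tau_arith hK hh h1 hh' hc hc1 he hec (τ := τ) (by
    rcases hcase with ⟨a, -⟩ | ⟨a, b, -⟩
    · exact Or.inl a
    · exact Or.inr ⟨a, b⟩)
  have hH1 : H₁ ≤ (32 * 2 ^ m + 576 * (2 ^ m * N)) * h ^ (4 / 5 - 2 * c₅) := by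
    have z := p0 (4 / 5 - 2 * c₅)
    have z1 : 0 ≤ 576 * (2 ^ m * N) * h ^ (4 / 5 - 2 * c₅) := by positivity
    have z2 : 0 ≤ 32 * 2 ^ m * h ^ (4 / 5 - 2 * c₅) := by positivity
    rcases hcase with ⟨-, hH⟩ | ⟨-, -, hH⟩
    · have e1 : h' ≤ h ^ (4 / 5 - 2 * c₅) :=
        hle.trans (Real.rpow_le_rpow_of_exponent_ge hh h1 (by linarith))
      have e2 : 8 * 2 ^ (m + 2) * h' ≤ 32 * 2 ^ m * h ^ (4 / 5 - 2 * c₅) := by
        calc 8 * 2 ^ (m + 2) * h' ≤ 8 * 2 ^ (m + 2) * h ^ (4 / 5 - 2 * c₅) := by gcongr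
          _ = _ := by ring
      linarith
    · have e2 : 4 * x ^ 2 * (2 ^ m * N) ≤ 576 * (2 ^ m * N) * h ^ (4 / 5 - 2 * c₅) := by
        calc 4 * x ^ 2 * (2 ^ m * N) ≤ 4 * (144 * h ^ (4 / 5 - 2 * c₅)) * (2 ^ m * N) := by gcongr
          _ = _ := by ring
      linarith
  have hmix : τ * √(2 ^ m * N * H₁) ≤
      4 * (n + 1) * (32 * 2 ^ m + 24) * (1 + 2 ^ m * N) * h ^ (1 + 9 / 5 * c) := by
    have z := p0 (1 + 9 / 5 * c)
    rcases hcase with ⟨a, b⟩ | ⟨a, b, d⟩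
    · refine (mix_arith hK hM0 hh h1 hle hc he' hH0 a b).trans ?_
      gcongr
      linarith
    · refine (mix_arith' hK hM0 hh h1 hh' hc hc1 he hec a b (hx2.trans ?_) d).trans ?_
      · have z1 : h ^ (4 / 5 - 2 * c₅) ≤ 1 := Real.rpow_le_one hh.le h1 (by linarith)
        linarith
      · gcongr
        have : (0:ℝ) ≤ 32 * 2 ^ m := by positivity
        linarith
  refine (sum_arith hK hM0 (by positivity) hh h1 hc hc1 hc5 hc5' hN hx0 hx hH0 t0 t1 t2 hH1 hH2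
    hmix).trans (le_of_eq ?_)
  unfold cHJ
  ring

end arith

/-! ### data of a switch -/

variable {m n Q : ℕ} {E : Type*} [NormedAddCommGroup E] [InnerProductSpace ℝ E]
  [FiniteDimensional ℝ E] [MeasurableSpace E] [BorelSpace E]
variable {T : Submodule ℝ E} {F : Frame m n T} {ν : Measure E} {P : E → E →L[ℝ] E}
  {X : Exps} {C ε : ℝ}

/-- mass against the area of the reference of window `j`, over the next ball -/
lemma mass_wrB (S : WSeq m n Q T F ν X C ε) (j : ℕ) {ψ : E → ℝ} {M R : ℝ} (hψ : Continuous ψ)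
    (hb : ∀ y, ψ (T.starProjection y) = ψ y) (h0 : ∀ y, R ≤ ‖ODE.bx T 0 y‖ → ψ y = 0)
    (hR : R ≤ S.r (j + 1) * (1 - 5 * th (S.h (j + 1)))) (hM : ∀ y, |ψ y| ≤ M) :
    |∫ y, ψ y ∂ν - Q * ∫ x in (T : Set E), ψ x * areaEl (wr S j) x ∂μH[m]| ≤
      S.r (j + 1) ^ m * S.h (j + 1) ^ (1 / 2 - X.e) * M := by
  have hup : Continuous F.up := continuous_subtype_val.comp F.bT.repr.symm.continuous
  have h1 := (S.nxt (j + 1)).mass (fun x => ψ (F.up x)) M (hψ.comp hup) (fun x hx => by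
    refine h0 _ ?_
    rw [bx0, KMS.star_up, ← KMS.star_up, ← KMS.norm_xc F, KMS.xc_up]
    exact hR.trans hx) (fun x => hM _)
  have hu : ∀ a, ContDiff ℝ 2 (S.u (j + 1) a) := fun a =>
    ((S.refe (j + 1)).smooth a).of_le KMS.two_le_inf
  have e1 : ∀ y, ψ (F.up (F.xc y)) = ψ y := fun y => by rw [KMS.up_xc, hb]
  simp only [e1] at h1
  rw [COORD.setIntegral_up F]
  have e2 : ∀ x, ψ (F.up x) * areaEl (wr S j) (F.up x) =
      ψ (F.up x) * √(REF.gm (S.u (j + 1)) x).det := fun x => by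
    unfold wr
    rw [COORD.areaEl_lift F hu]
  simp only [e2]
  rw [COORD.hausdorff_eq, integral_smul_nnreal_measure] at h1
  exact h1

lemma continuous_wrB (S : WSeq m n Q T F ν X C ε) (j : ℕ) : Continuous (wr S j) :=
  (COORD.contDiff_lift F (k := ∞) (S.refe (j + 1)).smooth).continuous

/-- the measure data of the switch -/
lemma dat_wr {S : WSeq m n Q T F ν X C ε} {τ₀ : ℝ} (hc : Ctx P τ₀ S) (hε : ε < 1) (j : ℕ) :
    Dat m T (wr S j) (S.r (j + 1)) (Tr S (j + 1)) (Q * Skel.om m + 1) (S.h (j + 1)) ν := by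
  have hr := S.r_pos (j + 1)
  have hr1 := r_le S hε (j + 1)
  have hT1 := Tr_ge S (j + 1)
  have hT2 := Tr_le S hε (j + 1)
  have hom : 0 ≤ Skel.om m := ENNReal.toReal_nonneg
  have hI := hc.loc.int (3 / 8) (by norm_num) le_rfl
  refine ⟨hr, by linarith, hI.cyl.fin, by positivity, fun s hs hs2 => ?_, continuous_wrB S j,
    S1.integrableOn_cont hI.cyl (((FV.co T).continuous.sub (continuous_wrB S j)).norm.pow 2)
      (closedBall_subset_ball (by linarith)), ?_⟩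
  · have h1 := (abs_le.1 (hc.loc.int s hs (by linarith)).mass).2
    have h2 := hc.τ_le
    have h3 : 0 < s ^ m := by positivity
    have h4 : s ^ X.β ≤ 1 := Real.rpow_le_one hs.le (by linarith) hc.ok.β_pos.le
    have h5 : 0 ≤ s ^ X.β := Real.rpow_nonneg hs.le _
    have h6 := hc.τ_pos
    have h7 : τ₀ * s ^ X.β ≤ 1 * 1 := by gcongr; linarith
    have h8 : τ₀ * s ^ X.β * s ^ m ≤ 1 * 1 * s ^ m := by gcongr
    linarith
  · refine le_of_eq ?_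
    show hE T (wr S j) ν (S.r (j + 1)) = _
    rw [S.h_eq (j + 1)]
    unfold STR.hN wr
    field_simp

lemma vert_wrB {S : WSeq m n Q T F ν X C ε} {τ₀ : ℝ} (hc : Ctx P τ₀ S) (j : ℕ) {ρ : ℝ}
    (hρ : ρ ≤ 3 / 8) :
    ∃ B, ∀ᵐ y ∂ν, ‖ODE.bx T 0 y‖ < ρ → ‖FV.co T y - wr S j y‖ ≤ B := by
  have hI := hc.loc.int (3 / 8) (by norm_num) le_rfl
  obtain ⟨B, hB⟩ := (isCompact_closedBall (0:E) (3 / 8)).exists_bound_of_continuousOn
    (continuous_wrB S j).continuousOn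
  refine ⟨τ₀ * (3 / 8) * (3 / 8) ^ X.β + B, ?_⟩
  filter_upwards [hI.cyl.slab] with y hy h1
  rw [bx0] at h1
  have h2 : T.starProjection y ∈ ball (0:E) (3 / 8) := by
    rw [mem_ball_zero_iff]; linarith
  have h3 := hy h2
  have h4 := hB _ (ball_subset_closedBall h2)
  have h5 : wr S j (T.starProjection y) = wr S j y :=
    ((COORD.kms_ref_lift F (S.refe (j + 1)).smooth).base y).symm
  rw [h5] at h4
  rw [FV.co_apply]
  exact (norm_sub_le _ _).trans (add_le_add h3 h4)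

/-- the slab against the scale -/
lemma slab_scale (S : WSeq m n Q T F ν X C ε) (j : ℕ) :
    6 * (S.r j * S.h j ^ (2 / 5 : ℝ)) / Tr S (j + 1) ≤ 12 * S.h j ^ (2 / 5 - X.c₅) := by
  have h1 := Tr_ge S (j + 1)
  have h2 := Tr_pos S (j + 1)
  have h3 := r_succ_ge S j
  have h4 := S.h_pos j
  have h5 := S.r_pos j
  have h6 : 0 < S.h j ^ (2 / 5 - X.c₅) := Real.rpow_pos_of_pos h4 _
  rw [div_le_iff₀ h2]
  have e : S.h j ^ (2 / 5 : ℝ) = S.h j ^ X.c₅ * S.h j ^ (2 / 5 - X.c₅) := by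
    rw [← Real.rpow_add h4]; ring_nf
  have h7 : S.r (j + 1) ≤ 2 * Tr S (j + 1) := by linarith [S.r_pos (j + 1)]
  calc 6 * (S.r j * S.h j ^ (2 / 5 : ℝ)) =
        6 * ((S.r j * S.h j ^ X.c₅) * S.h j ^ (2 / 5 - X.c₅)) := by rw [e]; ring
    _ ≤ 6 * ((2 * Tr S (j + 1)) * S.h j ^ (2 / 5 - X.c₅)) :=
        mul_le_mul_of_nonneg_left (mul_le_mul_of_nonneg_right (h3.trans h7) h6.le) (by norm_num)
    _ = _ := by ring

/-- heights at the next radius -/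
private lemma h_succ_le_jp (S : WSeq m n Q T F ν X C ε) (hε : ε < 1) (j : ℕ) :
    S.h (j + 1) ≤ S.h j ^ (1 - X.e') := by
  rw [S.h_eq (j + 1)]
  refine (S.nxt j).top _ (S.nxt j).r_ge ?_
  have h1 := (S.nxt j).r_le
  have h2 := th_h_pos S hε j
  have h3 := S.r_pos j
  nlinarith

/-- **[B-JUMP-A]** -/
theorem jumpA (E : Type*) [NormedAddCommGroup E] [InnerProductSpace ℝ E] [FiniteDimensional ℝ E]
    [MeasurableSpace E] [BorelSpace E] (m n Q : ℕ) {k k' K : ℝ → ℝ} (hk : ODE.Kern k k' K)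
    (hp : SwPairStmt E m n Q) : ∃ C' : ℝ, 0 < C' ∧
      Ev E m n Q fun T _ ν _ X _ _ S _ _ => ∀ j,
        |aw m Q T ν K (tube S j) (wr S (j + 1)) (Tr S (j + 1)) -
            aw m Q T ν K (tube S j) (wr S j) (Tr S (j + 1))| ≤
          Tr S (j + 1) ^ 2 * (C' * S.h j ^ (1 + 9 / 5 * X.c)) := by
  obtain ⟨CA, hCA, hA⟩ := aF_sub E m hk
  refine ⟨CA * cJ m n Q + 1, by have := cJ_nn (m := m) (n := n) (Q := Q); positivity, ?_⟩
  intro X C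
  obtain ⟨b₀, hb₀, H₀⟩ := hp eps0 eps0_pos le_rfl X C
  refine ⟨b₀, hb₀, fun b hb hbb => ?_⟩
  obtain ⟨A₀, hA₀, H₁⟩ := H₀ b hb hbb
  refine ⟨A₀, hA₀, fun A hAA => ?_⟩
  obtain ⟨ε₀, hε₀, H₂⟩ := H₁ A hAA
  refine ⟨min ε₀ (1 / 2), by positivity, fun T F ν P ε τ₀ S hc hε j => ?_⟩
  obtain ⟨τ, hS, hmin, h12, htube, hcase⟩ := H₂ T F ν P ε τ₀ S hc (hε.trans (min_le_left _ _)) j
  have hε1 : ε < 1 := (hε.trans (min_le_right _ _)).trans_lt (by norm_num)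
  have D := dat_wr hc hε1 j
  have hr := S.r_pos (j + 1)
  have hh := S.h_pos j
  have hh' := S.h_pos (j + 1)
  have hh1 : S.h j < 1 := h_lt_one S hε1 j
  have hh1' : S.h (j + 1) < 1 := h_lt_one S hε1 (j + 1)
  have hsl : 0 ≤ S.r j * S.h j ^ (2 / 5 : ℝ) :=
    mul_nonneg (S.r_pos j).le (Real.rpow_nonneg hh.le _)
  have hth0 := th_h_pos S hε1 (j + 1)
  have hr1 := r_le S hε1 (j + 1)
  have ht := hS.pair.tpos
  have hτ0 := hS.pair.τnn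
  have hrad := hS.rad
  have hok := hc.ok
  have hm0 : (0:ℝ) ≤ m := Nat.cast_nonneg m
  have hc5 := BINST.c₅_le hok
  have hc50 := hok.c₅_pos
  have he'q := hok.e'_eq
  have hec : X.e ≤ X.c / 100 := by
    have h1 := hok.e_le
    have h2 := hok.β_le
    have h3 := hok.β_pos
    have h4 := hok.e'_le
    have h5 := hok.e_pos
    have h6 : 3 * X.c₅ ≤ X.c / 8 := by nlinarith
    nlinarith
  have hρr : S.r (j + 1) * (1 - 17 / 2 * th (S.h (j + 1))) ≤ S.r (j + 1) := by nlinarith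
  have hSF : SwF m T (wr S j) (wr S (j + 1)) eps0 (16 * S.r (j + 1))⁻¹ (tube S j) 0
      (S.r (j + 1) * (1 - 17 / 2 * th (S.h (j + 1)))) (Tr S (j + 1)) τ (Gr S j)
      (6 * (S.r j * S.h j ^ (2 / 5 : ℝ))) ν P :=
    { hS with
      hnn := by positivity
      h2 := by linarith
      h1 := by linarith
      vert := vert_wrB hc j (by
        have := mul_nonneg ht.le hτ0
        nlinarith) }
  have h1 := hA Q T _ _ _ _ _ _ _ _ _ _ _ ν P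
    (S.r (j + 1) ^ m * S.h (j + 1) ^ (1 / 2 - X.e)) hSF
    (fun y hy => hmin y (ball_subset_ball hrad hy)) (fun ψ M hψ hb h0 hM => by
      refine mass_wrB S j hψ hb h0 ?_ hM
      have := mul_nonneg ht.le hτ0
      nlinarith [mul_nonneg hr.le hth0.le])
  have h3 := jumpA_arith (n := n) (Q := Q) (m := m) (h := S.h j) (h' := S.h (j + 1)) (τ := τ)
    (c := X.c) (e := X.e) (e' := X.e') (r := S.r (j + 1)) (t := Tr S (j + 1))
    (N := Q * Skel.om m + 1) (W := S.r (j + 1) ^ m * S.h (j + 1) ^ (1 / 2 - X.e))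
    (V := hI T (wr S j) (tube S j) 0 ν (Tr S (j + 1)) τ) hh hh1.le hh' hh1'.le
    (h_succ_le_jp S hε1 j) hok.c_pos hok.c_le
    hok.e_pos hec (by rw [he'q]; have := hok.e_pos; positivity) hok.e'_le ht hr D.r_le rfl rfl (by
      rcases hcase with ⟨-, a, b⟩ | ⟨a, b⟩
      · exact Or.inl ⟨a, hI_in hS D hρr b⟩
      · exact Or.inr ⟨a, b, hI_gen hS D hρr (by linarith)⟩)
  unfold aw
  refine h1.trans ?_
  have h4 : 0 ≤ S.h j ^ (1 + 9 / 5 * X.c) := Real.rpow_nonneg hh.le _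
  have h5 : 0 ≤ Tr S (j + 1) ^ 2 := sq_nonneg _
  calc _ = Tr S (j + 1) ^ 2 * (CA * (τ * ((Tr S (j + 1) ^ m)⁻¹ *
        (S.r (j + 1) ^ m * S.h (j + 1) ^ (1 / 2 - X.e)) +
        (Tr S (j + 1) ^ (m + 1))⁻¹ * hI T (wr S j) (tube S j) 0 ν (Tr S (j + 1)) τ +
          Q * τ))) := by ring
    _ ≤ Tr S (j + 1) ^ 2 * (CA * (cJ m n Q * S.h j ^ (1 + 9 / 5 * X.c))) := by gcongr
    _ ≤ Tr S (j + 1) ^ 2 * ((CA * cJ m n Q + 1) * S.h j ^ (1 + 9 / 5 * X.c)) := by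
      gcongr ?_ * ?_
      linarith

/-- **[B-JUMP-H]** -/
theorem jumpH (hp : SwPairStmt E m n Q) {k k' K : ℝ → ℝ} {B : ℝ} (hk : Ker k k' K B) :
    ∃ C' : ℝ, 0 < C' ∧ Ev E m n Q fun T _ ν _ X _ _ S _ _ => ∀ j,
      |Hw m T ν k (tube S j) (wr S (j + 1)) (Tr S (j + 1)) -
          Hw m T ν k (tube S j) (wr S j) (Tr S (j + 1))| ≤
        Tr S (j + 1) ^ 2 * (C' * S.h j ^ (1 + 9 / 5 * X.c)) := by
  have hom : 0 ≤ Skel.om m := ENNReal.toReal_nonneg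
  have hB0 : 0 < B := zero_lt_one.trans_le hk.kb.one
  have hcH : 0 ≤ cHJ m n (Q * Skel.om m + 1) := by unfold cHJ; positivity
  refine ⟨435 * B * cHJ m n (Q * Skel.om m + 1) + 1, by positivity, ?_⟩
  intro X C
  obtain ⟨b₀, hb₀, H₀⟩ := hp eps0 eps0_pos le_rfl X C
  refine ⟨b₀, hb₀, fun b hb hbb => ?_⟩
  obtain ⟨A₀, hA₀, H₁⟩ := H₀ b hb hbb
  refine ⟨A₀, hA₀, fun A hAA => ?_⟩
  obtain ⟨ε₀, hε₀, H₂⟩ := H₁ A hAA
  refine ⟨min ε₀ (1 / 2), by positivity, fun T F ν P ε τ₀ S hctx hε j => ?_⟩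
  obtain ⟨τ, hS, hmin, h12, htube, hcase⟩ :=
    H₂ T F ν P ε τ₀ S hctx (hε.trans (min_le_left _ _)) j
  have hε1 : ε < 1 := (hε.trans (min_le_right _ _)).trans_lt (by norm_num)
  have D := dat_wr hctx hε1 j
  have h0 := S.h_pos j
  have h0' := S.h_pos (j + 1)
  have hh1 : S.h j < 1 := h_lt_one S hε1 j
  have hsl : 0 ≤ 6 * (S.r j * S.h j ^ (2 / 5 : ℝ)) := by
    have := (S.r_pos j).le
    have := Real.rpow_nonneg h0.le (2 / 5 : ℝ)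
    positivity
  have ht := hS.pair.tpos
  have hok := hctx.ok
  have hm0 : (0:ℝ) ≤ m := Nat.cast_nonneg m
  have hc5 := BINST.c₅_le hok
  have hc50 := hok.c₅_pos
  have hec : X.e ≤ 1 / 1000 := by
    have h1 := hok.e_le
    have h2 := hok.β_le
    have h3 := hok.β_pos
    nlinarith
  have h2σ : 2 * (6 * (S.r j * S.h j ^ (2 / 5 : ℝ))) ≤ Tr S (j + 1) := by linarith
  have hτpos : 0 < τ := by
    rcases hcase with ⟨-, a, -⟩ | ⟨-, a⟩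
    · rw [a]; have := Real.rpow_pos_of_pos h0 (1 / 2 + 2 * X.c); positivity
    · rw [a]; have := Real.rpow_pos_of_pos h0' (1 / 2 - X.e); positivity
  have hM := mass_Reg hS D h2σ
  have h1 := hS.HF_sub0 hk.kb.kern.pk (C := B) (fun s hs =>
    ⟨by rw [abs_of_nonneg (hk.kb.kern.nonneg s)]; exact hk.kb.kB s hs, hk.kb.k'B s hs⟩) hM
    zero_le_one le_rfl (fun Y _ => hS.pair.norm_A_le Y) (fun Y _ => hS.pair.symm.norm_A_le Y)
  have hH2 := hc_gen hS D hctx.m_pos hsl h2σ hτpos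
  have hH0 : 0 ≤ CMP.hh m T (wr S j) 0 (Tr S (j + 1)) τ (fmeas T (wr S j) (tube S j) ν) := by
    unfold CMP.hh
    have : 0 ≤ ∫ Y in Reg T (wr S j) 0 (Tr S (j + 1)) τ, ‖om T (wr S j) Y‖ ^ 2
      ∂(fmeas T (wr S j) (tube S j) ν) := integral_nonneg fun _ => sq_nonneg _
    positivity
  have hcase' : (τ = 4 * (n + 1) * S.h j ^ (1 / 2 + 2 * X.c) ∧
      CMP.hh m T (wr S j) 0 (Tr S (j + 1)) τ (fmeas T (wr S j) (tube S j) ν) ≤
        8 * 2 ^ (m + 2) * S.h (j + 1)) ∨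
      (S.h (j + 1) < S.h j ^ 4 ∧ τ = 4 * (n + 1) * S.h (j + 1) ^ (1 / 2 - X.e) ∧
        CMP.hh m T (wr S j) 0 (Tr S (j + 1)) τ (fmeas T (wr S j) (tube S j) ν) ≤
        4 * (6 * (S.r j * S.h j ^ (2 / 5 : ℝ)) / Tr S (j + 1)) ^ 2 *
          (2 ^ m * (Q * Skel.om m + 1))) := by
    rcases hcase with ⟨-, a, b⟩ | ⟨a, b⟩
    · exact Or.inl ⟨a, hh_in hS D b⟩
    · exact Or.inr ⟨a, b, hh_gen hS D hsl h2σ⟩
  have h3 := jumpH_arith (n := n) (m := m) (e' := X.e') (N := Q * Skel.om m + 1) h0 hh1.le h0'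
    (h_succ_le_jp S hε1 j) hok.c_pos hok.c_le hok.e_pos hec hok.e'_le hc50 hc5
    (by positivity) (by positivity) (slab_scale S j) hH0 hH2 hcase'
  have hV2 : 0 ≤ CMP.hc m T (wr S j) 0 (Tr S (j + 1)) τ (fmeas T (wr S j) (tube S j) ν) := by
    unfold CMP.hc
    have : 0 ≤ ∫ Y in Cor T 0 (Tr S (j + 1)) τ, ‖om T (wr S j) Y‖ ^ 2
      ∂(fmeas T (wr S j) (tube S j) ν) := integral_nonneg fun _ => sq_nonneg _
    positivity
  unfold INST.Hw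
  refine h1.trans ?_
  clear h1 hH2 hcase' hM hcase
  set V₁ := CMP.hh m T (wr S j) 0 (Tr S (j + 1)) τ (fmeas T (wr S j) (tube S j) ν)
  set V₂ := CMP.hc m T (wr S j) 0 (Tr S (j + 1)) τ (fmeas T (wr S j) (tube S j) ν)
  have h4 : 0 ≤ S.h j ^ (1 + 9 / 5 * X.c) := Real.rpow_nonneg h0.le _
  have h5 : 0 ≤ Tr S (j + 1) ^ 2 := sq_nonneg _
  have h6 : 0 ≤ 12 * √τ * V₁ + V₂ := by positivity
  set U := τ * (V₁ + √(2 ^ m * (Q * Skel.om m + 1) * V₁) + τ * (2 ^ m * (Q * Skel.om m + 1)))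
    with hU
  calc _ = Tr S (j + 1) ^ 2 * (435 * B * U + B * (12 * √τ * V₁ + V₂)) := by rw [hU]; ring
    _ ≤ Tr S (j + 1) ^ 2 * (435 * B * (U + (12 * √τ * V₁ + V₂))) := by
      gcongr
      have : 0 ≤ B * (12 * √τ * V₁ + V₂) := by positivity
      linarith
    _ ≤ Tr S (j + 1) ^ 2 * (435 * B * (cHJ m n (Q * Skel.om m + 1) *
        S.h j ^ (1 + 9 / 5 * X.c))) := by gcongr
    _ ≤ Tr S (j + 1) ^ 2 * ((435 * B * cHJ m n (Q * Skel.om m + 1) + 1) *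
        S.h j ^ (1 + 9 / 5 * X.c)) := by
      gcongr ?_ * ?_
      linarith

end

end Vale.Agent.P214.BINST
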