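import Vale.Agent.P214.BINST.Sw
import Vale.Agent.P214.BABS.Long

/-!
# P214, target B, block BINST (helper209): the windows are longer than any constant factor
-/

open Set Filter Topology

namespace Vale.Agent.P214.BINST

open ABS INST

noncomputable section

/-- arithmetic of a drop in a short window -/
theorem drop_arith {C Λ P c₀ θ H w Y Z R : ℝ} (hC : 0 < C) (hΛ : 0 < Λ) (hP : 0 < P) (hc₀ : 0 < c₀)
    (hθ : 0 < θ) (hH : 0 < H) (hw : w ≤ c₀ / (4 * C * Λ * P) * θ ^ 3)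
    (h1 : c₀ * θ ^ 3 * H ≤ Y) (h2 : Y ≤ Λ * R * Z) (hR : R ≤ P) (hZ0 : 0 < Z)
    (hZ : Z ≤ 2 * C * (H * w)) : False := by
  have e1 : Λ * R * Z ≤ Λ * P * (2 * C * (H * (c₀ / (4 * C * Λ * P) * θ ^ 3))) := by
    have f1 : Λ * R ≤ Λ * P := mul_le_mul_of_nonneg_left hR hΛ.le
    have f2 : Z ≤ 2 * C * (H * (c₀ / (4 * C * Λ * P) * θ ^ 3)) := by
      refine hZ.trans ?_
      exact mul_le_mul_of_nonneg_left (mul_le_mul_of_nonneg_left hw hH.le) (by positivity)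
    exact mul_le_mul f1 f2 hZ0.le (by positivity)
  have e2 : Λ * P * (2 * C * (H * (c₀ / (4 * C * Λ * P) * θ ^ 3))) = (c₀ * θ ^ 3 * H) / 2 := by
    field_simp
    ring
  have e3 : 0 < c₀ * θ ^ 3 * H := by positivity
  linarith

/-- arithmetic of the radii -/
theorem rad_arith {r₁ r₀ θ₀ y : ℝ} (hr₀ : 0 < r₀) (hθ : 0 < θ₀) (h1 : r₁ ≤ r₀ * (1 - 12 * θ₀))
    (h2 : y ≤ r₁ * (1 + 2 * θ₀)) : y ≤ r₀ * (1 - 10 * θ₀) := by
  have : 0 ≤ r₀ * θ₀ ^ 2 := by positivity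
  have h3 : r₁ * (1 + 2 * θ₀) ≤ r₀ * (1 - 12 * θ₀) * (1 + 2 * θ₀) :=
    mul_le_mul_of_nonneg_right h1 (by linarith)
  nlinarith

/-- **[LONG]**: `T k / T (k+1) → ∞`, from the numerical data `SwB` of the switches and doubling. -/
theorem long_of_swB {X : Chain} {r h : ℕ → ℝ} {c₀ c c₅ e' b C β K M₀ Λ : ℝ}
    (hS : SwB X r h c₀ c c₅ e' b C) (hc₀ : 0 < c₀) (hc : 0 < c) (hc₅ : 0 < c₅) (hC : 1 ≤ C)
    (hh : Tendsto h atTop (𝓝 0)) (hX : BABS.Good X β K) (hL : BABS.Limit X M₀ Λ) :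
    BABS.Long X := by
  intro A₀
  obtain ⟨A, hA, hA1⟩ : ∃ A, A₀ ≤ A ∧ 1 ≤ A := ⟨max A₀ 1, le_max_left _ _, le_max_right _ _⟩
  have hA0 : 0 < A := by linarith
  have hC0 : 0 < C := by linarith
  have hΛ : 1 ≤ Λ := hL.one_lt.le.trans hL.le
  have hΛ0 : 0 < Λ := by linarith
  obtain ⟨t₀, ht₀, hgrow⟩ := hL.grow
  have h8 : 0 < (8 * A) ^ Λ := by positivity
  have hη : 0 < c₀ / (4 * C * Λ * (8 * A) ^ Λ) := by positivity
  have hh' : Tendsto h atTop (𝓝[>] 0) :=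
    tendsto_nhdsWithin_iff.2 ⟨hh, Eventually.of_forall fun k => hS.h_pos k⟩
  have hev := ((tendsto_log_inv.eventually (eventually_ge_atTop 10000)).and
    (ev_small hc 3 hη)).and (ev_small hc₅ 0 (η := 1 / (2 * A)) (by positivity))
  obtain ⟨n, hn⟩ := eventually_atTop.1 ((hh'.eventually hev).and
    (hX.T_lim.eventually (gt_mem_nhds ht₀)))
  refine eventually_atTop.2 ⟨n + 1, fun k hk => ?_⟩
  obtain ⟨q, rfl⟩ : ∃ q, k = q + 1 := ⟨k - 1, by omega⟩
  obtain ⟨⟨⟨b1, -⟩, -⟩, bT⟩ := hn q (by omega)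
  obtain ⟨⟨⟨c1, c2⟩, c3⟩, -⟩ := hn (q + 1) (by omega)
  obtain ⟨⟨⟨d1, -⟩, -⟩, -⟩ := hn (q + 2) (by omega)
  have hθq := thI_le b1
  have hθq0 := thI_pos (h := h q) (by linarith)
  have hθ := thI_le c1
  have hθ0 := thI_pos (h := h (q + 1)) (by linarith)
  have hθ2 := thI_pos (h := h (q + 2)) (by linarith)
  have hr := hS.r_pos (q + 1)
  have hrq := hS.r_pos q
  have hr2 := hS.r_pos (q + 2)
  have hT1 : X.T (q + 1) = r (q + 1) * (1 - 10 * thI (h (q + 1))) := by rw [hS.T_eq]; rfl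
  have hTq : X.T q = r q * (1 - 10 * thI (h q)) := by rw [hS.T_eq]; rfl
  have hT2 : X.T (q + 2) = r (q + 2) * (1 - 10 * thI (h (q + 2))) := by rw [hS.T_eq]; rfl
  have hT1' : r (q + 1) / 2 ≤ X.T (q + 1) := by rw [hT1]; nlinarith
  have hTpos := hX.T_pos (q + 2)
  refine (mul_le_mul_of_nonneg_right hA hTpos.le).trans ?_
  rcases hS.step (q + 1) with hd | hl
  · -- drop
    by_contra hcon
    push Not at hcon
    have hhp := hS.h_pos (q + 1)
    have hup := hS.up (q + 1)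
    obtain ⟨y, hy1, hy2, -, hy4, -⟩ := hS.low q
    have hyT : y ≤ X.T q := by
      rw [hTq]
      exact rad_arith hrq hθq0 (hS.r_le q) hy2
    have hwq : X.Win q y := ⟨hy1, hyT⟩
    have hw2 : X.Win (q + 1) (X.T (q + 2)) := ⟨le_rfl, (hX.T_anti (by omega)).le⟩
    have hle : X.T (q + 2) ≤ y := ((hX.T_anti (by omega : q + 1 < q + 2)).le).trans hy1
    have hg := hgrow q y (q + 1) (X.T (q + 2)) hwq (hyT.trans bT.le) hw2 hle
    have hy0 : 0 < y := hTpos.trans_le hle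
    have hy8 : y / X.T (q + 2) ≤ 8 * A := by
      rw [div_le_iff₀ hTpos]
      have e1 : y ≤ 2 * r (q + 1) := by nlinarith
      have e2 : 0 < A * X.T (q + 2) := by positivity
      linarith
    have hpow : (y / X.T (q + 2)) ^ Λ ≤ (8 * A) ^ Λ :=
      Real.rpow_le_rpow (by positivity) hy8 hΛ0.le
    have hup' : X.h (q + 1) (X.T (q + 2)) ≤ 2 * C * (h (q + 1) * h (q + 1) ^ c) := by
      rw [show h (q + 1) * h (q + 1) ^ c = h (q + 1) ^ (1 + c) by
        rw [Real.rpow_add hhp, Real.rpow_one]]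
      calc X.h (q + 1) (X.T (q + 2)) ≤ C * (h (q + 2) + h (q + 1) ^ (1 + c)) := hup
        _ ≤ C * (h (q + 1) ^ (1 + c) + h (q + 1) ^ (1 + c)) :=
          mul_le_mul_of_nonneg_left (by linarith) hC0.le
        _ = _ := by ring
    have hpos2 : 0 < X.h (q + 1) (X.T (q + 2)) :=
      div_pos (hX.H_pos _ _ hw2) (by positivity)
    exact drop_arith hC0 hΛ0 h8 hc₀ hθ0 hhp c2 hy4 hg hpow hpos2 hup'
  · -- long window
    have e1 : X.T (q + 2) ≤ r (q + 2) := by rw [hT2]; nlinarith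
    have e2 : r (q + 2) ≤ r (q + 1) * (1 / (2 * A)) := by
      calc r (q + 2) = r (q + 1) * h (q + 1) ^ c₅ := hl
        _ ≤ r (q + 1) * (1 / (2 * A) * thI (h (q + 1)) ^ 0) :=
          mul_le_mul_of_nonneg_left c3 hr.le
        _ = _ := by rw [pow_zero, mul_one]
    calc A * X.T (q + 2) ≤ A * (r (q + 1) * (1 / (2 * A))) :=
          mul_le_mul_of_nonneg_left (e1.trans e2) hA0.le
      _ = r (q + 1) / 2 := by field_simp
      _ ≤ _ := hT1'

end

end Vale.Agent.P214.BINST
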