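import Vale.Agent.P214.BINST.OdeOne
import Vale.Agent.P214.BINST.RefB
import Vale.Agent.P214.BSEQ.Props

/-!
# P214, block BINST, [ODE]: the differential inequalities at one scale of one window

`ode_core`: `ode_one` with the input `RC2X.Inp` assembled from the local situation `LocB`, the
bounds of the reference at the scale `t`, `CylF` over the window and the output of the dichotomy.
-/

open Set Filter Topology MeasureTheory Metric
open scoped RealInnerProductSpace ContDiff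

set_option linter.all false

namespace Vale.Agent.P214.BINST

open FM FV ODE

variable {E : Type*} [NormedAddCommGroup E] [InnerProductSpace ℝ E] [FiniteDimensional ℝ E]
  [MeasurableSpace E] [BorelSpace E]

/-- the facts at one scale `t` of one window; `R` is the radius of the ball over which the Fermi
coordinates of the window are used, `κ` the curvature at the scale `t`, `δ` the smallness -/
structure OneW (m Q : ℕ) (T : Submodule ℝ E) (w : E → E) (η κ h₁ t δ R h' β τ : ℝ)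
    (ν : Measure E) (P : E → E →L[ℝ] E) : Prop where
  loc : BSEQ.LocB m Q T ν P β τ
  β_nn : 0 ≤ β
  τ_nn : 0 ≤ τ
  τ_le : 8 * 4 ^ m * τ ≤ δ
  η_le : η ≤ δ
  t_pos : 0 < t
  t_le : 4 * t ≤ 3 / 8
  κt : κ * t ≤ δ
  κt' : κ * t ≤ eps0
  tube_le : h₁ ≤ 8 * t
  slab_le : h' ≤ 1
  adm : Adm T w η κ h₁
  slp : ODEW.Slp T w 0 κ t
  val : ∀ y, T.starProjection y ∈ ball (0:E) (4 * t) → ‖w y‖ ≤ δ / 2 * t
  min : MinimalOver T w (ball (0:E) R)
  cyl : CylF m T w h₁ (ball (0:E) R) h' (fmeas T w h₁ ν) (fP T w h₁ P)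

/-- **The differential inequalities at one scale of one window.** -/
theorem ode_core {m Q : ℕ} (hRC : LOCF.RateCurved E m Q) {k k' K : ℝ → ℝ} {B : ℝ}
    (hk : ODEW.KB k k' K B) (hlow : RC2X.KerLow 1 k) (A p : ℕ) :
    ∃ C δ₀ S₀ : ℝ, 0 ≤ C ∧ 0 < δ₀ ∧ 0 < S₀ ∧ S₀ < 1 ∧ ∀ (T : Submodule ℝ E) (w : E → E)
      (η κ h₁ t δ R h' β τ : ℝ) (ν : Measure E) (P : E → E →L[ℝ] E) (d S s : ℝ),
      OneW m Q T w η κ h₁ t δ R h' β τ ν P → δ ≤ δ₀ → 0 < d → d ≤ 1 / 2 → 0 < S → S ≤ S₀ →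
      ((Real.log S⁻¹)⁻¹) ^ p ≤ d → (1 + 2 * d) * t < R →
      HF m T w 0 k (fmeas T w h₁ ν) ((1 + 2 * d) * t) ≤ S * t ^ 2 →
      S ^ (1 / 4 : ℝ) * t ≤ h₁ →
      ((Real.log S⁻¹)⁻¹) ^ A * S ≤ ((Real.log s⁻¹)⁻¹) ^ 3 * s →
      0 < HF m T w 0 k (fmeas T w h₁ ν) t →
      DifferentiableAt ℝ (HF m T w 0 k (fmeas T w h₁ ν)) t ∧
      DifferentiableAt ℝ (aF m Q T w 0 K (fmeas T w h₁ ν)) t ∧
      ABS.Ode (C * κ) (((Real.log s⁻¹)⁻¹) ^ 3 * s * t ^ 2) t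
        (HF m T w 0 k (fmeas T w h₁ ν) t) (jF m T w h₁ 0 K (fP T w h₁ P) (fmeas T w h₁ ν) t)
        (aF m Q T w 0 K (fmeas T w h₁ ν) t) (bF m T w h₁ 0 k (fP T w h₁ P) (fmeas T w h₁ ν) t)
        (deriv (HF m T w 0 k (fmeas T w h₁ ν)) t)
        (deriv (aF m Q T w 0 K (fmeas T w h₁ ν)) t) := by
  obtain ⟨C, δ₁, S₀, hC, hδ₁, hS₀, hS₀1, hode⟩ := ode_one hRC hk one_pos hlow A p
  refine ⟨C, min δ₁ 1, S₀, hC, lt_min hδ₁ one_pos, hS₀, hS₀1, ?_⟩
  intro T w η κ h₁ t δ R h' β τ ν P d S s W hδ hd hd2 hS hSS hdp hR hH htube hrate hpos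
  have hδ1 : δ ≤ δ₁ := hδ.trans (min_le_left _ _)
  have hδ2 : δ ≤ 1 := hδ.trans (min_le_right _ _)
  have hcrs := crs_of_locB W.loc W.β_nn W.τ_nn W.t_pos W.t_le W.τ_le W.val
  have hball : BallIn T (ball (0:E) R) 0 ((1 + 2 * d) * t) := fun x hx hx2 => by
    rw [mem_ball, dist_zero_right]
    rw [map_zero, sub_zero] at hx2
    exact lt_of_le_of_lt hx2 hR
  have hI := hcrs.inp (k := k) W.adm W.cyl hball W.min hδ2 W.tube_le W.η_le W.κt hd hd2 hS hH htube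
  have hI' : RC2X.Inp m Q T w η κ h₁ 0 t d S k (τ * (4 * t) * (4 * t) ^ β) δ₁ (ball (0:E) R) h'
      ν P := by
    have ht := hI.conf.pos
    obtain ⟨⟨a1, a2, a3, a4, a5, a6, a7⟩, b1, b2, b3, b4, b5, b6, b7, b8, b9, b10⟩ := hI
    refine ⟨⟨a1, a2, ⟨a3.cyl, a3.mem, a3.pos, a3.int, a3.mass.trans (by gcongr)⟩,
      a4.trans (by gcongr), a5.trans hδ1, a6.trans hδ1, ?_⟩, b1, b2, b3, b4, b5, b6, b7, b8, b9,
      b10⟩
    filter_upwards [a7] with y h1 h2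
    exact (h1 h2).trans (by gcongr)
  exact hode T w η κ h₁ 0 t d S _ (ball (0:E) R) h' ν P s hI' hSS hdp W.slab_le W.κt' W.slp hpos
    hrate

end Vale.Agent.P214.BINST
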