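import Vale.Agent.P214.INST.Tests

/-!
# P214, block BINST: the differential inequalities at one scale

`ode_one` : `INST.ode_at` with the test functions inserted.  The curvature `κ` may depend on the
scale; the rate error is absorbed into the error of a given bound `s` of the active heights.
-/

open Set Filter Topology MeasureTheory Metric
open scoped RealInnerProductSpace ContDiff

set_option linter.all false

namespace Vale.Agent.P214.BINST

open FM FV ODE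

variable {E : Type*} [NormedAddCommGroup E] [InnerProductSpace ℝ E] [FiniteDimensional ℝ E]
  [MeasurableSpace E] [BorelSpace E]

/-- **The differential inequalities at one scale.** -/
theorem ode_one {m Q : ℕ} (hRC : LOCF.RateCurved E m Q) {k k' K : ℝ → ℝ} {B ck : ℝ}
    (hk : ODEW.KB k k' K B) (hck : 0 < ck) (hlow : RC2X.KerLow ck k) (A p : ℕ) :
    ∃ C δ S₀ : ℝ, 0 ≤ C ∧ 0 < δ ∧ 0 < S₀ ∧ S₀ < 1 ∧ ∀ (T : Submodule ℝ E) (w : E → E)
      (ε κ h₁ : ℝ) (z : E) (t d S h : ℝ) (G : Set E) (h' : ℝ) (ν : Measure E)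
      (P : E → E →L[ℝ] E) (s : ℝ),
      RC2X.Inp m Q T w ε κ h₁ z t d S k h δ G h' ν P → S ≤ S₀ →
      ((Real.log S⁻¹)⁻¹) ^ p ≤ d → h' ≤ 1 → κ * t ≤ eps0 → ODEW.Slp T w z κ t →
      0 < HF m T w z k (fmeas T w h₁ ν) t →
      ((Real.log S⁻¹)⁻¹) ^ A * S ≤ ((Real.log s⁻¹)⁻¹) ^ 3 * s →
      DifferentiableAt ℝ (HF m T w z k (fmeas T w h₁ ν)) t ∧
      DifferentiableAt ℝ (aF m Q T w z K (fmeas T w h₁ ν)) t ∧
      ABS.Ode (C * κ) (((Real.log s⁻¹)⁻¹) ^ 3 * s * t ^ 2) t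
        (HF m T w z k (fmeas T w h₁ ν) t) (jF m T w h₁ z K (fP T w h₁ P) (fmeas T w h₁ ν) t)
        (aF m Q T w z K (fmeas T w h₁ ν) t) (bF m T w h₁ z k (fP T w h₁ P) (fmeas T w h₁ ν) t)
        (deriv (HF m T w z k (fmeas T w h₁ ν)) t)
        (deriv (aF m Q T w z K (fmeas T w h₁ ν)) t) := by
  obtain ⟨M, hM, htests⟩ := INST.exists_tests E m hk
  obtain ⟨C, δ, S₀, hC, hδ, hS₀, hS₀1, hode⟩ := INST.ode_at hRC hk hck hlow hM A p
  refine ⟨C, δ, S₀, hC, hδ, hS₀, hS₀1, ?_⟩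
  intro T w ε κ h₁ z t d S h G h' ν P s I hSS hLd hh' hκt hsl hpos hs
  have ht := I.tpos
  have hG : BallIn T G z t := RC2X.BallIn.mono I.ball (by nlinarith [I.dpos])
  have hT := htests T w ε κ h₁ z t G I.cylF.dimT I.conf.adm I.conf.cyl.mem ht hκt hsl I.min hG
  obtain ⟨d1, d2, d3⟩ := hode T w ε κ h₁ z t d S h G h' ν P I hSS hLd hh' hκt hsl hT hpos
  exact ⟨d1, d2, INST.ode_mono d3 ht.le le_rfl (by gcongr)⟩

end Vale.Agent.P214.BINST
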