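import Vale.Agent.P214.BSEQ.Props
import Vale.Agent.P214.BABS.Defs
import Vale.Agent.P214.INST.Props
import Vale.Agent.P214.ODEW.Inst

/-!
# P214, target B, block BINST: the chain of a point with power decay, exact statements

Input: `LocB` and `WSeq` (block BSEQ).  `chain` is the abstract chain of section ABS made of the
quantities `HF, jF, aF, bF` of section FM for the references `F.lift (u (k₀ + k + 1))`, centre `0`,
Fermi height `tube S j = r_j h_j^{1/5}` in window `j`.  One proposition for every nontrivial field of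
`BABS.Good (chain ..) b A`.  In all statements `b` is any small exponent and `A` any large constant
(both depend only on the exponents `X` and on `C`): the curvature at the scale `t` is `A t^{b-1}`.
-/

open Set Filter Topology MeasureTheory Metric
open scoped RealInnerProductSpace ContDiff

namespace Vale.Agent.P214.BINST

open WIN FM INST
open WSEQ (th)
open BSEQ (Exps WSeq LocB)

noncomputable section

variable {m n Q : ℕ} {E : Type*} [NormedAddCommGroup E] [InnerProductSpace ℝ E]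
  [FiniteDimensional ℝ E] [MeasurableSpace E] [BorelSpace E]
variable {T : Submodule ℝ E} {F : Frame m n T} {ν : Measure E} {P : E → E →L[ℝ] E}
  {X : Exps} {C ε : ℝ}

/-! ### the chain -/

/-- the reference of window `j` of the sequence -/
def wr (S : WSeq m n Q T F ν X C ε) (j : ℕ) : E → E := F.lift (S.u (j + 1))

/-- the switch radii of the sequence: window `j` is `[Tr S (j+1), Tr S j]` -/
def Tr (S : WSeq m n Q T F ν X C ε) (j : ℕ) : ℝ := S.r j * (1 - 10 * th (S.h j))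

/-- the Fermi height (radius of the tube around the graph of the reference) of window `j` -/
def tube (S : WSeq m n Q T F ν X C ε) (j : ℕ) : ℝ := S.r j * S.h j ^ (1 / 5 : ℝ)

/-- the open ball over which the Fermi coordinates of window `j` are used -/
def Gr (S : WSeq m n Q T F ν X C ε) (j : ℕ) : Set E :=
  ball (0:E) (S.r j * (1 - 9 * th (S.h j)))

/-- the abstract chain, started at window `k₀` of the sequence; curvature `A`, jump exponent `b`
(the curvature error at the scale `t` is `A t^b`) -/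
def chain (k K : ℝ → ℝ) (b A : ℝ) (e : ℕ → ℝ) (P : E → E →L[ℝ] E) (S : WSeq m n Q T F ν X C ε)
    (k₀ : ℕ) : ABS.Chain where
  T j := Tr S (k₀ + j)
  H j := Hw m T ν k (tube S (k₀ + j)) (wr S (k₀ + j))
  j i := jw m T ν P K (tube S (k₀ + i)) (wr S (k₀ + i))
  a j := aw m Q T ν K (tube S (k₀ + j)) (wr S (k₀ + j))
  b j := bw m T ν P k (tube S (k₀ + j)) (wr S (k₀ + j))
  H' j := deriv (Hw m T ν k (tube S (k₀ + j)) (wr S (k₀ + j)))
  a' j := deriv (aw m Q T ν K (tube S (k₀ + j)) (wr S (k₀ + j)))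
  κ := A
  c := b
  m := m
  e := e

/-- window `k₀` is not tiny -/
def Fat (S : WSeq m n Q T F ν X C ε) (k₀ : ℕ) : Prop :=
  S.r (k₀ + 1) < S.r k₀ * (1 - 12 * th (S.h k₀))

/-- the facts which are available at a singular point with power decay -/
structure Ctx (P : E → E →L[ℝ] E) (τ : ℝ) (S : WSeq m n Q T F ν X C ε) : Prop where
  m_pos : 1 ≤ m
  Q_pos : 1 ≤ Q
  ok : X.OK m
  loc : LocB m Q T ν P X.β τ
  C_one : 1 ≤ C
  ε_pos : 0 < ε
  τ_pos : 0 < τ
  τ_le : τ ≤ ε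
  /-- the point is not regular -/
  irr : ∀ ρ, 0 < ρ → ∀ w : E → E, ¬ ALL.OnGraph T ν ρ w

/-- The common frame of all the statements: for all small exponents `b`, all large constants `A`
and all small `ε`, at every point.  `p` is the statement about one sequence. -/
def Ev (E : Type*) [NormedAddCommGroup E] [InnerProductSpace ℝ E] [FiniteDimensional ℝ E]
    [MeasurableSpace E] [BorelSpace E] (m n Q : ℕ)
    (p : ∀ (T : Submodule ℝ E) (F : Frame m n T) (ν : Measure E) (P : E → E →L[ℝ] E)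
      (X : Exps) (C ε : ℝ), WSeq m n Q T F ν X C ε → ℝ → ℝ → Prop) : Prop :=
  ∀ (X : Exps) (C : ℝ), ∃ b₀ > 0, ∀ b, 0 < b → b ≤ b₀ → ∃ A₀ : ℝ, 1 ≤ A₀ ∧ ∀ A, A₀ ≤ A →
    ∃ ε₀ > 0, ∀ (T : Submodule ℝ E) (F : Frame m n T) (ν : Measure E) (P : E → E →L[ℝ] E)
      (ε τ : ℝ) (S : WSeq m n Q T F ν X C ε), Ctx P τ S → ε ≤ ε₀ → p T F ν P X C ε S b A

/-! ### statements -/

/-- **[B-FAT]**: there is a window which is not tiny -/
def FatStmt (E : Type*) [NormedAddCommGroup E] [InnerProductSpace ℝ E] [FiniteDimensional ℝ E]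
    [MeasurableSpace E] [BorelSpace E] (m n Q : ℕ) : Prop :=
  Ev E m n Q fun _ _ _ _ _ _ _ S _ _ => ∃ k₀, Fat S k₀

/-- **[B-REFS]** (helper566): the references are admissible with every curvature bound
`κ ≥ A r_j^{b-1}`; values and slopes; exactness; slopes on the scales of window `j`. -/
def RefsStmt (E : Type*) [NormedAddCommGroup E] [InnerProductSpace ℝ E] [FiniteDimensional ℝ E]
    [MeasurableSpace E] [BorelSpace E] (m n Q : ℕ) : Prop :=
  ∀ η : ℝ, 0 < η → η ≤ eps0 → Ev E m n Q fun T _ _ _ _ _ _ S b A => ∀ j,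
    (∀ κ h₁ : ℝ, A * S.r j ^ (b - 1) ≤ κ → 0 < h₁ → κ * h₁ ≤ 1 / 16 → Adm T (wr S j) η κ h₁) ∧
    ‖wr S j 0‖ ≤ A * (S.r (j + 1) * S.r (j + 1) ^ b) ∧
    ‖wr S j 0‖ ≤ η * S.r (j + 1) ∧
    ‖fderiv ℝ (wr S j) 0‖ ≤ A * S.r (j + 1) ^ b ∧
    MinimalOver T (wr S j) (ball 0 (S.r j * (1 - 5 * th (S.h j)))) ∧
    ∀ t, Tr S (j + 1) ≤ t → t ≤ S.r j →
      A * t ^ (b - 1) * tube S j ≤ 1 / 16 ∧
      Adm T (wr S j) η (A * t ^ (b - 1)) (tube S j) ∧
      ODEW.Slp T (wr S j) 0 (A * t ^ (b - 1)) t ∧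
      ∀ Y, ‖T.starProjection Y‖ ≤ 8 * t → ‖fderiv ℝ (wr S j) Y‖ ≤ A * t ^ b ∧
        ‖wr S j Y‖ ≤ A * (t * t ^ b) ∧ ‖wr S j Y‖ ≤ η * t

/-- **[B-CYL]** (helper856): window `j` in Fermi coordinates: sup of the heights `r_j h_j^{2/5}`
(ambient, over `ball 0 (r_j (1 - 17/2 θ_j))`), stationarity over `Gr S j` in a thin slab, small slab
at the scales of the window. -/
def CylStmt (E : Type*) [NormedAddCommGroup E] [InnerProductSpace ℝ E] [FiniteDimensional ℝ E]
    [MeasurableSpace E] [BorelSpace E] (m n Q : ℕ) : Prop :=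
  ∀ η : ℝ, 0 < η → η ≤ eps0 → Ev E m n Q fun T _ ν P _ _ _ S b A => ∀ j,
    (∀ᵐ y ∂ν, T.starProjection y ∈ ball (0:E) (S.r j * (1 - 17 / 2 * th (S.h j))) →
      ‖FV.co T y - wr S j y‖ ≤ S.r j * S.h j ^ (2 / 5 : ℝ)) ∧
    CylF m T (wr S j) (tube S j) (Gr S j) (2 * (S.r j * S.h j ^ (2 / 5 : ℝ)))
      (fmeas T (wr S j) (tube S j) ν) (fP T (wr S j) (tube S j) P) ∧
    ∀ t, Tr S (j + 1) ≤ t → t ≤ Tr S j → ∀ᵐ Y ∂(fmeas T (wr S j) (tube S j) ν),
      ‖T.starProjection Y‖ < 2 * t → ‖FV.co T Y‖ ≤ η * t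

/-- **[B-SOFT]**: the soft fields -/
def SoftStmt (E : Type*) [NormedAddCommGroup E] [InnerProductSpace ℝ E] [FiniteDimensional ℝ E]
    [MeasurableSpace E] [BorelSpace E] (m n Q : ℕ) (k K : ℝ → ℝ) : Prop :=
  Ev E m n Q fun _ _ _ P _ _ _ S b A => ∀ (k₀ : ℕ) (e : ℕ → ℝ), Fat S k₀ →
    (∀ i, 0 < (chain k K b A e P S k₀).T i) ∧ StrictAnti (chain k K b A e P S k₀).T ∧
    Tendsto (chain k K b A e P S k₀).T atTop (𝓝 0) ∧ (chain k K b A e P S k₀).T 0 ≤ 1 ∧
    ∀ i t, (chain k K b A e P S k₀).Win i t →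
      HasDerivAt ((chain k K b A e P S k₀).H i) ((chain k K b A e P S k₀).H' i t) t ∧
      HasDerivAt ((chain k K b A e P S k₀).a i) ((chain k K b A e P S k₀).a' i t) t ∧
      0 < (chain k K b A e P S k₀).H i t ∧ (chain k K b A e P S k₀).h i t ≤ Real.exp (-10)

/-- **[B-ODE]** (helper731, helper917) -/
def OdeStmt (E : Type*) [NormedAddCommGroup E] [InnerProductSpace ℝ E] [FiniteDimensional ℝ E]
    [MeasurableSpace E] [BorelSpace E] (m n Q : ℕ) (k K : ℝ → ℝ) : Prop :=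
  Ev E m n Q fun _ _ _ P _ _ _ S b A => ∀ (k₀ : ℕ) (e : ℕ → ℝ), Fat S k₀ →
    ∃ t₀ > 0, ∀ i t s, (chain k K b A e P S k₀).Win i t → t ≤ t₀ → 0 < s → s ≤ t₀ →
      (chain k K b A e P S k₀).Bdd t s →
      ABS.Ode (A * t ^ (b - 1)) (((Real.log s⁻¹)⁻¹) ^ 3 * s * t ^ 2) t
        ((chain k K b A e P S k₀).H i t) ((chain k K b A e P S k₀).j i t)
        ((chain k K b A e P S k₀).a i t) ((chain k K b A e P S k₀).b i t)
        ((chain k K b A e P S k₀).H' i t) ((chain k K b A e P S k₀).a' i t)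

/-- **[B-POWER]** (helper915): power decay of the heights -/
def PowerStmt (E : Type*) [NormedAddCommGroup E] [InnerProductSpace ℝ E] [FiniteDimensional ℝ E]
    [MeasurableSpace E] [BorelSpace E] (m n Q : ℕ) (k K : ℝ → ℝ) : Prop :=
  Ev E m n Q fun _ _ _ P _ _ _ S b A => ∀ (k₀ : ℕ) (e : ℕ → ℝ), Fat S k₀ →
    ∀ i t, (chain k K b A e P S k₀).Win i t → (chain k K b A e P S k₀).h i t ≤ A * t ^ b

/-- **[B-LIM]** (helper915): the area excess tends to zero -/
def LimStmt (E : Type*) [NormedAddCommGroup E] [InnerProductSpace ℝ E] [FiniteDimensional ℝ E]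
    [MeasurableSpace E] [BorelSpace E] (m n Q : ℕ) (k K : ℝ → ℝ) : Prop :=
  Ev E m n Q fun _ _ _ P _ _ _ S b A => ∀ (k₀ : ℕ) (e : ℕ → ℝ), Fat S k₀ →
    ∀ η > 0, ∃ t₀ > 0, ∀ i t, (chain k K b A e P S k₀).Win i t → t ≤ t₀ →
      |(chain k K b A e P S k₀).a i t| ≤ η * t ^ 2

/-- **[B-SWITCH]** (helper874): the numbers `e` and the switches (`e k = h_k^{1/2}` is allowed) -/
def SwitchStmt (E : Type*) [NormedAddCommGroup E] [InnerProductSpace ℝ E] [FiniteDimensional ℝ E]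
    [MeasurableSpace E] [BorelSpace E] (m n Q : ℕ) (k K : ℝ → ℝ) : Prop :=
  Ev E m n Q fun _ _ _ P _ _ _ S b A => ∀ k₀ : ℕ, Fat S k₀ → ∃ e : ℕ → ℝ,
    (∀ i, (chain k K b A e P S k₀).Jump i
        ((chain k K b A e P S k₀).h i ((chain k K b A e P S k₀).T (i + 1))) ∧
        (chain k K b A e P S k₀).h i ((chain k K b A e P S k₀).T (i + 1)) ≤ e i ∨
      ∃ l y, (chain k K b A e P S k₀).Near i l y ∧
        (chain k K b A e P S k₀).Jump i ((chain k K b A e P S k₀).h l y) ∧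
        (chain k K b A e P S k₀).h l y ≤ e i ∧
        Real.exp 10 * (chain k K b A e P S k₀).h i ((chain k K b A e P S k₀).T (i + 1))
          ≤ (chain k K b A e P S k₀).h l y ∧
        Real.exp 10 * (chain k K b A e P S k₀).h (i + 1) ((chain k K b A e P S k₀).T (i + 1))
          ≤ (chain k K b A e P S k₀).h l y) ∧
    (∀ i, 0 < e i) ∧ (∀ i, e i ≤ A * (chain k K b A e P S k₀).T i ^ b) ∧
    (∀ i, e (i + 1) ≤ e i ^ (1 + b) ∨
      (chain k K b A e P S k₀).T (i + 1) ≤ (chain k K b A e P S k₀).T i * e i ^ b) ∧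
    ∀ i t s, (chain k K b A e P S k₀).T (i + 1) ≤ t → (chain k K b A e P S k₀).Bdd t s →
      e (i + 1) ≤ s ^ (1 / 4 : ℝ)

/-- the conclusion: the chain is good -/
def GoodStmt (E : Type*) [NormedAddCommGroup E] [InnerProductSpace ℝ E] [FiniteDimensional ℝ E]
    [MeasurableSpace E] [BorelSpace E] (m n Q : ℕ) (k K : ℝ → ℝ) : Prop :=
  Ev E m n Q fun _ _ _ P _ _ _ S b A => b ≤ 1 → ∃ (k₀ : ℕ) (e : ℕ → ℝ),
    BABS.Good (chain k K b A e P S k₀) b A

end

end Vale.Agent.P214.BINST
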