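import Vale.Agent.P214.BINST.Vis
import Vale.Agent.P214.BINST.Sw

/-!
# P214, target B, block BINST: [B-SWITCH], the switches of the chain (helper874)

`ev_swB` : the numerical data `SwB` of the chain (917's `visB`, the jumps);
`switchStmt_of` : 915's `SwitchStmt`.
-/

open Set Filter Topology MeasureTheory Metric
open scoped RealInnerProductSpace ContDiff

set_option linter.all false

namespace Vale.Agent.P214.BINST

open WIN FM INST
open WSEQ (th)
open BSEQ (Exps WSeq LocB)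

variable {m n Q : ℕ} {E : Type*} [NormedAddCommGroup E] [InnerProductSpace ℝ E]
  [FiniteDimensional ℝ E] [MeasurableSpace E] [BorelSpace E]

/-- the jumps of the kernel heights and of the area excess at the switches -/
def JumpB (E : Type*) [NormedAddCommGroup E] [InnerProductSpace ℝ E] [FiniteDimensional ℝ E]
    [MeasurableSpace E] [BorelSpace E] (m n Q : ℕ) (k K : ℝ → ℝ) (C' : ℝ) : Prop :=
  Ev E m n Q fun T _ ν _ X _ _ S _ _ => ∀ j,
    |Hw m T ν k (tube S (j + 1)) (wr S (j + 1)) (Tr S (j + 1)) -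
        Hw m T ν k (tube S j) (wr S j) (Tr S (j + 1))|
      ≤ Tr S (j + 1) ^ 2 * (C' * S.h j ^ (1 + 9 / 5 * X.c)) ∧
    |aw m Q T ν K (tube S (j + 1)) (wr S (j + 1)) (Tr S (j + 1)) -
        aw m Q T ν K (tube S j) (wr S j) (Tr S (j + 1))|
      ≤ Tr S (j + 1) ^ 2 * (C' * S.h j ^ (1 + 9 / 5 * X.c))

/-- the constants of the switches -/
noncomputable def cSw (m : ℕ) : ℝ := (512 * 2 ^ m)⁻¹

lemma cSw_pos (m : ℕ) : 0 < cSw m := by unfold cSw; positivity

lemma cSw_le (m : ℕ) : cSw m ≤ 1 := by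
  unfold cSw
  have h2m : (1:ℝ) ≤ 2 ^ m := one_le_pow₀ (by norm_num)
  exact inv_le_one_of_one_le₀ (by linarith)

/-- the numerical data of the switches of the chain -/
theorem ev_swB {k k' K : ℝ → ℝ} {B C' : ℝ} (hk : Ker k k' K B) (hR : RefsStmt E m n Q)
    (hSoft : SoftStmt E m n Q k K) (hJ : JumpB E m n Q k K C') :
    ∃ C₁ : ℝ, 1 ≤ C₁ ∧ Ev E m n Q fun _ _ _ P X _ _ S b A =>
      ∀ (k₀ : ℕ) (e : ℕ → ℝ), Fat S k₀ →
        SwB (chain k K b A e P S k₀) (fun i => S.r (k₀ + i)) (fun i => S.h (k₀ + i)) (cSw m)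
          X.c X.c₅ X.e' X.β C₁ := by
  have hB := hk.kb.one
  have h2m : (1:ℝ) ≤ 2 ^ m := one_le_pow₀ (by norm_num)
  set C₀ : ℝ := 2 ^ m * 16 * B with hC₀
  have hC₀1 : 1 ≤ C₀ := by nlinarith
  refine ⟨max C₀ C', hC₀1.trans (le_max_left _ _), ?_⟩
  intro X C
  by_cases hX : X.OK m
  swap
  · exact ⟨1, one_pos, fun _ _ _ => ⟨1, le_rfl, fun _ _ => ⟨1, one_pos,
      fun T F ν P ε τ S hS _ => absurd hS.ok hX⟩⟩⟩
  have hc := hX.c_pos
  obtain ⟨b₀, hb₀, h1⟩ := (((visB hk hR hSoft (le_refl C₀)).and hSoft).and hJ) X C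
  refine ⟨min b₀ (X.c / 2), lt_min hb₀ (by linarith), fun b hb hbb => ?_⟩
  have hbc : b ≤ X.c / 2 := hbb.trans (min_le_right _ _)
  obtain ⟨A₀, hA₀, h1⟩ := h1 b hb (hbb.trans (min_le_left _ _))
  refine ⟨A₀, hA₀, fun A hA => ?_⟩
  obtain ⟨a, ha, h1⟩ := h1 A hA
  refine ⟨min a (1 / 2), by positivity, fun T F ν P ε τ S hS hε k₀ e hf => ?_⟩
  have hε1 : ε < 1 := (hε.trans (min_le_right _ _)).trans_lt (by norm_num)
  obtain ⟨⟨⟨hN, -, hV⟩, hsoft⟩, hjump⟩ := h1 T F ν P ε τ S hS (hε.trans (min_le_left _ _))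
  have hV := hV k₀ e hf
  obtain ⟨-, -, -, -, hs5⟩ := hsoft k₀ e hf
  have hC01 : C₀ ≤ max C₀ C' := le_max_left _ _
  have hC11 : C' ≤ max C₀ C' := le_max_right _ _
  have hU : ∀ j, 0 < S.h (j + 1) + S.h j ^ (1 + X.c) := fun j =>
    add_pos (S.h_pos _) (Real.rpow_pos_of_pos (S.h_pos _) _)
  have hθ : ∀ j, 0 < th (S.h j) := fun j => (hN j).th_pos
  exact
    { r_pos := fun i => S.r_pos _
      r_one := fun i => ((hN (k₀ + i)).rle).trans (by norm_num)
      h_pos := fun i => S.h_pos _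
      T_eq := rfl
      Xc0 := hb.le
      Xc := hbc
      step := fun i => by
        rcases (S.nxt (k₀ + i)).h_next with h2 | h2
        · left
          show S.h (k₀ + i + 1) ≤ S.h (k₀ + i) ^ (1 + X.c)
          rw [S.h_eq (k₀ + i + 1)]
          exact h2
        · right; exact h2
      r_ge := fun i => (S.nxt (k₀ + i)).r_ge
      r_le := fun i => (S.nxt (k₀ + i)).r_le
      h_up := fun i => (hV i).h_next
      h_pow := fun i => S.h_pow _
      cont := fun i => by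
        intro t ht
        have h4 := (hs5 i t ht).1.continuousAt
        have ht0 : 0 < t := (hN (k₀ + i)).Tr_pos.trans_le ht.1
        exact (h4.div (continuousAt_id.pow 2) (pow_ne_zero 2 ht0.ne')).continuousWithinAt
      up := fun i => (hV i).up.trans (mul_le_mul_of_nonneg_right hC01 (hU _).le)
      low := fun i => by
        obtain ⟨y, y1, -, y3, y4, y5, y6⟩ := (hV i).low
        refine ⟨y, y1, y3.trans ?_, y4, y5, y6.trans (mul_le_mul_of_nonneg_right hC01 (hU _).le)⟩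
        refine mul_le_mul_of_nonneg_left ?_ (S.r_pos _).le
        have h6 := hθ (k₀ + i)
        show 1 + 11 / 10 * th (S.h (k₀ + i)) ≤ 1 + 2 * th (S.h (k₀ + i))
        linarith
      low' := fun i hi => (hV i).low' hi
      jump_H := fun i => by
        refine (hjump (k₀ + i)).1.trans ?_
        refine mul_le_mul_of_nonneg_left ?_ (sq_nonneg _)
        exact mul_le_mul_of_nonneg_right hC11 (Real.rpow_pos_of_pos (S.h_pos _) _).le
      jump_a := fun i => by
        refine (hjump (k₀ + i)).2.trans ?_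
        refine mul_le_mul_of_nonneg_left ?_ (sq_nonneg _)
        exact mul_le_mul_of_nonneg_right hC11 (Real.rpow_pos_of_pos (S.h_pos _) _).le
      first := hf }

/-- **[B-SWITCH]** -/
theorem switchStmt_of {k k' K : ℝ → ℝ} {B C' : ℝ} (hk : Ker k k' K B) (hR : RefsStmt E m n Q)
    (hSoft : SoftStmt E m n Q k K) (hJ : JumpB E m n Q k K C') : SwitchStmt E m n Q k K := by
  obtain ⟨C₁, hC₁, hsw⟩ := ev_swB hk hR hSoft hJ
  intro X C
  by_cases hX : X.OK m
  swap
  · exact ⟨1, one_pos, fun _ _ _ => ⟨1, le_rfl, fun _ _ => ⟨1, one_pos,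
      fun T F ν P ε τ S hS _ => absurd hS.ok hX⟩⟩⟩
  have hc := hX.c_pos
  have hc5 := hX.c₅_pos
  have hβ := hX.β_pos
  have he' : 0 ≤ X.e' := by
    rw [hX.e'_eq]
    have := hX.e_pos
    positivity
  have he'1 : X.e' ≤ 1 / 20 := by
    have := hX.e'_le
    have := hX.c_le
    linarith
  obtain ⟨ε₁, hε₁, hS₁⟩ := switchB_of (c := X.c) (c₅ := X.c₅) (e' := X.e') (b := X.β) (C := C₁)
    (c₀ := cSw m) hc hX.c_le hc5 ((c₅_le hX).trans (by norm_num)) he' he'1 hβ hC₁ (cSw_pos m)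
    (cSw_le m)
  obtain ⟨b₀, hb₀, h1⟩ := hsw X C
  refine ⟨min (min b₀ 1) (min (X.β / 4) (min (X.c / 2) (X.c₅ / 2))), by positivity,
    fun b hb hbb => ?_⟩
  have e1 : b ≤ b₀ := hbb.trans ((min_le_left _ _).trans (min_le_left _ _))
  have e2 : b ≤ 1 := hbb.trans ((min_le_left _ _).trans (min_le_right _ _))
  have e3 : b ≤ X.β / 4 := hbb.trans ((min_le_right _ _).trans (min_le_left _ _))
  have e4 : b ≤ X.c / 2 :=
    hbb.trans ((min_le_right _ _).trans ((min_le_right _ _).trans (min_le_left _ _)))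
  have e5 : b ≤ X.c₅ / 2 :=
    hbb.trans ((min_le_right _ _).trans ((min_le_right _ _).trans (min_le_right _ _)))
  obtain ⟨A₀, hA₀, h1⟩ := h1 b hb e1
  refine ⟨max A₀ 2, hA₀.trans (le_max_left _ _), fun A hA => ?_⟩
  obtain ⟨a, ha, h1⟩ := h1 A ((le_max_left _ _).trans hA)
  refine ⟨min a ε₁, lt_min ha hε₁, fun T F ν P ε τ S hS hε k₀ hf => ?_⟩
  have D := h1 T F ν P ε τ S hS (hε.trans (min_le_left _ _)) k₀ (fun _ => 0) hf
  exact hS₁ _ _ _ D (fun i => (S.h_le _).trans (hε.trans (min_le_right _ _))) b A hb.le e2 e3 e4 e5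
    ((le_max_right _ _).trans hA)

end Vale.Agent.P214.BINST
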