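import Vale.Agent.P214.BINST.Win
import Vale.Agent.P214.BINST.Rad
import Vale.Agent.P214.INST.SwPair
import Vale.Agent.P214.CMP.JumpOne

/-!
# P214, block BINST (target B): two consecutive references at the switch radius

`SwPairStmt`: the structure `CMP.Sw0` for `(wr S j, wr S (j+1))` at `Tr S (j+1)` with the tube of
window `j`, curvature `κ = 1/(16 r_{j+1})`; closeness `τ ~ h_j^{1/2+2c}` (W6) if
`h_{j+1} ≥ h_j^4`, and `τ ~ h_{j+1}^{1/2-e}` (global size of the increment) otherwise.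
-/

open Set Filter Topology MeasureTheory Metric
open scoped RealInnerProductSpace ContDiff

set_option linter.all false

namespace Vale.Agent.P214.BINST

open WIN FM INST
open WSEQ (th exists_th)
open BSEQ (Exps WSeq LocB)

noncomputable section

/-! ### numbers -/

/-- the increment against the slab -/
theorem swNumB0 (n : ℕ) {e e' : ℝ} (he0 : 0 ≤ e) (he : e ≤ 1 / 1000) (he0' : 0 ≤ e')
    (he' : e' ≤ 1 / 800) :
    ∃ ε₀ : ℝ, 0 < ε₀ ∧ ε₀ < 1 ∧ ∀ h h' : ℝ, 0 < h → h ≤ ε₀ → 0 < h' →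
      h' ≤ h ^ (1 - e') → (n + 1) * h' ^ (1 / 2 - e) ≤ h ^ (2 / 5 : ℝ) := by
  obtain ⟨ε₃, hε₃, hε₃1, H₃⟩ := log_pow_small 0 (b := 1 / 20) (a := 1 / (n + 1)) (by norm_num)
    (by positivity)
  refine ⟨ε₃, hε₃, hε₃1, fun h h' hh hhε hh' hhh => ?_⟩
  have hlt1 : h < 1 := hhε.trans_lt hε₃1
  have f0 := H₃ h hh hhε
  rw [pow_zero, mul_one, le_div_iff₀ (by positivity)] at f0
  have f1 : h' ^ (1 / 2 - e) ≤ (h ^ (1 - e')) ^ (1 / 2 - e) :=
    Real.rpow_le_rpow hh'.le hhh (by linarith)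
  have f2 : (h ^ (1 - e')) ^ (1 / 2 - e) ≤ h ^ (2 / 5 : ℝ) * h ^ (1 / 20 : ℝ) := by
    rw [← Real.rpow_mul hh.le, ← Real.rpow_add hh]
    refine Real.rpow_le_rpow_of_exponent_ge hh hlt1.le ?_
    nlinarith
  have f4 : 0 ≤ h ^ (2 / 5 : ℝ) := Real.rpow_nonneg hh.le _
  calc (n + 1) * h' ^ (1 / 2 - e) ≤ (n + 1) * (h ^ (2 / 5 : ℝ) * h ^ (1 / 20 : ℝ)) :=
        mul_le_mul_of_nonneg_left (f1.trans f2) (by positivity)
    _ = h ^ (2 / 5 : ℝ) * (h ^ (1 / 20 : ℝ) * (n + 1)) := by ring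
    _ ≤ h ^ (2 / 5 : ℝ) * 1 := mul_le_mul_of_nonneg_left f0 f4
    _ = _ := mul_one _

/-- the numerical facts at a switch -/
theorem swNumB (n : ℕ) {c c₅ e : ℝ} (hc : 0 < c) (hc1 : c ≤ 1 / 100) (hc5 : 0 < c₅)
    (hc5' : c₅ ≤ 1 / 160) (he0 : 0 ≤ e) (he : e ≤ 1 / 1000) :
    ∃ ε₀ : ℝ, 0 < ε₀ ∧ ε₀ < 1 ∧ ∀ h h' r r' : ℝ, 0 < h → h ≤ ε₀ → 0 < h' → h' ≤ ε₀ →
      0 < r → r * h ^ c₅ ≤ r' → r' ≤ r * (1 - 12 * th h) →
      0 < th h ∧ 0 < th h' ∧ th h' ≤ 1 / 120 ∧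
      12 * (r * h ^ (2 / 5 : ℝ)) ≤ r' * (1 - 10 * th h') ∧
      6 * (r * h ^ (2 / 5 : ℝ)) < r * h ^ (1 / 5 : ℝ) ∧
      h ^ (1 / 5 : ℝ) ≤ th h ∧
      (h ^ 4 ≤ h' → 8 * (4 * (n + 1) * h ^ (1 / 2 + 2 * c)) ≤ th h' ∧
        12 * (r * h ^ (2 / 5 : ℝ)) +
          6 * ((4 * (n + 1) * h ^ (1 / 2 + 2 * c)) * (r' * (1 - 10 * th h'))) ≤
            r * h ^ (1 / 5 : ℝ) ∧
        r' * (1 - 10 * th h') * (1 + 5 * (4 * (n + 1) * h ^ (1 / 2 + 2 * c))) +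
          6 * (r * h ^ (2 / 5 : ℝ)) ≤ r') ∧
      (h' < h ^ 4 → 8 * (4 * (n + 1) * h' ^ (1 / 2 - e)) ≤ th h' ∧
        12 * (r * h ^ (2 / 5 : ℝ)) +
          6 * ((4 * (n + 1) * h' ^ (1 / 2 - e)) * (r' * (1 - 10 * th h'))) ≤
            r * h ^ (1 / 5 : ℝ)) := by
  have hn : (0:ℝ) ≤ n := Nat.cast_nonneg n
  set a : ℝ := 1 / (1000000 * (n + 1)) with ha
  have ha0 : 0 < a := by positivity
  have han : a * (n + 1) = 1 / 1000000 := by rw [ha]; field_simp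
  have ha1 : a ≤ 1 / 1000000 := by
    rw [ha]
    exact one_div_le_one_div_of_le (by norm_num) (by nlinarith)
  obtain ⟨ε₁, hε₁, hε₁1, H₁⟩ := log_pow_small 7 (b := 1 / 5) (by norm_num) ha0
  obtain ⟨ε₂, hε₂, hε₂1, H₂⟩ := exists_th (a := 1) (b := 1 / 120) one_pos (by norm_num)
  refine ⟨min ε₁ ε₂, lt_min hε₁ hε₂, (min_le_left _ _).trans_lt hε₁1, ?_⟩
  intro h h' r r' hh hhε hh' hhε' hr hr1 hr2
  have hε1 := hhε.trans (min_le_left _ _)
  have hε2 := hhε.trans (min_le_right _ _)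
  have hlt1 : h < 1 := hε1.trans_lt hε₁1
  have hlt1' : h' < 1 := (hhε'.trans (min_le_left _ _)).trans_lt hε₁1
  obtain ⟨-, th0, th1⟩ := H₂ h hh hε2
  obtain ⟨-, th0', th1'⟩ := H₂ h' hh' (hhε'.trans (min_le_right _ _))
  have p1 : h ^ (1 / 5 : ℝ) ≤ a * th h := H₁ h hh hε1
  have p1' : h' ^ (1 / 5 : ℝ) ≤ a * th h' := H₁ h' hh' (hhε'.trans (min_le_left _ _))
  have hr'0 : 0 < r' := lt_of_lt_of_le (mul_pos hr (Real.rpow_pos_of_pos hh _)) hr1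
  have hrt : 0 < r * th h := mul_pos hr th0
  have hrt' : 0 < r' * th h' := mul_pos hr'0 th0'
  have hr'r : r' ≤ r := by linarith
  have hp5 : 0 < h ^ (1 / 5 : ℝ) := Real.rpow_pos_of_pos hh _
  have hat : a * th h ≤ 1 / 1000000 * th h := mul_le_mul_of_nonneg_right ha1 th0.le
  -- the slab
  have s0 : h ^ (2 / 5 : ℝ) = h ^ (1 / 5 : ℝ) * h ^ (1 / 5 : ℝ) := by
    rw [← Real.rpow_add hh]; norm_num
  have s00 : h ^ (2 / 5 : ℝ) ≤ 1 / 1000000 * h ^ (1 / 5 : ℝ) := by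
    rw [s0]
    refine mul_le_mul_of_nonneg_right (p1.trans (hat.trans ?_)) hp5.le
    linarith
  have s1 : h ^ (2 / 5 : ℝ) ≤ h ^ (1 / 5 : ℝ) :=
    Real.rpow_le_rpow_of_exponent_ge hh hlt1.le (by norm_num)
  have s3 : r * h ^ (2 / 5 : ℝ) ≤ r' * (a * th h) := by
    have e1 : h ^ (2 / 5 : ℝ) = h ^ c₅ * h ^ (2 / 5 - c₅) := by
      rw [← Real.rpow_add hh]; ring_nf
    have e2 : h ^ (2 / 5 - c₅) ≤ h ^ (1 / 5 : ℝ) :=
      Real.rpow_le_rpow_of_exponent_ge hh hlt1.le (by linarith)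
    rw [e1, ← mul_assoc]
    exact mul_le_mul hr1 (e2.trans p1) (Real.rpow_nonneg hh.le _) hr'0.le
  have t0 : 0 ≤ r' * (1 - 10 * th h') := mul_nonneg hr'0.le (by linarith)
  have t1 : r' * (1 - 10 * th h') ≤ r' := by linarith
  have g1 : 12 * (r * h ^ (2 / 5 : ℝ)) ≤ r' * (1 - 10 * th h') := by
    have : a * th h ≤ 1 / 1000000 * (1 / 120) := mul_le_mul ha1 th1 th0.le (by norm_num)
    have h2 : r' * (a * th h) ≤ r' * (1 / 1000000 * (1 / 120)) :=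
      mul_le_mul_of_nonneg_left this hr'0.le
    have h3 : r' * th h' ≤ r' * (1 / 120) := mul_le_mul_of_nonneg_left th1' hr'0.le
    linarith
  have g2 : r * h ^ (2 / 5 : ℝ) ≤ 1 / 1000000 * (r * h ^ (1 / 5 : ℝ)) := by
    calc r * h ^ (2 / 5 : ℝ) ≤ r * (1 / 1000000 * h ^ (1 / 5 : ℝ)) :=
          mul_le_mul_of_nonneg_left s00 hr.le
      _ = _ := by ring
  have hrp : 0 < r * h ^ (1 / 5 : ℝ) := mul_pos hr hp5
  -- general step for `τ`
  have G : ∀ y : ℝ, 0 ≤ y → y ≤ h ^ (1 / 2 : ℝ) →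
      12 * (r * h ^ (2 / 5 : ℝ)) +
        6 * ((4 * (n + 1) * y) * (r' * (1 - 10 * th h'))) ≤ r * h ^ (1 / 5 : ℝ) := by
    intro y hy0 hy
    have e0 : h ^ (1 / 2 : ℝ) ≤ h ^ (1 / 5 : ℝ) * (a * th h) := by
      have : h ^ (1 / 2 : ℝ) = h ^ (1 / 5 : ℝ) * h ^ (3 / 10 : ℝ) := by
        rw [← Real.rpow_add hh]; norm_num
      rw [this]
      refine mul_le_mul_of_nonneg_left ?_ hp5.le
      exact (Real.rpow_le_rpow_of_exponent_ge hh hlt1.le (by norm_num)).trans p1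
    have e2 : (n + 1 : ℝ) * y ≤ 1 / 1000000 * h ^ (1 / 5 : ℝ) := by
      calc (n + 1 : ℝ) * y ≤ (n + 1) * (h ^ (1 / 5 : ℝ) * (a * th h)) :=
            mul_le_mul_of_nonneg_left (hy.trans e0) (by positivity)
        _ = (a * (n + 1)) * th h * h ^ (1 / 5 : ℝ) := by ring
        _ = 1 / 1000000 * th h * h ^ (1 / 5 : ℝ) := by rw [han]
        _ ≤ 1 / 1000000 * h ^ (1 / 5 : ℝ) := by
            refine mul_le_mul_of_nonneg_right ?_ hp5.le
            linarith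
    have e3 : (4 * (n + 1) * y) * (r' * (1 - 10 * th h')) ≤
        (4 / 1000000 * h ^ (1 / 5 : ℝ)) * r := by
      have e4 : 4 * (n + 1 : ℝ) * y ≤ 4 / 1000000 * h ^ (1 / 5 : ℝ) := by linarith
      exact mul_le_mul e4 (t1.trans hr'r) t0 (by positivity)
    linarith
  have hhalf : ∀ b : ℝ, 1 / 2 ≤ b → h ^ b ≤ h ^ (1 / 2 : ℝ) := fun b hb =>
    Real.rpow_le_rpow_of_exponent_ge hh hlt1.le hb
  refine ⟨th0, th0', th1', g1, by linarith, p1.trans (by linarith), ?_, ?_⟩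
  · intro h4
    have hL : 0 < Real.log h⁻¹ := Real.log_pos ((one_lt_inv₀ hh).2 hlt1)
    have hL' : 0 < Real.log h'⁻¹ := Real.log_pos ((one_lt_inv₀ hh').2 hlt1')
    have hLL : Real.log h'⁻¹ ≤ 4 * Real.log h⁻¹ := by
      have h1 : Real.log (h ^ 4) ≤ Real.log h' := Real.log_le_log (by positivity) h4
      rw [Real.log_pow] at h1
      rw [Real.log_inv, Real.log_inv]
      push_cast at h1
      linarith
    have hth : th h ≤ 16384 * th h' := by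
      unfold WSEQ.th
      have h1 : (4 * Real.log h⁻¹)⁻¹ ≤ (Real.log h'⁻¹)⁻¹ := inv_anti₀ hL' hLL
      have h2 : ((4 * Real.log h⁻¹)⁻¹) ^ 7 ≤ ((Real.log h'⁻¹)⁻¹) ^ 7 :=
        pow_le_pow_left₀ (by positivity) h1 7
      have h3 : ((4 * Real.log h⁻¹)⁻¹) ^ 7 = (Real.log h⁻¹)⁻¹ ^ 7 / 16384 := by
        rw [mul_inv, mul_pow]; norm_num; ring
      rw [h3] at h2
      linarith
    have e1 : h ^ (1 / 2 + 2 * c) ≤ a * th h :=
      (Real.rpow_le_rpow_of_exponent_ge hh hlt1.le (by linarith)).trans p1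
    have e2 : (n + 1 : ℝ) * h ^ (1 / 2 + 2 * c) ≤ 1 / 1000000 * th h := by
      calc (n + 1 : ℝ) * h ^ (1 / 2 + 2 * c) ≤ (n + 1) * (a * th h) :=
            mul_le_mul_of_nonneg_left e1 (by positivity)
        _ = (a * (n + 1)) * th h := by ring
        _ = _ := by rw [han]
    have e3 : 8 * (4 * (n + 1) * h ^ (1 / 2 + 2 * c)) ≤ th h' := by linarith
    refine ⟨e3, G _ (Real.rpow_nonneg hh.le _) (hhalf _ (by linarith)), ?_⟩
    have e4 : 6 * (r * h ^ (2 / 5 : ℝ)) ≤ r' * (1 / 10 * th h') := by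
      have : a * th h ≤ 1 / 1000000 * (16384 * th h') := hat.trans (by linarith)
      have h5 : r' * (a * th h) ≤ r' * (1 / 1000000 * (16384 * th h')) :=
        mul_le_mul_of_nonneg_left this hr'0.le
      have h6 : 0 < r' * th h' := mul_pos hr'0 th0'
      linarith
    have τ0 : 0 ≤ 4 * (n + 1 : ℝ) * h ^ (1 / 2 + 2 * c) := by positivity
    set τ := 4 * (n + 1 : ℝ) * h ^ (1 / 2 + 2 * c)
    have e5 : (1 - 10 * th h') * (1 + 5 * τ) ≤ 1 - 9 * th h' := by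
      have := mul_nonneg th0'.le τ0
      linarith
    have e6 : r' * (1 - 10 * th h') * (1 + 5 * τ) ≤ r' * (1 - 9 * th h') := by
      rw [mul_assoc]; exact mul_le_mul_of_nonneg_left e5 hr'0.le
    linarith
  · intro h4
    have e1 : h' ^ (1 / 2 - e) ≤ a * th h' :=
      (Real.rpow_le_rpow_of_exponent_ge hh' hlt1'.le (by linarith)).trans p1'
    have e2 : (n + 1 : ℝ) * h' ^ (1 / 2 - e) ≤ 1 / 1000000 * th h' := by
      calc (n + 1 : ℝ) * h' ^ (1 / 2 - e) ≤ (n + 1) * (a * th h') :=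
            mul_le_mul_of_nonneg_left e1 (by positivity)
        _ = (a * (n + 1)) * th h' := by ring
        _ = _ := by rw [han]
    refine ⟨by linarith, G _ (Real.rpow_nonneg hh'.le _) ?_⟩
    calc h' ^ (1 / 2 - e) ≤ (h ^ 4) ^ (1 / 2 - e) :=
          Real.rpow_le_rpow hh'.le h4.le (by linarith)
      _ = h ^ (4 * (1 / 2 - e)) := by
          rw [show h ^ 4 = h ^ (4:ℝ) by norm_cast, ← Real.rpow_mul hh.le]
      _ ≤ _ := hhalf _ (by linarith)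

/-! ### constructions -/

variable {m n Q : ℕ} {E : Type*} [NormedAddCommGroup E] [InnerProductSpace ℝ E]
  [FiniteDimensional ℝ E]

/-- components which are small in scaled norms give a reference in the sense of FM -/
theorem ref_of_small {T : Submodule ℝ E} (F : Frame m n T) {u : Fin n → REF.E m → ℝ}
    {ε r κ η : ℝ} (hsm : ∀ a, ContDiff ℝ ∞ (u a))
    (hu : ∀ a k, 1 ≤ k → k ≤ sW m → ∀ x, ‖iteratedFDeriv ℝ k (u a) x‖ ≤ ε * (r * r⁻¹ ^ k))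
    (hr : 0 < r) (hκ : 0 ≤ κ) (h1 : n * ε ≤ η) (h2 : n * ε ≤ 1)
    (h3 : n * ε ≤ (κ * r) ^ 5) : FM.Ref T (F.lift u) η κ := by
  have hsum : ∀ k, 1 ≤ k → k ≤ sW m → ∀ x, ∑ a, ‖iteratedFDeriv ℝ k (u a) x‖ ≤
      n * ε * (r⁻¹ ^ (k - 1)) := by
    intro k hk1 hk x
    refine (Finset.sum_le_sum fun a _ => hu a k hk1 hk x).trans (le_of_eq ?_)
    have e : r * r⁻¹ ^ k = r⁻¹ ^ (k - 1) := by
      obtain ⟨j, rfl⟩ := Nat.exists_eq_add_of_le' hk1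
      rw [Nat.add_sub_cancel, pow_succ]
      field_simp
    rw [Finset.sum_const, Finset.card_univ, Fintype.card_fin, nsmul_eq_mul, e]
    ring
  have h6 : 6 ≤ sW m := by unfold sW; omega
  refine COORD.fm_ref_lift F hsm hκ (fun x => ?_) fun k hk hk' x => ?_
  · have := hsum 1 le_rfl (by omega) x
    rw [Nat.sub_self, pow_zero, mul_one] at this
    exact this.trans h1
  · refine (hsum k (by omega) (by omega) x).trans ?_
    have h4 : n * ε ≤ (κ * r) ^ (k - 1) := by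
      rcases le_total (κ * r) 1 with h5 | h5
      · exact h3.trans (pow_le_pow_of_le_one (by positivity) h5 (by omega))
      · exact h2.trans (one_le_pow₀ h5)
    calc n * ε * r⁻¹ ^ (k - 1) ≤ (κ * r) ^ (k - 1) * r⁻¹ ^ (k - 1) := by gcongr
      _ = κ ^ (k - 1) := by rw [← mul_pow]; congr 1; field_simp

variable [MeasurableSpace E] [BorelSpace E]
variable {T : Submodule ℝ E} {F : Frame m n T} {ν : Measure E} {P : E → E →L[ℝ] E}
  {X : Exps} {C ε : ℝ}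

/-- the structure `CMP.Sw0` from closeness of the references -/
lemma sw0_of {w w' : E → E} {η κ h₁ r' θ' τ D R' : ℝ} (ad : Adm T w η κ h₁)
    (ad' : Adm T w' η κ h₁) (hκ : κ * r' ≤ 1 / 16) (hr0 : 0 < r')
    (hθ0 : 0 < θ') (hθ1 : θ' ≤ 1 / 120) (hτ0 : 0 ≤ τ) (hτ8 : 8 * τ ≤ θ')
    (hcl : ∀ y, T.starProjection y ∈ ball (0:E) (r' * (1 - 17 / 2 * θ')) → ∀ k ≤ 2,
      ‖iteratedFDeriv ℝ k (fun y => w' y - w y) y‖ ≤ r' * r'⁻¹ ^ k * (τ / 2))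
    (cy : CylF m T w h₁ (ball (0:E) R') (6 * D) (fmeas T w h₁ ν) (fP T w h₁ P))
    (cy' : CylF m T w' h₁ (ball (0:E) R') (6 * D) (fmeas T w' h₁ ν) (fP T w' h₁ P))
    (hD : 6 * D ≤ r' * (1 - 10 * θ')) (hR : r' ≤ R') :
    CMP.Sw0 m T w w' η κ h₁ 0 (r' * (1 - 17 / 2 * θ')) (r' * (1 - 10 * θ')) τ
      (ball (0:E) R') (6 * D) ν P := by
  have hrθ : 0 < r' * θ' := mul_pos hr0 hθ0
  have hrθ2 : r' * θ' ≤ r' * (1 / 120) := mul_le_mul_of_nonneg_left hθ1 hr0.le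
  set t := r' * (1 - 10 * θ') with ht
  have tle : t ≤ r' := by rw [ht]; linarith
  have tge : r' ≤ 2 * t := by rw [ht]; linarith
  have tpos : 0 < t := by linarith
  have hB : ∀ y, T.starProjection y ∈ ball (0:E) (r' * (1 - 17 / 2 * θ')) → _ :=
    fun y hy => INST.diff_bounds ad.ref.smooth ad'.ref.smooth
      (B := fun k => r' * r'⁻¹ ^ k * (τ / 2)) (hcl y hy)
  have hτt : τ / 2 * r' ≤ τ / 2 * (2 * t) := mul_le_mul_of_nonneg_left tge (by linarith)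
  refine ⟨⟨ad, ad', zero_mem T, ?_, tpos, hτ0, by linarith, ?_,
    fun y hy => ?_, fun y hy => ?_, fun y hy v => ?_⟩, ?_, by linarith,
    cy, cy', ?_, hD⟩
  · exact mul_pos hr0 (by linarith)
  · exact (mul_le_mul_of_nonneg_left tle ad.ref.knn).trans hκ
  · refine (hB y hy).1.trans ?_
    rw [pow_zero, mul_one]
    linarith
  · refine (hB y hy).2.1.trans ?_
    rw [pow_one, mul_inv_cancel₀ hr0.ne', one_mul]
    linarith
  · refine ((hB y hy).2.2 v).trans ?_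
    refine mul_le_mul_of_nonneg_right ?_ (norm_nonneg _)
    rw [le_div_iff₀ tpos]
    have e1 : r' * r'⁻¹ ^ 2 * (τ / 2) = τ / 2 / r' := by
      field_simp
    show r' * r'⁻¹ ^ 2 * (τ / 2) * t ≤ τ
    rw [e1, div_mul_eq_mul_div, div_le_iff₀ hr0]
    have : τ * t ≤ τ * r' := mul_le_mul_of_nonneg_left tle hτ0
    have : 0 ≤ τ * t := mul_nonneg hτ0 tpos.le
    linarith
  · rw [ht, mul_assoc]
    refine mul_le_mul_of_nonneg_left ?_ hr0.le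
    have := mul_nonneg hθ0.le hτ0
    linarith
  · intro x hx hxr
    rw [map_zero, sub_zero] at hxr
    rw [mem_ball_zero_iff]
    linarith

/-- the pair of references of a switch -/
lemma pair_finalB {w w' : E → E} {η κ r r' θ θ' d h₁ τ H : ℝ} (A : Adm T w η κ h₁)
    (A' : Adm T w' η κ h₁) (hκ : κ * r' ≤ 1 / 16)
    (hr0 : 0 < r) (hr0' : 0 < r') (hr3 : r ≤ 3 / 16) (hrr : r' ≤ r * (1 - 12 * θ))
    (n1 : 0 < θ') (n2 : 0 < θ) (n3 : θ' ≤ 1 / 120) (n4 : 12 * (r * d) ≤ r' * (1 - 10 * θ'))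
    (n5 : 6 * (r * d) < h₁) (n6 : h₁ ≤ r * θ) (d0 : 0 ≤ d)
    (sl : ∀ᵐ y ∂ν, T.starProjection y ∈ ball (0:E) (r * (1 - 17 / 2 * θ)) →
      ‖FV.co T y - w y‖ ≤ r * d)
    (hww : ∀ y, ‖w' y - w y‖ ≤ r * d) (hloc : FV.CylStat m T (ball (0:E) (3 / 8)) H ν P)
    (cy : CylF m T w h₁ (ball (0:E) (r * (1 - 9 * θ))) (2 * (r * d))
      (fmeas T w h₁ ν) (fP T w h₁ P))
    (hτ0 : 0 ≤ τ) (hτ8 : 8 * τ ≤ θ')
    (hcl : ∀ y, T.starProjection y ∈ ball (0:E) (r' * (1 - 17 / 2 * θ')) → ∀ k ≤ 2,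
      ‖iteratedFDeriv ℝ k (fun y => w' y - w y) y‖ ≤ r' * r'⁻¹ ^ k * (τ / 2)) :
    CMP.Sw0 m T w w' η κ h₁ 0 (r' * (1 - 17 / 2 * θ')) (r' * (1 - 10 * θ')) τ
      (ball (0:E) (r * (1 - 9 * θ))) (6 * (r * d)) ν P := by
  have hrθ : 0 < r * θ := mul_pos hr0 n2
  have hrd : 0 ≤ r * d := mul_nonneg hr0.le d0
  have hη : η ≤ 1 / 16 := A.hε.trans eps0_le
  have hη0 := A.ref.eps_nonneg
  have cs := hloc.shrink (G' := ball (0:E) (r * (1 - 17 / 2 * θ))) isOpen_ball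
    (ball_subset_ball (by linarith))
  have hh0 : 0 < h₁ := A.hpos
  have cy1 := INST.cylF_near (R' := r * (1 - 9 * θ)) sl hww cs A' (by
    have : 2 * η * h₁ ≤ 1 / 8 * h₁ := mul_le_mul_of_nonneg_right (by linarith) hh0.le
    linarith) hrd n5
  exact sw0_of A A' hκ hr0' n1 n3 hτ0 hτ8 hcl (cy.slab_mono (by linarith) n5) cy1 (by linarith)
    (by linarith)

/-! ### the pair -/

/-- **[B-SWPAIR]** two consecutive references at the switch radius -/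
def SwPairStmt (E : Type*) [NormedAddCommGroup E] [InnerProductSpace ℝ E] [FiniteDimensional ℝ E]
    [MeasurableSpace E] [BorelSpace E] (m n Q : ℕ) : Prop :=
  ∀ η : ℝ, 0 < η → η ≤ eps0 → Ev E m n Q fun T _ ν P X _ _ S _ _ => ∀ j, ∃ τ : ℝ,
    CMP.Sw0 m T (wr S j) (wr S (j + 1)) η (16 * S.r (j + 1))⁻¹ (tube S j) 0
      (S.r (j + 1) * (1 - 17 / 2 * th (S.h (j + 1)))) (Tr S (j + 1)) τ (Gr S j)
      (6 * (S.r j * S.h j ^ (2 / 5 : ℝ))) ν P ∧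
    MinimalOver T (wr S (j + 1)) (ball 0 (S.r (j + 1) * (1 - 17 / 2 * th (S.h (j + 1))))) ∧
    12 * (S.r j * S.h j ^ (2 / 5 : ℝ)) ≤ Tr S (j + 1) ∧
    12 * (S.r j * S.h j ^ (2 / 5 : ℝ)) + 6 * (τ * Tr S (j + 1)) ≤ tube S j ∧
    ((S.h j ^ 4 ≤ S.h (j + 1) ∧ τ = 4 * (n + 1) * S.h j ^ (1 / 2 + 2 * X.c) ∧
        Tr S (j + 1) * (1 + 5 * τ) + 6 * (S.r j * S.h j ^ (2 / 5 : ℝ)) ≤ S.r (j + 1)) ∨
      (S.h (j + 1) < S.h j ^ 4 ∧ τ = 4 * (n + 1) * S.h (j + 1) ^ (1 / 2 - X.e)))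

/-- heights at the next radius -/
private lemma h_succ_le_sp (S : WSeq m n Q T F ν X C ε) (hε : ε < 1) (j : ℕ) :
    S.h (j + 1) ≤ S.h j ^ (1 - X.e') := by
  rw [S.h_eq (j + 1)]
  refine (S.nxt j).top _ (S.nxt j).r_ge ?_
  have h1 := (S.nxt j).r_le
  have h2 := th_h_pos S hε j
  have h3 := S.r_pos j
  nlinarith

/-- **[B-SWPAIR]** -/
theorem swPairStmt (hC : CylStmt E m n Q) : SwPairStmt E m n Q := by
  intro η hη0 hη X C
  by_cases hX : X.OK m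
  swap
  · exact ⟨1, one_pos, fun b _ _ => ⟨1, le_rfl, fun A _ => ⟨1, one_pos,
      fun T F ν P ε τ S hS _ => absurd hS.ok hX⟩⟩⟩
  obtain ⟨b₀, hb₀, Hb⟩ := hC η hη0 hη X C
  refine ⟨b₀, hb₀, fun b hb hbb => ?_⟩
  obtain ⟨A₀, hA₀, HA⟩ := Hb b hb hbb
  refine ⟨A₀, hA₀, fun A hA => ?_⟩
  obtain ⟨ε₂, hε₂, H₂⟩ := HA A hA
  have hc := hX.c_le
  have hc0 := hX.c_pos
  have hc5 := BINST.c₅_le hX
  have hc50 := hX.c₅_pos
  have he0 := hX.e_pos
  have hec := hX.e_le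
  have hbp := hX.β_pos
  have hbl := hX.β_le
  have he' := hX.e'_le
  have he'q := hX.e'_eq
  have hm0 : (0:ℝ) ≤ m := Nat.cast_nonneg m
  have he : X.e ≤ 1 / 1000 := by nlinarith
  have he'0 : 0 ≤ X.e' := by rw [he'q]; positivity
  have he'1 : X.e' ≤ 1 / 800 := by linarith
  obtain ⟨ε₄, hε₄, hε₄1, H₄⟩ := swNumB n (c := X.c) (c₅ := X.c₅) (e := X.e) hc0 hc hc50
    hc5 he0.le he
  obtain ⟨ε₅, hε₅, hε₅1, H₅⟩ := swNumB0 n (e := X.e) (e' := X.e') he0.le he he'0 he'1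
  have hn : (0:ℝ) ≤ n := Nat.cast_nonneg n
  refine ⟨min (min ε₂ ε₅) (min ε₄ (min (η / (n + 1)) ((1 / 16) ^ 5 / (n + 1)))),
    by positivity, ?_⟩
  intro T F ν P ε τ₀ S hS hε j
  have q2 : ε ≤ ε₂ := hε.trans ((min_le_left _ _).trans (min_le_left _ _))
  have q3 : ε ≤ ε₅ := hε.trans ((min_le_left _ _).trans (min_le_right _ _))
  have q4 : ε ≤ ε₄ := hε.trans ((min_le_right _ _).trans (min_le_left _ _))
  have q5 : ε ≤ η / (n + 1) :=
    hε.trans ((min_le_right _ _).trans ((min_le_right _ _).trans (min_le_left _ _)))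
  have q6 : ε ≤ (1 / 16) ^ 5 / (n + 1) :=
    hε.trans ((min_le_right _ _).trans ((min_le_right _ _).trans (min_le_right _ _)))
  have hεp := hS.ε_pos
  have hε1 : ε < 1 := q4.trans_lt hε₄1
  have p5 : n * ε ≤ η := by
    rw [le_div_iff₀ (by positivity)] at q5
    linarith
  have p6 : n * ε ≤ (1 / 16) ^ 5 := by
    rw [le_div_iff₀ (by positivity)] at q6
    linarith
  have p7 : n * ε ≤ 1 := p6.trans (by norm_num)
  obtain ⟨sl, cy, -⟩ := H₂ T F ν P ε τ₀ S hS q2 j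
  clear H₂ q5 q6 HA Hb
  -- numbers
  have hh0 := S.h_pos j
  have hh0' := S.h_pos (j + 1)
  have hh1 : S.h j < 1 := h_lt_one S hε1 j
  have hsucc := h_succ_le_sp S hε1 j
  have hr0 := S.r_pos j
  have hr0' := S.r_pos (j + 1)
  obtain ⟨n0, n1, n3, n4, n5, n6, n7, n8⟩ := H₄ (S.h j) (S.h (j + 1)) (S.r j) (S.r (j + 1))
    hh0 ((S.h_le j).trans q4) hh0' ((S.h_le (j + 1)).trans q4) hr0 (S.nxt j).r_ge (S.nxt j).r_le
  have n9 := H₅ (S.h j) (S.h (j + 1)) hh0 ((S.h_le j).trans q3) hh0' hsucc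
  clear H₄ H₅
  have hr3 : S.r j ≤ 3 / 16 := r_le S hε1 j
  have hrr := (S.nxt j).r_le
  have hrle : S.r (j + 1) ≤ S.r j := by
    have := mul_pos hr0 n0
    linarith
  have hrθ' : 0 < S.r (j + 1) * th (S.h (j + 1)) := mul_pos hr0' n1
  have sm := (S.refe (j + 1)).smooth
  have sm' := (S.refe (j + 2)).smooth
  have gl : ∀ k ≤ 2, ∀ y, ‖iteratedFDeriv ℝ k (fun y => wr S (j + 1) y - wr S j y) y‖ ≤
      n * (S.r (j + 1) * (S.r (j + 1))⁻¹ ^ k * S.h (j + 1) ^ (1 / 2 - X.e)) := fun k hk y =>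
    INST.lift_diff F sm sm' fun a => (S.nxt (j + 1)).size a k (by unfold sW; omega) _
  have ga : ∀ k ≤ 2, ∀ y, T.starProjection y ∈ ball (0:E)
      (S.r (j + 1) * (1 - 17 / 2 * th (S.h (j + 1)))) →
      ‖iteratedFDeriv ℝ k (fun y => wr S (j + 1) y - wr S j y) y‖ ≤
      n * (S.r (j + 1) * (S.r (j + 1))⁻¹ ^ k * S.h j ^ (1 / 2 + 2 * X.c)) := by
    intro k hk y hy
    have hx : ‖F.xc y‖ < S.r (j + 1) * (1 - 8 * th (S.h (j + 1))) := by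
      rw [INST.norm_xc]
      rw [mem_ball_zero_iff] at hy
      linarith
    exact INST.lift_diff F sm sm' fun a => S.acc j a k (by omega) _ hx
  -- admissibility
  set κ : ℝ := (16 * S.r (j + 1))⁻¹ with hκd
  have hκ0 : 0 < κ := by positivity
  have hκr : κ * S.r (j + 1) = 1 / 16 := by rw [hκd]; field_simp
  have htb := tube_pos S j
  have htube : tube S j ≤ S.r (j + 1) := by
    have e1 : S.h j ^ (1 / 5 : ℝ) ≤ S.h j ^ X.c₅ :=
      Real.rpow_le_rpow_of_exponent_ge hh0 hh1.le (by linarith)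
    exact (mul_le_mul_of_nonneg_left e1 hr0.le).trans (r_succ_ge S j)
  have hκt : κ * tube S j ≤ 1 / 16 := by
    rw [← hκr]
    exact mul_le_mul_of_nonneg_left htube hκ0.le
  have ad : Adm T (wr S j) η κ (tube S j) :=
    ⟨ref_of_small F sm (S.refe (j + 1)).small hr0' hκ0.le p5 p7 (by rw [hκr]; exact p6), htb, hη,
      hκt⟩
  have ad' : Adm T (wr S (j + 1)) η κ (tube S j) :=
    ⟨ref_of_small F sm' (S.nxt (j + 1)).small hr0' hκ0.le p5 p7 (by rw [hκr]; exact p6), htb, hη,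
      hκt⟩
  have hloc := (hS.loc.int (3 / 8) (by norm_num) le_rfl).cyl
  have hp1 : 0 ≤ S.h j ^ (1 / 2 + 2 * X.c) := Real.rpow_nonneg hh0.le _
  have hp2 : 0 ≤ S.h (j + 1) ^ (1 / 2 - X.e) := Real.rpow_nonneg hh0'.le _
  have hp4 : 0 ≤ S.h j ^ (2 / 5 : ℝ) := Real.rpow_nonneg hh0.le _
  have hacc : ∀ y, ‖wr S (j + 1) y - wr S j y‖ ≤ S.r j * S.h j ^ (2 / 5 : ℝ) := by
    intro y
    have f2 := gl 0 (by norm_num) y
    rw [norm_iteratedFDeriv_zero, pow_zero, mul_one] at f2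
    refine f2.trans ?_
    calc (n : ℝ) * (S.r (j + 1) * S.h (j + 1) ^ (1 / 2 - X.e))
        = S.r (j + 1) * (n * S.h (j + 1) ^ (1 / 2 - X.e)) := by ring
      _ ≤ S.r j * S.h j ^ (2 / 5 : ℝ) :=
        mul_le_mul hrle (le_trans (by linarith) n9) (by positivity) hr0.le
  have main := fun (τ : ℝ) => pair_finalB (τ := τ) ad ad' hκr.le hr0 hr0' hr3 hrr n1 n0 n3 n4 n5
    (mul_le_mul_of_nonneg_left n6 hr0.le) hp4 sl hacc hloc cy
  have mi' : MinimalOver T (wr S (j + 1))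
      (ball 0 (S.r (j + 1) * (1 - 17 / 2 * th (S.h (j + 1))))) := by
    refine (COORD.minimalOver_lift_iff F fun a =>
      (sm' a).of_le (WithTop.coe_le_coe.2 le_top)).2 fun a x hx => ?_
    exact (S.nxt (j + 1)).exact a x (by linarith)
  by_cases h4 : S.h j ^ 4 ≤ S.h (j + 1)
  · obtain ⟨m1, m2, m3⟩ := n7 h4
    have hτ0 : 0 ≤ 4 * (n + 1 : ℝ) * S.h j ^ (1 / 2 + 2 * X.c) := by positivity
    refine ⟨4 * (n + 1 : ℝ) * S.h j ^ (1 / 2 + 2 * X.c), main _ hτ0 m1 ?_, mi', n4, m2,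
      Or.inl ⟨h4, rfl, m3⟩⟩
    intro y hy k hk
    refine (ga k hk y hy).trans ?_
    have hpos : 0 ≤ S.r (j + 1) * (S.r (j + 1))⁻¹ ^ k := by positivity
    calc _ = (S.r (j + 1) * (S.r (j + 1))⁻¹ ^ k) * (n * S.h j ^ (1 / 2 + 2 * X.c)) := by ring
      _ ≤ _ := mul_le_mul_of_nonneg_left (by linarith [mul_nonneg hn hp1]) hpos
  · rw [not_le] at h4
    obtain ⟨m1, m2⟩ := n8 h4
    have hτ0 : 0 ≤ 4 * (n + 1 : ℝ) * S.h (j + 1) ^ (1 / 2 - X.e) := by positivity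
    refine ⟨4 * (n + 1 : ℝ) * S.h (j + 1) ^ (1 / 2 - X.e), main _ hτ0 m1 ?_, mi', n4, m2,
      Or.inr ⟨h4, rfl⟩⟩
    intro y hy k hk
    refine (gl k hk y).trans ?_
    have hpos : 0 ≤ S.r (j + 1) * (S.r (j + 1))⁻¹ ^ k := by positivity
    calc _ = (S.r (j + 1) * (S.r (j + 1))⁻¹ ^ k) * (n * S.h (j + 1) ^ (1 / 2 - X.e)) := by ring
      _ ≤ _ := mul_le_mul_of_nonneg_left (by linarith [mul_nonneg hn hp2]) hpos

end

end Vale.Agent.P214.BINST
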