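import Vale.Agent.P214.BINST.KerOne
import Vale.Agent.P214.INST.SwD

/-!
# P214, block BINST: the kernel heights near the lower end of a window, one-window form

Port of helper700's `INST/Vis` to one window (reference `w`, tube `h₁`, radius `r`, height `h`),
lower end `R`, next collar `θ'`.
* `Wd1.up_sw`  : the kernel height at scales `t ≤ R ≤ 2 t`;
* `Wd1.low_fat` : non-tiny window, the kernel height at `R (1 + θ)`;
* `Wd1.low_A`, `Wd1.low_B`, `Wd1.stray_point` : the two cases of the lower bound by the next height.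
-/

open Set Filter Topology MeasureTheory Metric
open scoped RealInnerProductSpace ContDiff

set_option linter.all false

namespace Vale.Agent.P214.BINST

open Vale.Agent.P214.WIN Vale.Agent.P214.WSEQ Vale.Agent.P214.FM Vale.Agent.P214.INST

variable {m : ℕ} {E : Type*} [NormedAddCommGroup E] [InnerProductSpace ℝ E]
  [FiniteDimensional ℝ E] [MeasurableSpace E] [BorelSpace E]
variable {T : Submodule ℝ E} {w : E → E} {ν : Measure E} {η κ h₁ r h c₅ t d B R : ℝ}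
  {k k' K : ℝ → ℝ}

/-- numbers at the lower end of a window -/
structure EndB (r h c₅ R : ℝ) : Prop where
  c₅_pos : 0 < c₅
  c₅_le : c₅ ≤ 1 / 20
  q16 : h ^ (1 / 4 : ℝ) ≤ 1 / 16 * th h
  rpos : 0 < R
  r_ge : r * h ^ c₅ ≤ R
  r_le : R ≤ r * (1 - 12 * th h)

namespace Wd1

variable (W : Wd1 T w η κ h₁ ν r h)

include W

/-- `r h^{2/5} ≤ R h^{1/4}` -/
lemma disp_end (H : EndB r h c₅ R) : r * h ^ (2 / 5 : ℝ) ≤ R * h ^ (1 / 4 : ℝ) := by
  refine disp_small W.hpos W.h_le_one W.rpos H.c₅_le (le_trans ?_ H.r_ge)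
  have := W.rpos
  have h1 : h ^ (2 * c₅) ≤ h ^ c₅ :=
    Real.rpow_le_rpow_of_exponent_ge W.hpos W.h_le_one (by linarith [H.c₅_pos])
  gcongr

lemma r_le_end (H : EndB r h c₅ R) : R * (1 + th h) ≤ r * (1 - 11 * th h) := by
  have h1 := W.th_pos
  have h2 := W.th_le
  have h3 := W.rpos
  calc R * (1 + th h) ≤ (r * (1 - 12 * th h)) * (1 + th h) := by
        gcongr; exact H.r_le
    _ ≤ _ := by nlinarith [mul_pos h3 h1, mul_pos (mul_pos h3 h1) h1]

/-- pointwise bound of the integrand near the switch radius -/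
lemma hIn_sw (hkb : ODEW.KB k k' K B) (ht0 : 0 < t) (htR : t ≤ R)
    (hR9 : R ≤ r * (1 - 9 * th h))
    (hdisp : r * h ^ (2 / 5 : ℝ) ≤ R * h ^ (1 / 4 : ℝ)) :
    ∀ᵐ y ∂ν, hIn T w h₁ 0 k t y ≤
      (Skel.cylSet T 0 R).indicator (fun y => 2 * B * ‖FV.co T y - w y‖ ^ 2) y +
      (Skel.cylSet T 0 (R * (1 + h ^ (1 / 4 : ℝ)))).indicator
        (fun y => B * h ^ (1 / 4 : ℝ) * ‖FV.co T y - w y‖ ^ 2) y := by
  have hB := hkb.one
  have hq := W.q_pos
  have hq1 : h ^ (1 / 4 : ℝ) ≤ 1 := by linarith [W.quart, W.th_le]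
  have hR0 : 0 < R := ht0.trans_le htR
  filter_upwards [W.slab'] with y hy
  have hnn2 : 0 ≤ (Skel.cylSet T 0 (R * (1 + h ^ (1 / 4 : ℝ)))).indicator
      (fun y => B * h ^ (1 / 4 : ℝ) * ‖FV.co T y - w y‖ ^ 2) y :=
    indicator_nonneg (fun _ _ => mul_nonneg (mul_nonneg (by linarith) hq.le) (sq_nonneg _)) _
  have hnn1 : 0 ≤ (Skel.cylSet T 0 R).indicator
      (fun y => 2 * B * ‖FV.co T y - w y‖ ^ 2) y :=
    indicator_nonneg (fun _ _ => mul_nonneg (by linarith) (sq_nonneg _)) _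
  obtain ⟨a, b⟩ := W.adm.hIn_le (z := 0) hkb.kern.pk.zero hkb.kB hkb.kern.nonneg ht0 y
  by_cases hyt : ‖ODE.bx T 0 (PsiInv T w h₁ y)‖ < t
  · rw [indicator_of_mem (by exact hyt)] at b
    by_cases hyR : y ∈ Skel.cylSet T 0 R
    · rw [indicator_of_mem hyR]; linarith
    · -- a stray
      rw [indicator_of_notMem hyR, zero_add]
      have hyR' : R ≤ ‖ODE.bx T 0 y‖ := by
        rw [← setOf_bx_zero] at hyR
        exact not_lt.1 hyR
      have h2 := hy (by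
        rw [← bx_zero]
        exact hyt.trans_le (htR.trans hR9))
      have h4 := W.adm.ref.eps_nonneg
      have h5 : η * ‖FV.co T (PsiInv T w h₁ y)‖ ≤ 1 / 8 * (R * h ^ (1 / 4 : ℝ)) := by
        calc _ ≤ 1 / 16 * (2 * (r * h ^ (2 / 5 : ℝ))) := by
              have := W.adm.eps_le
              gcongr
          _ ≤ 1 / 16 * (2 * (R * h ^ (1 / 4 : ℝ))) := by gcongr
          _ = _ := by ring
      obtain ⟨c1, c2⟩ := W.adm.stray_le hkb ht0 htR hq.le hq1 hyt hyR' h5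
      have hmem : y ∈ Skel.cylSet T 0 (R * (1 + h ^ (1 / 4 : ℝ))) := by
        rw [← setOf_bx_zero]
        show ‖ODE.bx T 0 y‖ < R * (1 + h ^ (1 / 4 : ℝ))
        have := mul_pos hR0 hq
        have e : R * (1 + h ^ (1 / 4 : ℝ)) = R + R * h ^ (1 / 4 : ℝ) := by ring
        rw [e]; linarith
      rw [indicator_of_mem hmem]
      exact c1
  · rw [indicator_of_notMem (by exact hyt)] at b
    linarith

/-- integrated form -/
lemma int_sw (hkb : ODEW.KB k k' K B) (ht0 : 0 < t) (htR : t ≤ R)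
    (hR9 : R * (1 + h ^ (1 / 4 : ℝ)) ≤ r * (1 - 9 * th h))
    (hdisp : r * h ^ (2 / 5 : ℝ) ≤ R * h ^ (1 / 4 : ℝ)) :
    ∫ y, hIn T w h₁ 0 k t y ∂ν ≤
      2 * B * (R ^ (m + 2) * STR.hN m T w ν R) + B * h ^ (1 / 4 : ℝ) *
        ((R * (1 + h ^ (1 / 4 : ℝ))) ^ (m + 2) *
        STR.hN m T w ν (R * (1 + h ^ (1 / 4 : ℝ)))) := by
  have hq := W.q_pos
  have hR0 : 0 < R := ht0.trans_le htR
  have hRR : R ≤ R * (1 + h ^ (1 / 4 : ℝ)) := by
    have := mul_pos hR0 hq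
    linarith
  have hR8 : R * (1 + h ^ (1 / 4 : ℝ)) < 3 / 8 := by
    refine hR9.trans_lt ?_
    nlinarith [W.th_pos, W.rpos, W.rle]
  have i1 : Integrable ((Skel.cylSet T 0 R).indicator
      (fun y => 2 * B * ‖FV.co T y - w y‖ ^ 2)) ν :=
    (integrable_indicator_iff (KMS.measurableSet_cylSet T 0 R)).2
      (Integrable.const_mul (W.int R (hRR.trans_lt hR8)) (2 * B))
  have i2 : Integrable ((Skel.cylSet T 0 (R * (1 + h ^ (1 / 4 : ℝ)))).indicator
      (fun y => B * h ^ (1 / 4 : ℝ) * ‖FV.co T y - w y‖ ^ 2)) ν :=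
    (integrable_indicator_iff (KMS.measurableSet_cylSet T 0 _)).2
      (Integrable.const_mul (W.int _ hR8) _)
  have htr : t ≤ r := by
    refine htR.trans (hRR.trans (hR9.trans ?_))
    nlinarith [W.th_pos, W.rpos]
  have hI := W.integrable (t := t) hkb.kern.pk.continuous hkb.kern.pk.zero hkb.kB
    hkb.kern.nonneg ht0 htr
  have h2 := integral_mono_ae hI (i1.add i2) (W.hIn_sw hkb ht0 htR (hRR.trans hR9) hdisp)
  simp only [Pi.add_apply] at h2
  rw [integral_add i1 i2, integral_indicator (KMS.measurableSet_cylSet T 0 _),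
    integral_indicator (KMS.measurableSet_cylSet T 0 _), integral_const_mul,
    integral_const_mul, int_eq_hN (m := m) hR0,
    int_eq_hN (m := m) (lt_of_lt_of_le hR0 hRR)] at h2
  exact h2

/-- **upper bound at the switch radius** -/
lemma up_sw (H : EndB r h c₅ R) (hkb : ODEW.KB k k' K B) {b : ℝ} (hb : 0 ≤ b)
    (ht0 : 0 < t) (htR : t ≤ R) (htR2 : R ≤ 2 * t)
    (htop : STR.hN m T w ν (R * (1 + h ^ (1 / 4 : ℝ))) ≤ b) :
    INST.Hw m T ν k h₁ w t ≤ t ^ 2 *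
      (2 ^ m * 8 * B * (STR.hN m T w ν R + 2 ^ m * 4 * (h ^ (1 / 4 : ℝ) * b))) := by
  have hr := H.rpos
  have hB := hkb.one
  have hq := W.q_pos
  have hq1 : h ^ (1 / 4 : ℝ) ≤ 1 := by linarith [W.quart, W.th_le]
  have hRj9 : R * (1 + h ^ (1 / 4 : ℝ)) ≤ r * (1 - 9 * th h) := by
    have h3 : R * (1 + h ^ (1 / 4 : ℝ)) ≤ r * (1 - 11 * th h) := by
      refine le_trans ?_ (W.r_le_end H)
      have : h ^ (1 / 4 : ℝ) ≤ th h := by linarith [W.quart, W.th_pos]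
      gcongr
    refine h3.trans ?_
    nlinarith [mul_pos W.rpos W.th_pos]
  have h1 := W.int_sw (m := m) hkb ht0 htR hRj9 (W.disp_end H)
  have hh1 : 0 ≤ STR.hN m T w ν R := hN_nonneg hr.le
  have h0 := hN_nonneg (m := m) (T := T) (ν := ν) (w := w)
    (t := R * (1 + h ^ (1 / 4 : ℝ))) (by positivity)
  generalize h ^ (1 / 4 : ℝ) = q at *
  generalize STR.hN m T w ν (R * (1 + q)) = g at *
  generalize STR.hN m T w ν R = h' at *
  unfold INST.Hw
  rw [W.adm.HF_eq, zpow_neg, zpow_natCast]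
  generalize ∫ y, hIn T w h₁ 0 k t y ∂ν = I at *
  have h8 : R ^ (m + 2) ≤ 2 ^ m * 4 * t ^ (m + 2) := by
    calc R ^ (m + 2) ≤ (2 * t) ^ (m + 2) := by gcongr
      _ = _ := by rw [mul_pow, pow_add 2]; ring
  have h9 : (R * (1 + q)) ^ (m + 2) ≤ 2 ^ m * 4 * R ^ (m + 2) := by
    calc (R * (1 + q)) ^ (m + 2) ≤ (2 * R) ^ (m + 2) := by
          have : R * (1 + q) ≤ 2 * R := by nlinarith
          gcongr
      _ = _ := by rw [mul_pow, pow_add 2]; ring
  have h10 : I ≤ R ^ (m + 2) * (2 * B) * (h' + 2 ^ m * 4 * (q * b)) := by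
    have h5 : B * q * ((R * (1 + q)) ^ (m + 2) * g) ≤
        B * q * (2 ^ m * 4 * R ^ (m + 2) * b) := by gcongr
    have h7 : 0 ≤ R ^ (m + 2) * B * (2 ^ m * 4 * (q * b)) := by positivity
    nlinarith
  calc (t ^ m)⁻¹ * I ≤ (t ^ m)⁻¹ * (R ^ (m + 2) * (2 * B) * (h' + 2 ^ m * 4 * (q * b))) := by
        gcongr
    _ ≤ (t ^ m)⁻¹ * (2 ^ m * 4 * t ^ (m + 2) * (2 * B) * (h' + 2 ^ m * 4 * (q * b))) := by
        gcongr
    _ = _ := by rw [pow_add t]; field_simp; ring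

/-- **non-tiny window**: the kernel height at `R (1 + θ)` -/
lemma low_fat (H : EndB r h c₅ R) (hkb : ODEW.KB k k' K B)
    (hk3 : ∀ s, 0 ≤ s → s ≤ 1 → (1 - s) ^ 3 ≤ k s) (hfat : R < r * (1 - 12 * th h)) {g₀ : ℝ}
    (hg₀ : 0 < g₀) (hgt : ∀ t, R < t → t ≤ r * (1 - 12 * th h) → g₀ < STR.hN m T w ν t) :
    R ^ 2 * ((128 * 2 ^ m)⁻¹ * th h ^ 3 * g₀) ≤ INST.Hw m T ν k h₁ w (R * (1 + th h)) := by
  have hr := H.rpos
  have hθ := W.th_pos
  have hθ1 := W.th_le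
  -- a radius slightly above `R`
  obtain ⟨t, ht1, ht2⟩ := exists_between (show R < min (r * (1 - 12 * th h))
    (R * (1 + th h / 4)) from lt_min hfat (by nlinarith))
  have ht3 := lt_min_iff.1 ht2
  have ht0 : 0 < t := hr.trans ht1
  set d := R * (1 + th h) / t - 1 with hd
  have htd : t * (1 + d) = R * (1 + th h) := by rw [hd]; field_simp; ring
  have hd1 : d ≤ th h := by
    have : R * (1 + th h) / t ≤ 1 + th h := by
      rw [div_le_iff₀ ht0]
      nlinarith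
    linarith
  have hd2 : th h / 2 ≤ d := by
    have : 1 + th h / 2 ≤ R * (1 + th h) / t := by
      rw [le_div_iff₀ ht0]
      calc (1 + th h / 2) * t ≤ (1 + th h / 2) * (R * (1 + th h / 4)) := by
            have := ht3.2.le
            gcongr
        _ ≤ R * (1 + th h) := by
            have : (1 + th h / 2) * (1 + th h / 4) ≤ 1 + th h := by nlinarith
            nlinarith
    linarith
  have hend := W.r_le_end H
  have h1 := W.lower (m := m) H.c₅_le hkb.kern.pk.continuous hkb.kern.pk.zero hkb.kB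
    hkb.kern.nonneg hk3
    (t := t) (d := d) (by
      refine le_trans ?_ (H.r_ge.trans ht1.le)
      have := W.rpos
      have h1 : h ^ (2 * c₅) ≤ h ^ c₅ :=
        Real.rpow_le_rpow_of_exponent_ge W.hpos W.h_le_one (by linarith [H.c₅_pos])
      gcongr) (by linarith [H.q16]) (by linarith) (by
      rw [htd]
      refine hend.trans ?_
      nlinarith [mul_pos W.rpos hθ])
  rw [htd] at h1
  have h2 : g₀ < STR.hN m T w ν t := hgt t ht1 ht3.1.le
  have hd0 : 0 < d := by linarith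
  set g := INST.Hw m T ν k h₁ w (R * (1 + th h)) with hg
  have h3 : g₀ ≤ 16 * 2 ^ m * d⁻¹ ^ 3 * (t ^ 2)⁻¹ * g := h2.le.trans h1
  have h4 : (t ^ 2 * d ^ 3 / (16 * 2 ^ m)) * g₀ ≤ g := by
    calc (t ^ 2 * d ^ 3 / (16 * 2 ^ m)) * g₀ ≤
          (t ^ 2 * d ^ 3 / (16 * 2 ^ m)) * (16 * 2 ^ m * d⁻¹ ^ 3 * (t ^ 2)⁻¹ * g) := by gcongr
      _ = g := by field_simp
  refine le_trans ?_ h4
  have h5 : R ^ 2 ≤ t ^ 2 := pow_le_pow_left₀ hr.le ht1.le 2
  have h6 : (th h / 2) ^ 3 ≤ d ^ 3 := pow_le_pow_left₀ (by positivity) hd2 3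
  calc R ^ 2 * ((128 * 2 ^ m)⁻¹ * th h ^ 3 * g₀) =
        (R ^ 2 * (th h / 2) ^ 3 / (16 * 2 ^ m)) * g₀ := by
        rw [mul_inv]; field_simp; ring
    _ ≤ _ := by gcongr

/-- **case A**: no strays at distance `θ' R` -/
lemma low_A (H : EndB r h c₅ R) (hkb : ODEW.KB k k' K B)
    (hk3 : ∀ s, 0 ≤ s → s ≤ 1 → (1 - s) ^ 3 ≤ k s) {θ' : ℝ} (hθ' : 0 < θ')
    (hθ1' : θ' ≤ 1 / 2) (htr : R * (1 + θ') ≤ r)
    (hA : ∀ᵐ y ∂ν, ‖T.starProjection y‖ < R → ‖FV.co T y - w y‖ ≤ θ' * R) :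
    R ^ 2 * ((16 * 2 ^ m)⁻¹ * θ' ^ 3 * STR.hN m T w ν R) ≤
      INST.Hw m T ν k h₁ w (R * (1 + θ')) := by
  have hr := H.rpos
  have ht0 : 0 < R * (1 + θ') := by positivity
  have hlow : ∀ᵐ y ∂ν, y ∈ Skel.cylSet T 0 R → θ' ^ 3 / 4 ≤
      k (aX T w 0 (PsiInv T w h₁ y) / (R * (1 + θ')) ^ 2) := by
    filter_upwards [hA] with y hy hyt
    have hyt' : ‖T.starProjection y‖ < R := by
      have h0 : T.starProjection y ∈ ball (0:E) R := hyt
      exact mem_ball_zero_iff.1 h0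
    have h1 := W.adm.le_bx' 0 y
    have h2 := hy hyt'
    have h4 := W.adm.ref.eps_nonneg
    have h5 := W.adm.co_le y
    unfold aX XX
    refine ker_low hk3 hr hθ' (by linarith) (norm_nonneg _) ?_
    rw [bx_zero] at h1 ⊢
    rw [bx_zero] at h1
    have h6 : η * ‖FV.co T (PsiInv T w h₁ y)‖ ≤ 1 / 16 * (256 / 255 * (θ' * R)) := by
      have := W.adm.eps_le
      calc _ ≤ 1 / 16 * (256 / 255 * ‖FV.co T y - w y‖) := by gcongr
        _ ≤ _ := by gcongr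
    have h7 := mul_pos hθ' hr
    nlinarith
  have h1 := W.adm.HF_ge m (z := 0) hkb.kern.nonneg ht0
    (KMS.measurableSet_cylSet T 0 R)
    (W.integrable hkb.kern.pk.continuous hkb.kern.pk.zero hkb.kB hkb.kern.nonneg ht0 htr)
    (by positivity : 0 ≤ θ' ^ 3 / 4) hlow
  rw [int_eq_hN (m := m) hr] at h1
  refine le_trans ?_ h1
  have hh1 : 0 ≤ STR.hN m T w ν R := hN_nonneg hr.le
  generalize STR.hN m T w ν R = h' at *
  have h2 : ((2 * R) ^ m)⁻¹ ≤ ((R * (1 + θ')) ^ m)⁻¹ := by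
    have : R * (1 + θ') ≤ 2 * R := by nlinarith
    gcongr
  calc R ^ 2 * ((16 * 2 ^ m)⁻¹ * θ' ^ 3 * h') =
        θ' ^ 3 / 4 / 4 * ((2 * R) ^ m)⁻¹ * (R ^ (m + 2) * h') := by
        rw [mul_pow, pow_add R]; field_simp; ring
    _ ≤ _ := by gcongr

/-- **case B**: a support point of height `a` near `C_R` is visible at `R + 4 a` -/
lemma low_B (H : EndB r h c₅ R) (hkb : ODEW.KB k k' K B)
    (hk3 : ∀ s, 0 ≤ s → s ≤ 1 → (1 - s) ^ 3 ≤ k s) {Q : ℕ} {P : E → E →L[ℝ] E} {δ' H' : ℝ}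
    (hI : Skel.IntCyl m Q T 0 (3 / 8) H' δ' ν P) {y₀ : E} (hy₀ : y₀ ∈ ν.support)
    (hy₁ : ‖T.starProjection y₀‖ < R) {a : ℝ} (ha : a = ‖FV.co T y₀ - w y₀‖)
    (ha0 : 0 < a) (ha1 : a ≤ R * h ^ (1 / 4 : ℝ)) :
    R ^ 2 * (cg m * (8 ^ m)⁻¹ * (a / R) ^ (m + 5)) ≤ INST.Hw m T ν k h₁ w (R + 4 * a) := by
  have hr := H.rpos
  have hq := W.q_pos
  have hq1 : 16 * h ^ (1 / 4 : ℝ) ≤ th h := by linarith [H.q16]
  have hq2 : th h ≤ 1 / 120 := W.th_le
  have hend := W.r_le_end H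
  have ha2 : 16 * a ≤ R * th h := by nlinarith
  have ha3 : 16 * a ≤ R := by nlinarith
  have ht0 : 0 < R + 4 * a := by positivity
  have hrj : R ≤ r := by nlinarith [mul_pos W.rpos W.th_pos, H.r_le]
  have htr : R + 4 * a ≤ r := by nlinarith [mul_pos W.rpos W.th_pos]
  have hfin := hI.cyl.fin
  -- geometry of the ball
  have hgeo : ∀ y ∈ closedBall y₀ (a / 4), a / 2 ≤ ‖FV.co T y - w y‖ ∧
      ‖FV.co T y - w y‖ ≤ 2 * a ∧ ‖T.starProjection y‖ < R + a / 4 := by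
    intro y hy
    rw [mem_closedBall, dist_eq_norm] at hy
    have h1 : ‖(FV.co T y - w y) - (FV.co T y₀ - w y₀)‖ ≤ a / 2 := by
      have e1 : (FV.co T y - w y) - (FV.co T y₀ - w y₀) =
          FV.co T (y - y₀) - (w y - w y₀) := by rw [map_sub]; abel
      rw [e1]
      have h2 := FV.norm_co_le T (y - y₀)
      have h3 := W.adm.ref.norm_w_sub_le y₀ y
      have h4 : ‖ODE.bx T y₀ y‖ ≤ a / 4 := (FV.norm_star_le T _).trans hy
      have h5 := W.adm.ref.eps_nonneg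
      have h6 : η * ‖ODE.bx T y₀ y‖ ≤ 1 / 16 * (a / 4) := by
        have := W.adm.eps_le
        gcongr
      refine (norm_sub_le _ _).trans ?_
      linarith
    have h2 := norm_sub_norm_le (FV.co T y₀ - w y₀) (FV.co T y - w y)
    rw [norm_sub_rev (FV.co T y₀ - w y₀), ← ha] at h2
    have h3 := norm_sub_norm_le (FV.co T y - w y) (FV.co T y₀ - w y₀)
    rw [← ha] at h3
    refine ⟨by linarith, by linarith, ?_⟩
    have h4 : ‖T.starProjection y‖ ≤ ‖T.starProjection y₀‖ + ‖T.starProjection (y - y₀)‖ := by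
      calc ‖T.starProjection y‖ = ‖T.starProjection y₀ + T.starProjection (y - y₀)‖ := by
            rw [map_sub]; congr 1; abel
        _ ≤ _ := norm_add_le _ _
    have h5 := FV.norm_star_le T (y - y₀)
    linarith
  set d := 4 * a / R with hd
  have hd0 : 0 < d := by positivity
  have hd1 : d ≤ 1 / 2 := by
    rw [hd, div_le_iff₀ hr]; linarith
  have hRd : R * (1 + d) = R + 4 * a := by
    rw [hd]; field_simp
  have hRd4 : R * (1 + d / 4) = R + a := by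
    rw [hd]; field_simp
  have hlow : ∀ᵐ y ∂ν, y ∈ closedBall y₀ (a / 4) → d ^ 3 / 4 ≤
      k (aX T w 0 (PsiInv T w h₁ y) / (R + 4 * a) ^ 2) := by
    refine Eventually.of_forall fun y hy => ?_
    obtain ⟨g1, g2, g3⟩ := hgeo y hy
    have h1 := W.adm.le_bx' 0 y
    have h4 := W.adm.ref.eps_nonneg
    have h5 := W.adm.co_le y
    rw [← hRd]
    unfold aX XX
    refine ker_low hk3 hr hd0 hd1 (norm_nonneg _) ?_
    rw [bx_zero] at h1 ⊢
    rw [bx_zero] at h1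
    rw [hRd4]
    have h6 : η * ‖FV.co T (PsiInv T w h₁ y)‖ ≤ 1 / 16 * (256 / 255 * (2 * a)) := by
      have := W.adm.eps_le
      calc _ ≤ 1 / 16 * (256 / 255 * ‖FV.co T y - w y‖) := by gcongr
        _ ≤ _ := by gcongr
    linarith
  have h1 := W.adm.HF_ge m (z := 0) hkb.kern.nonneg ht0
    (measurableSet_closedBall (x := y₀) (ε := a / 4))
    (W.integrable hkb.kern.pk.continuous hkb.kern.pk.zero hkb.kB hkb.kern.nonneg ht0 htr)
    (by positivity : 0 ≤ d ^ 3 / 4) hlow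
  -- mass of the ball
  have hmass := QP.low_intCyl hI hy₀ (s := a / 4) (by positivity) (by
    rw [sub_zero]
    linarith [W.rle])
  have hsub : closedBall y₀ (a / 4) ⊆ Skel.cylSet T 0 r := by
    intro y hy
    have := (hgeo y hy).2.2
    show T.starProjection y ∈ ball (0:E) r
    rw [mem_ball_zero_iff]
    linarith
  have hint : IntegrableOn (fun y => ‖FV.co T y - w y‖ ^ 2) (closedBall y₀ (a / 4)) ν :=
    (W.int r (by linarith [W.rle])).mono_set hsub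
  have h2 : (a / 2) ^ 2 * ν.real (closedBall y₀ (a / 4)) ≤
      ∫ y in closedBall y₀ (a / 4), ‖FV.co T y - w y‖ ^ 2 ∂ν := by
    have h3 : ∫ y in closedBall y₀ (a / 4), (a / 2) ^ 2 ∂ν ≤
        ∫ y in closedBall y₀ (a / 4), ‖FV.co T y - w y‖ ^ 2 ∂ν := by
      refine setIntegral_mono_on (integrable_const _) hint measurableSet_closedBall
        fun y hy => ?_
      exact pow_le_pow_left₀ (by positivity) (hgeo y hy).1 2
    rw [setIntegral_const, smul_eq_mul, mul_comm] at h3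
    exact h3
  have hcg := cg_pos m
  have h3 : (a / 2) ^ 2 * (cg m * (a / 4) ^ m) ≤
      ∫ y in closedBall y₀ (a / 4), ‖FV.co T y - w y‖ ^ 2 ∂ν :=
    (mul_le_mul_of_nonneg_left hmass (sq_nonneg _)).trans h2
  refine le_trans ?_ h1
  have h4 : ((2 * R) ^ m)⁻¹ ≤ ((R + 4 * a) ^ m)⁻¹ := by
    have : R + 4 * a ≤ 2 * R := by linarith
    gcongr
  have h5 : d ^ 3 / 4 / 4 * ((2 * R) ^ m)⁻¹ * ((a / 2) ^ 2 * (cg m * (a / 4) ^ m)) ≤
      d ^ 3 / 4 / 4 * ((R + 4 * a) ^ m)⁻¹ *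
        ∫ y in closedBall y₀ (a / 4), ‖FV.co T y - w y‖ ^ 2 ∂ν := by
    gcongr
  refine le_trans (le_of_eq ?_) h5
  rw [hd]
  have e8 : (8:ℝ) ^ m = 2 ^ m * 4 ^ m := by rw [← mul_pow]; norm_num
  rw [e8, div_pow, div_pow, mul_pow 2 R, div_pow a 4, pow_add a, pow_add R]
  field_simp
  ring

/-- a stray support point gives a lower bound -/
lemma stray_point (H : EndB r h c₅ R) (hkb : ODEW.KB k k' K B)
    (hk3 : ∀ s, 0 ≤ s → s ≤ 1 → (1 - s) ^ 3 ≤ k s) {Q : ℕ} {P : E → E →L[ℝ] E} {δ' H' : ℝ}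
    (hI : Skel.IntCyl m Q T 0 (3 / 8) H' δ' ν P) {θ' : ℝ} (hθ' : 0 < θ')
    (hA : ¬ ∀ᵐ y ∂ν, ‖T.starProjection y‖ < R → ‖FV.co T y - w y‖ ≤ θ' * R) :
    ∃ ρ, 0 < ρ ∧ ρ ≤ h ^ (1 / 4 : ℝ) ∧ θ' ≤ ρ ∧
      cg m * (8 ^ m)⁻¹ / 4 * ρ ^ (m + 5) ≤
        INST.Hw m T ν k h₁ w (R * (1 + 4 * ρ)) / (R * (1 + 4 * ρ)) ^ 2 := by
  have hr := H.rpos
  have hθ := W.th_pos
  have hfreq : ∃ᶠ y in ae ν, ¬(‖T.starProjection y‖ < R →
    ‖FV.co T y - w y‖ ≤ θ' * R) := not_eventually.1 hA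
  have hsp : ∀ᵐ y ∂ν, y ∈ ν.support := Measure.support_mem_ae
  obtain ⟨y₀, hy₀, hys, hysup⟩ := (hfreq.and_eventually (hsp.and W.sup)).exists
  simp only [Classical.not_imp, not_le] at hy₀
  obtain ⟨hy1, hy2⟩ := hy₀
  have hrj : R ≤ r * (1 - 17 / 2 * th h) := by
    refine H.r_le.trans ?_
    nlinarith [mul_pos W.rpos hθ]
  have h1 := hysup (mem_ball_zero_iff.2 (hy1.trans_le hrj))
  obtain ⟨a, ha⟩ : ∃ a, a = ‖FV.co T y₀ - w y₀‖ := ⟨_, rfl⟩
  rw [← ha] at hy2 h1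
  have ha0 : 0 < a := lt_trans (by positivity) hy2
  have ha1 : a ≤ R * h ^ (1 / 4 : ℝ) := h1.trans (W.disp_end H)
  have h2 := W.low_B H hkb hk3 hI hys hy1 ha ha0 ha1
  have hρ0 : 0 < a / R := by positivity
  have hρ1 : a / R ≤ h ^ (1 / 4 : ℝ) := by
    rw [div_le_iff₀ hr]; linarith
  have hρ2 : θ' ≤ a / R := by
    rw [le_div_iff₀ hr]; exact hy2.le
  have hq : h ^ (1 / 4 : ℝ) ≤ 1 / 16 * th h := H.q16
  have hYe : R + 4 * a = R * (1 + 4 * (a / R)) := by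
    field_simp
  rw [hYe] at h2
  refine ⟨a / R, hρ0, hρ1, hρ2, ?_⟩
  have hρ3 : a / R ≤ 1 / 16 := by linarith [W.th_le]
  have hcg := cg_pos m
  have h3 := div_sq_ge hr (y := R * (1 + 4 * (a / R))) (by nlinarith)
    (by nlinarith) (by positivity) h2
  refine le_trans (le_of_eq ?_) h3
  ring

end Wd1

end Vale.Agent.P214.BINST
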